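import Vale.Agent.P218N.GB.Count
import Vale.Agent.P218N.GB.Orbit
import Mathlib.Topology.UrysohnsLemma
import Mathlib.Analysis.Normed.Module.FiniteDimension
import Mathlib.Combinatorics.Pigeonhole
import Mathlib.Data.Nat.Nth

/-! # Far cuts which are crossed once by a path from the core to the core are finite in number;
arcs in a wall have exactly two end points. -/

open Filter Topology Set

noncomputable section

set_option linter.unusedSectionVars false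

namespace Vale.Agent.P218N.CM

open Vale.Agent.P218N.GB

variable {X : Type*} [TopologicalSpace X]

/-- a compactly supported map to the circle, zero on `{f ≤ ρ₀}`, with a nonzero period on a
connected set inside `{f ≤ ρ₁}` with two marked points in `{f ≤ 3}` -/
def Cfg (f : X → ℝ) (ρ₀ ρ₁ : ℝ) (p p' : X) : Prop :=
  ∃ (u : C(X, UnitAddCircle)) (N : Set X), HasCompactSupport u ∧ (∀ x, f x ≤ ρ₀ → u x = 0) ∧
    IsPreconnected N ∧ p ∈ N ∧ p' ∈ N ∧ (∀ x ∈ N, f x ≤ ρ₁) ∧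
    ∀ (U : C(X, ℝ)) (n : ℤ), n ≠ 0 → (∀ x ∈ N, (U x : UnitAddCircle) = n • u x) → U p ≠ U p'

theorem Cfg.mono {f : X → ℝ} {ρ₀ ρ₁ σ₀ σ₁ : ℝ} {p p' : X} (h : Cfg f ρ₀ ρ₁ p p') (h0 : σ₀ ≤ ρ₀)
    (h1 : ρ₁ ≤ σ₁) : Cfg f σ₀ σ₁ p p' := by
  obtain ⟨u, N, a, b, c, d, e, g, k⟩ := h
  exact ⟨u, N, a, fun x hx => b x (hx.trans h0), c, d, e, fun x hx => (g x hx).trans h1, k⟩

theorem no_cfg [LocallyConnectedSpace X] {b : ℕ} (hb : RankC X b) {f : X → ℝ} (hf : Continuous f)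
    (hK : IsCompact {x | f x ≤ 3}) :
    ∃ ρ₀ : ℝ, ∀ ρ₁ p p', f p ≤ 3 → f p' ≤ 3 → ¬ Cfg f ρ₀ ρ₁ p p' := by
  classical
  by_contra! hc
  choose r p p' hp hp' hcfg using hc
  -- a finite cover of the core by connected sets
  have ho : IsOpen {x | f x < 4} := isOpen_lt hf continuous_const
  obtain ⟨T, -, hT⟩ := hK.elim_nhds_subcover (fun x => connectedComponentIn {x | f x < 4} x)
    fun x hx => (ho.connectedComponentIn (x := x)).mem_nhds
      (mem_connectedComponentIn (show f x < 4 by have : f x ≤ 3 := hx; linarith))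
  have hT' : ∀ x, f x ≤ 3 → ∃ z : T, x ∈ connectedComponentIn {x | f x < 4} (z : X) := fun x hx => by
    obtain ⟨z, hz, h⟩ := mem_iUnion₂.1 (hT hx)
    exact ⟨⟨z, hz⟩, h⟩
  choose z hz using hT'
  -- an increasing sequence of radii
  let ρ : ℕ → ℝ := fun n => Nat.rec 4 (fun _ s => max s (r s)) n
  have ρs : ∀ n, ρ (n + 1) = max (ρ n) (r (ρ n)) := fun n => rfl
  have ρm : Monotone ρ := monotone_nat_of_le_succ fun n => by rw [ρs]; exact le_max_left _ _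
  have ρ4 : ∀ n, 4 ≤ ρ n := fun n => ρm (Nat.zero_le n)
  obtain ⟨y, hy⟩ := Finite.exists_infinite_fiber
    (fun n : ℕ => (z (p (ρ n)) (hp _), z (p' (ρ n)) (hp' _)))
  have hinf : {n : ℕ | (z (p (ρ n)) (hp _), z (p' (ρ n)) (hp' _)) = y}.Infinite :=
    Set.infinite_coe_iff.1 hy
  let φ : ℕ → ℕ := Nat.nth fun n => (z (p (ρ n)) (hp _), z (p' (ρ n)) (hp' _)) = y
  have φm : StrictMono φ := Nat.nth_strictMono hinf
  have φy : ∀ n, (z (p (ρ (φ n))) (hp _), z (p' (ρ (φ n))) (hp' _)) = y :=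
    fun n => Nat.nth_mem_of_infinite hinf n
  choose u N c1 c2 c3 c4 c5 c6 c7 using fun n => hcfg (ρ (φ n))
  have van : ∀ m n, m < n → ∀ x ∈ N m, u n x = 0 := fun m n h x hx => by
    refine c2 n x ((c6 m x hx).trans ?_)
    exact ((le_max_right _ _).trans (ρs (φ m)).ge).trans (ρm (φm h))
  obtain ⟨m, m0, U, hU⟩ := hb (Fin (b + 1)) (fun l => u (2 * l + 1)) (fun l => c1 _) (by simp)
  obtain ⟨i, hi, hmin⟩ := (Finset.univ.filter fun i => m i ≠ 0).exists_min_image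
    (fun i : Fin (b + 1) => (i : ℕ)) (by
      obtain ⟨i, hi⟩ := Function.ne_iff.1 m0
      exact ⟨i, by simpa using hi⟩)
  have hi' : m i ≠ 0 := by simpa using hi
  have core : ∀ (q : T) {x x' : X}, x ∈ connectedComponentIn {x | f x < 4} (q : X) →
      x' ∈ connectedComponentIn {x | f x < 4} (q : X) → U x = U x' := fun q x x' hx hx' =>
    int_const isPreconnected_connectedComponentIn U.continuous.continuousOn (fun v hv => by
      rw [hU]
      refine Finset.sum_eq_zero fun l _ => ?_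
      have : f v < 4 := connectedComponentIn_subset {x | f x < 4} _ hv
      rw [c2 _ v (this.le.trans (ρ4 _)), smul_zero]) hx hx'
  have e1 : U (p (ρ (φ (2 * i)))) = U (p' (ρ (φ (2 * i)))) :=
    int_const (c3 (2 * i)) U.continuous.continuousOn (fun v hv => by
      rw [hU]
      refine Finset.sum_eq_zero fun l _ => ?_
      by_cases hl : m l = 0
      · rw [hl, zero_smul]
      · have := hmin l (by simpa using hl)
        rw [van (2 * i) (2 * l + 1) (by omega) v hv, smul_zero]) (c4 _) (c5 _)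
  refine c7 (2 * i + 1) U (m i) hi' (fun v hv => ?_) ?_
  · rw [hU, Finset.sum_eq_single i (fun l _ hl => ?_) (by simp)]
    by_cases hl0 : m l = 0
    · rw [hl0, zero_smul]
    · have h1 := hmin l (by simpa using hl0)
      have h2 : (i : ℕ) ≠ l := fun e => hl (Fin.ext e.symm)
      rw [van (2 * i + 1) (2 * l + 1) (by omega) v hv, smul_zero]
  · have k1 := (φy (2 * i)).trans (φy (2 * i + 1)).symm
    rw [Prod.mk.injEq] at k1
    have c1 := core _ (k1.1 ▸ hz _ (hp (ρ (φ (2 * i))))) (hz _ (hp (ρ (φ (2 * i + 1)))))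
    have c2 := core _ (k1.2 ▸ hz _ (hp' (ρ (φ (2 * i))))) (hz _ (hp' (ρ (φ (2 * i + 1)))))
    rw [← c1, ← c2]
    exact e1

/-- a compact clopen part `Γ` of the common boundary of two closed sets, crossed once -/
theorem cfg_of_cut [RegularSpace X] [LocallyCompactSpace X] {f : X → ℝ} (hf : Continuous f)
    {ρ₀ ρ₁ : ℝ} (h3 : 3 ≤ ρ₀) {A B Γ Γ' N₀ N₁ N₂ : Set X} (hA : IsClosed A) (hB : IsClosed B)
    (hAB : ∀ x, x ∈ A ∨ x ∈ B) (hΓ : IsCompact Γ) (hΓ' : IsClosed Γ') (hd : Disjoint Γ Γ')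
    (hcov : A ∩ B ⊆ Γ ∪ Γ') (hfar : ∀ x ∈ Γ, ρ₀ < f x) {x₁ x₂ p p' : X} (h1 : x₁ ∈ Γ)
    (h2 : x₂ ∈ Γ') (n0 : IsPreconnected N₀) (n1 : IsPreconnected N₁) (n2 : IsPreconnected N₂)
    (s0 : N₀ ⊆ A) (s1 : N₁ ⊆ B) (s2 : N₂ ⊆ B) (m01 : x₁ ∈ N₀) (m02 : x₂ ∈ N₀) (m11 : x₁ ∈ N₁)
    (m1p : p ∈ N₁) (m22 : x₂ ∈ N₂) (m2p : p' ∈ N₂) (hp : f p ≤ 3) (hp' : f p' ≤ 3)
    (b0 : ∀ x ∈ N₀, f x ≤ ρ₁) (b1 : ∀ x ∈ N₁, f x ≤ ρ₁) (b2 : ∀ x ∈ N₂, f x ≤ ρ₁) :
    Cfg f ρ₀ ρ₁ p p' := by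
  classical
  obtain ⟨ψ, ψ1, ψ0, ψc, -⟩ := exists_continuous_one_zero_of_isCompact hΓ
    (hΓ'.union (isClosed_le hf (continuous_const (y := ρ₀))))
    (disjoint_union_right.2 ⟨hd, disjoint_left.2 fun x hx hx' => (hfar x hx).not_ge hx'⟩)
  have z1 : ∀ x ∈ Γ', ψ x = 0 := fun x hx => ψ0 (Or.inl hx)
  have z2 : ∀ x, f x ≤ ρ₀ → ψ x = 0 := fun x hx => ψ0 (Or.inr hx)
  have cm : Continuous fun t : ℝ => (t : UnitAddCircle) := AddCircle.continuous_mk' 1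
  have agree : ∀ x ∈ A ∩ B, ((ψ x / 2 : ℝ) : UnitAddCircle) = ((-(ψ x / 2) : ℝ) : UnitAddCircle) := by
    intro x hx
    rcases hcov hx with k | k
    · rw [show ψ x = 1 from ψ1 k, show (1 / 2 : ℝ) = -(1 / 2) + 1 by norm_num, AddCircle.coe_add,
        AddCircle.coe_period, add_zero]
      norm_num
    · simp [z1 x k]
  let g : X → UnitAddCircle := fun x =>
    if x ∈ A then ((ψ x / 2 : ℝ) : UnitAddCircle) else ((-(ψ x / 2) : ℝ) : UnitAddCircle)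
  have gA : ∀ x ∈ A, g x = ((ψ x / 2 : ℝ) : UnitAddCircle) := fun x hx => if_pos hx
  have gB : ∀ x ∈ B, g x = ((-(ψ x / 2) : ℝ) : UnitAddCircle) := fun x hx => by
    by_cases k : x ∈ A
    · rw [gA x k, agree x ⟨k, hx⟩]
    · exact if_neg k
  have gc : Continuous g := by
    rw [← continuousOn_univ, show (univ : Set X) = A ∪ B from (eq_univ_of_forall hAB).symm]
    exact ContinuousOn.union_of_isClosed
      ((cm.comp (ψ.continuous.div_const 2)).continuousOn.congr gA)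
      ((cm.comp (ψ.continuous.div_const 2).neg).continuousOn.congr gB) hA hB
  have g0 : ∀ x, ψ x = 0 → g x = 0 := fun x hx => by simp [g, hx]
  refine ⟨⟨g, gc⟩, N₁ ∪ N₀ ∪ N₂, ψc.mono fun x hx e => hx (g0 x e), fun x hx => g0 x (z2 x hx),
    ((n1.union x₁ m11 m01 n0).union x₂ (Or.inr m02) m22 n2), Or.inl (Or.inl m1p), Or.inr m2p,
    ?_, fun U n hn hU e => ?_⟩
  · rintro x ((k | k) | k)
    exacts [b1 x k, b0 x k, b2 x k]
  have kA : ∀ x ∈ N₁ ∪ N₀ ∪ N₂, x ∈ A → ((U x - n * (ψ x / 2) : ℝ) : UnitAddCircle) = 0 :=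
    fun x hx hxA => by
      rw [AddCircle.coe_sub, hU x hx, ← zsmul_eq_mul, AddCircle.coe_zsmul, ← gA x hxA]
      exact sub_self _
  have kB : ∀ x ∈ N₁ ∪ N₀ ∪ N₂, x ∈ B → ((U x - n * (-(ψ x / 2)) : ℝ) : UnitAddCircle) = 0 :=
    fun x hx hxB => by
      rw [AddCircle.coe_sub, hU x hx, ← zsmul_eq_mul, AddCircle.coe_zsmul, ← gB x hxB]
      exact sub_self _
  have cA : Continuous fun x => U x - n * (ψ x / 2) := by fun_prop
  have cB : Continuous fun x => U x - n * (-(ψ x / 2)) := by fun_prop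
  have e0 := int_const n0 cA.continuousOn (fun x hx => kA x (Or.inl (Or.inr hx)) (s0 hx)) m01 m02
  have e1 := int_const n1 cB.continuousOn (fun x hx => kB x (Or.inl (Or.inl hx)) (s1 hx)) m11 m1p
  have e2 := int_const n2 cB.continuousOn (fun x hx => kB x (Or.inr hx) (s2 hx)) m22 m2p
  rw [show ψ x₁ = 1 from ψ1 h1] at e0 e1
  rw [z1 x₂ h2] at e0 e2
  rw [z2 p (hp.trans h3)] at e1
  rw [z2 p' (hp'.trans h3)] at e2
  exact hn (by exact_mod_cast (by linarith : (n : ℝ) = 0))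

variable {E : Type*} [NormedAddCommGroup E] [NormedSpace ℝ E] [FiniteDimensional ℝ E]

/-- `x` is joined to the ball of radius `3` by a bounded connected subset of `T` -/
def ToCore (T : Set E) (x : E) : Prop :=
  ∃ (N : Set E) (p : E), IsPreconnected N ∧ Bornology.IsBounded N ∧ N ⊆ T ∧ x ∈ N ∧ p ∈ N ∧ ‖p‖ ≤ 3

/-- no compact cut outside the ball of radius `ρ₀` is crossed exactly once -/
def NoCut (S : Set E) (ρ₀ : ℝ) : Prop :=
  ∀ (A B Γ Γ' N : Set E) (x₁ x₂ : E), IsClosed A → IsClosed B → S ⊆ A ∪ B → IsCompact Γ →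
    IsClosed Γ' → Disjoint Γ Γ' → S ∩ A ∩ B ⊆ Γ ∪ Γ' → (∀ x ∈ Γ, ρ₀ < ‖x‖) → x₁ ∈ Γ → x₂ ∈ Γ' →
    IsPreconnected N → Bornology.IsBounded N → N ⊆ S ∩ A → x₁ ∈ N → x₂ ∈ N →
    ToCore (S ∩ B) x₁ → ToCore (S ∩ B) x₂ → False

theorem NoCut.mono {S : Set E} {ρ₀ ρ₁ : ℝ} (h : NoCut S ρ₀) (hρ : ρ₀ ≤ ρ₁) : NoCut S ρ₁ :=
  fun A B Γ Γ' N x₁ x₂ a1 a2 a3 a4 a5 a6 a7 a8 =>
    h A B Γ Γ' N x₁ x₂ a1 a2 a3 a4 a5 a6 a7 fun x hx => hρ.trans_lt (a8 x hx)

theorem preconnected_val {S N : Set E} (hN : IsPreconnected N) (h : N ⊆ S) :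
    IsPreconnected ((↑) ⁻¹' N : Set S) := by
  rw [← IsInducing.subtypeVal.isPreconnected_image, Subtype.image_preimage_coe,
    inter_eq_right.2 h]
  exact hN

theorem exists_noCut {S : Set E} (hS : IsClosed S) [LocallyConnectedSpace S] {b : ℕ}
    (hb : RankC S b) : ∃ ρ₀, NoCut S ρ₀ := by
  have : ProperSpace E := FiniteDimensional.proper_real E
  have : LocallyCompactSpace S := hS.locallyCompactSpace
  have hf : Continuous fun x : S => ‖(x : E)‖ := continuous_subtype_val.norm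
  obtain ⟨ρ₀, h⟩ := no_cfg hb hf (by
    have := hS.isClosedEmbedding_subtypeVal.isCompact_preimage (isCompact_closedBall (0 : E) 3)
    simpa [preimage, Metric.mem_closedBall] using this)
  refine ⟨max ρ₀ 3, fun A B Γ Γ' N x₁ x₂ hA hB hAB hΓ hΓ' hd hcov hfar h1 h2 n0 b0 s0 m1 m2
    ⟨N₁, p, n1, b1, s1, m11, m1p, hp⟩ ⟨N₂, p', n2, b2, s2, m22, m2p, hp'⟩ => ?_⟩
  obtain ⟨ρ₁, hρ⟩ := ((b0.union b1).union b2).exists_norm_le
  refine h ρ₁ ⟨p, (s1 m1p).1⟩ ⟨p', (s2 m2p).1⟩ hp hp' (Cfg.mono (ρ₀ := max ρ₀ 3) (ρ₁ := ρ₁) ?_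
    (le_max_left _ _) le_rfl)
  exact cfg_of_cut hf (le_max_right _ _) (A := (Subtype.val ⁻¹' A : Set S))
    (B := (Subtype.val ⁻¹' B : Set S)) (Γ := (Subtype.val ⁻¹' Γ : Set S))
    (Γ' := (Subtype.val ⁻¹' Γ' : Set S)) (N₀ := (Subtype.val ⁻¹' N : Set S))
    (N₁ := (Subtype.val ⁻¹' N₁ : Set S)) (N₂ := (Subtype.val ⁻¹' N₂ : Set S))
    (x₁ := ⟨x₁, (s0 m1).1⟩) (x₂ := ⟨x₂, (s0 m2).1⟩) (hA.preimage continuous_subtype_val)
    (hB.preimage continuous_subtype_val) (fun x => hAB x.2)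
    (hS.isClosedEmbedding_subtypeVal.isCompact_preimage hΓ) (hΓ'.preimage continuous_subtype_val)
    (hd.preimage _) (fun x hx => hcov ⟨⟨x.2, hx.1⟩, hx.2⟩) (fun x hx => hfar x hx) h1 h2
    (preconnected_val n0 fun x hx => (s0 hx).1) (preconnected_val n1 fun x hx => (s1 hx).1)
    (preconnected_val n2 fun x hx => (s2 hx).1) (fun x hx => (s0 hx).2) (fun x hx => (s1 hx).2)
    (fun x hx => (s2 hx).2) m1 m2 m11 m1p m22 m2p hp hp'
    (fun x hx => hρ _ (Or.inl (Or.inl hx))) (fun x hx => hρ _ (Or.inl (Or.inr hx)))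
    (fun x hx => hρ _ (Or.inr hx))

end Vale.Agent.P218N.CM
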