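import Vale.Agent.P218N.Defs
import Vale.Agent.P218N.CM.Cut

/-! # Multiplicity one at infinity: cross sections and statements -/

open Set Real
open scoped RealInnerProductSpace

noncomputable section

namespace Vale.Agent.P218N.CM

open Vale.Agent.P218N.H Vale.Agent.P218N.GB

/-- the point with coordinates `(a, b, h)` in the frame `(e, y, n)` -/
def pt (e y n : E3) (a b h : ℝ) : E3 := a • e + b • y + h • n

/-- In the square of size `L` of the plane `⟨e, x⟩ = a`, the surface `{w = 0}` is `ε`-close to the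
line `h = 0` and transversal to `n`, and some vertical segment meets it in `k` points. -/
def SecP (w : E3 → ℝ) (e y n : E3) (k : ℕ) (σ ε L a : ℝ) : Prop :=
  (∀ b h, |b| ≤ L → |h| ≤ L → w (pt e y n a b h) = 0 →
    |h| ≤ ε ∧ σ ≤ |⟪nuW w (pt e y n a b h), n⟫|) ∧
  ∃ b, |b| ≤ L ∧ {h | |h| ≤ L ∧ w (pt e y n a b h) = 0}.ncard = k

/-- In the disc of radius `L` of the plane `⟨e, x⟩ = a`, the surface `{w = 0}` is close to the circle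
of radius `√2` and transversal to the radial direction, and some radius meets it in `k` points. -/
def SecC (w : E3 → ℝ) (e y n : E3) (k : ℕ) (σ L a : ℝ) : Prop :=
  (∀ θ r, 0 ≤ r → r ≤ L → w (pt e y n a (r * cos θ) (r * sin θ)) = 0 → |r - √2| ≤ 1 / 10 ∧
    σ ≤ |⟪nuW w (pt e y n a (r * cos θ) (r * sin θ)), cos θ • y + sin θ • n⟫|) ∧
  ∃ θ, {r | 0 ≤ r ∧ r ≤ L ∧ w (pt e y n a (r * cos θ) (r * sin θ)) = 0}.ncard = k

/-- for every size `L`, the levels `a` with `P L a` are asymptotically dense on a logarithmic scale -/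
def Often (P : ℝ → ℝ → Prop) : Prop :=
  ∀ L η : ℝ, 0 < η → ∃ a₀, ∀ a, a₀ ≤ a → ∃ a', a ≤ a' ∧ a' ≤ (1 + η) * a ∧ P L a'

/-- planar limits have multiplicity at most one (the plane may depend on the level) -/
def MultP : Prop :=
  ∀ (w : E3 → ℝ) (b k : ℕ) (e : E3) (σ : ℝ), Shr w → RankC {x | w x = 0} b → 0 < σ →
    Often (fun L a => ∃ y n, Orthonormal ℝ ![e, y, n] ∧ SecP w e y n k σ (1 / 10) L a) → k ≤ 1

/-- cylindrical limits have multiplicity at most one -/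
def MultC : Prop :=
  ∀ (w : E3 → ℝ) (b k : ℕ) (e y n : E3) (σ : ℝ), Shr w → RankC {x | w x = 0} b → 0 < σ →
    Orthonormal ℝ ![e, y, n] → Often (SecC w e y n k σ) → k ≤ 1

/-- ordered Lipschitz graphs through transversal zeros -/
def SheetsStmt : Prop :=
  ∀ (G : ℝ × ℝ → ℝ) (b₁ b₂ h₁ h₂ Λ b₀ : ℝ) (k : ℕ), ContDiff ℝ 1 G →
    (∀ b ∈ Icc b₁ b₂, ∀ h ∈ Icc h₁ h₂, G (b, h) = 0 → h ∈ Ioo h₁ h₂ ∧
      fderiv ℝ G (b, h) (0, 1) ≠ 0 ∧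
      |fderiv ℝ G (b, h) (1, 0)| ≤ Λ * |fderiv ℝ G (b, h) (0, 1)|) →
    b₀ ∈ Icc b₁ b₂ → {h | h ∈ Icc h₁ h₂ ∧ G (b₀, h) = 0}.ncard = k →
    ∃ u : Fin k → ℝ → ℝ, (∀ l, ContinuousOn (u l) (Icc b₁ b₂)) ∧
      (∀ l, ∀ b ∈ Icc b₁ b₂, ∀ b' ∈ Icc b₁ b₂, |u l b - u l b'| ≤ Λ * |b - b'|) ∧
      (∀ b ∈ Icc b₁ b₂, StrictMono fun l => u l b) ∧
      ∀ b ∈ Icc b₁ b₂, ∀ h, (h ∈ Icc h₁ h₂ ∧ G (b, h) = 0) ↔ ∃ l, u l b = h

/-- two paths across a strip which change their order meet -/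
def CrossStmt : Prop :=
  ∀ (p q : ℝ → ℝ × ℝ) (a₀ a₁ : ℝ), ContinuousOn p (Icc 0 1) → ContinuousOn q (Icc 0 1) →
    (∀ t ∈ Icc (0 : ℝ) 1, (p t).1 ∈ Icc a₀ a₁ ∧ (q t).1 ∈ Icc a₀ a₁) →
    (p 0).1 = a₀ → (q 0).1 = a₀ → (p 1).1 = a₁ → (q 1).1 = a₁ →
    (p 0).2 < (q 0).2 → (q 1).2 < (p 1).2 → ∃ s ∈ Icc (0 : ℝ) 1, ∃ t ∈ Icc (0 : ℝ) 1, p s = q t

/-- planes which are nowhere tangent to a surface are dense -/
def GenStmt : Prop :=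
  ∀ (w : E3 → ℝ) (e y n : E3) (c δ : ℝ), ContDiff ℝ 2 w → Orthonormal ℝ ![e, y, n] → 0 < δ →
    ∃ α β τ : ℝ, |α| < δ ∧ |β| < δ ∧ |τ - c| < δ ∧ ∀ x (l : ℝ), w x = 0 →
      ⟪y - α • e - β • n, x⟫ = τ → fderiv ℝ w x = l • innerSL ℝ (y - α • e - β • n) → l = 0

/-- two disjoint closed pieces of a shrinker which fill a tube stay apart -/
def GapStmt : Prop :=
  ∀ (w : E3 → ℝ) (e : E3) (V V' : Set E3) (a₀ : ℝ), Shr w → ‖e‖ = 1 → IsClosed V → IsClosed V' →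
    Disjoint V V' → V ⊆ {x | w x = 0} → V' ⊆ {x | w x = 0} →
    (∀ x, w x = 0 → a₀ ≤ ⟪e, x⟫ → ‖x - ⟪e, x⟫ • e‖ ≤ 14 → x ∈ V ∪ V') →
    ∃ a₁ : ℝ, ∀ a : ℝ, a₁ ≤ a → ∀ p ∈ V, ∀ q ∈ V', ‖p - a • e‖ ≤ 6 → 1 / 3 ≤ ‖p - q‖

end Vale.Agent.P218N.CM
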