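import Vale.Agent.P218N.CM.Box

/-! # Multiplicity one: the cylindrical case -/

open Set Real Filter Topology Sum
open scoped RealInnerProductSpace

noncomputable section

namespace Vale.Agent.P218N.CM

open Vale.Agent.P218N.H Vale.Agent.P218N.GB

variable {w : E3 → ℝ} {e y n : E3} {k : ℕ} {σ a a₀ a₁ : ℝ} {u v : Fin k → ℝ → ℝ}

/-- the cross section consists of ordered closed curves -/
structure Ci (w : E3 → ℝ) (e y n : E3) {k : ℕ} (a : ℝ) (u : Fin k → ℝ → ℝ) : Prop where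
  cont : ∀ l, ContinuousOn (u l) (Icc (-π) π)
  mono : ∀ θ ∈ Icc (-π) π, StrictMono fun l => u l θ
  iff : ∀ θ ∈ Icc (-π) π, ∀ r,
    (r ∈ Icc (0 : ℝ) 17 ∧ w (pt e y n a (r * cos θ) (r * sin θ)) = 0) ↔ ∃ l, u l θ = r

/-- a closed curve in polar coordinates -/
def circ (e y n : E3) (a : ℝ) (u : ℝ → ℝ) : Set E3 :=
  (fun θ => pt e y n a (u θ * cos θ) (u θ * sin θ)) '' Icc (-π) π

theorem sqrt2 : 141 / 100 < √2 ∧ √2 < 142 / 100 :=
  ⟨Real.lt_sqrt_of_sq_lt (by norm_num), (Real.sqrt_lt' (by norm_num)).2 (by norm_num)⟩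

theorem exists_ci (hS : Shr w) (F : Fr e y n) (σ0 : 0 < σ) (H : SecC w e y n k σ 17 a) :
    ∃ u : Fin k → ℝ → ℝ, Ci w e y n a u := by
  obtain ⟨H1, θ₀, H2⟩ := H
  have c1 : ContDiff ℝ 1 fun p : ℝ × ℝ => pt e y n a (p.2 * cos p.1) (p.2 * sin p.1) := by
    unfold pt; fun_prop
  have d1 : ∀ p : ℝ × ℝ, HasFDerivAt (fun p : ℝ × ℝ => w (pt e y n a (p.2 * cos p.1) (p.2 * sin p.1)))
      _ p := fun p => (hS.smooth.differentiable (by simp) _).hasFDerivAt.comp p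
    (((hasFDerivAt_const (a • e) p).add ((hasFDerivAt_snd.mul hasFDerivAt_fst.cos).smul_const y)).add
      ((hasFDerivAt_snd.mul hasFDerivAt_fst.sin).smul_const n))
  have un : ∀ s t : ℝ, s ^ 2 + t ^ 2 = 1 → ‖s • y + t • n‖ = 1 := fun s t h => by
    have := F.norm_sq (pt e y n 0 s t)
    rw [F.e_pt, F.y_pt, F.n_pt, pt, zero_smul, zero_add] at this
    exact (sq_eq_sq₀ (norm_nonneg _) zero_le_one).1 (by linarith)
  obtain ⟨u, u1, -, u3, u4⟩ := sheets (fun p => w (pt e y n a (p.2 * cos p.1) (p.2 * sin p.1)))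
    (-(|θ₀| + π)) (|θ₀| + π) 0 17 (17 / σ) θ₀ k ((contDiff_one' hS.smooth).comp c1)
    (fun θ _ r hr h0 => by
      obtain ⟨k1, k2⟩ := H1 θ r hr.1 hr.2 h0
      have g0 := norm_pos_iff.2 (hS.ne _ h0)
      have e1 : fderiv ℝ (fun p : ℝ × ℝ => w (pt e y n a (p.2 * cos p.1) (p.2 * sin p.1))) (θ, r)
          (0, 1) = fderiv ℝ w (pt e y n a (r * cos θ) (r * sin θ)) (cos θ • y + sin θ • n) := by
        rw [(d1 _).fderiv]; simp
      have e2 : fderiv ℝ (fun p : ℝ × ℝ => w (pt e y n a (p.2 * cos p.1) (p.2 * sin p.1))) (θ, r)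
          (1, 0) = r * fderiv ℝ w (pt e y n a (r * cos θ) (r * sin θ))
            ((-sin θ) • y + cos θ • n) := by
        rw [(d1 _).fderiv]; simp; ring
      rw [e1, e2, fderiv_eq_nu, fderiv_eq_nu]
      refine ⟨⟨by linarith [(abs_le.1 k1).1, sqrt2.1], by linarith [(abs_le.1 k1).2, sqrt2.2]⟩,
        mul_ne_zero g0.ne' (abs_pos.1 (σ0.trans_le k2)), ?_⟩
      have i1 := abs_nu_le hS h0 (un (-sin θ) (cos θ) (by simp))
      rw [abs_mul, abs_mul, abs_mul, abs_norm, abs_of_nonneg hr.1]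
      calc _ ≤ 17 * (‖P218.H313.grad w _‖ * 1) := by gcongr; exact hr.2
        _ = 17 / σ * (‖P218.H313.grad w _‖ * σ) := by field_simp
        _ ≤ _ := by gcongr)
    ⟨by linarith [neg_abs_le θ₀, pi_pos], by linarith [le_abs_self θ₀, pi_pos]⟩
    (by rw [← H2]; congr 1; ext r; simp [and_assoc])
  have s : Icc (-π) π ⊆ Icc (-(|θ₀| + π)) (|θ₀| + π) :=
    Icc_subset_Icc (by linarith [abs_nonneg θ₀]) (by linarith [abs_nonneg θ₀])
  exact ⟨u, fun l => (u1 l).mono s, fun θ h => u3 θ (s h), fun θ h => u4 θ (s h)⟩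

theorem Fr.perp_pol (F : Fr e y n) (a θ : ℝ) {r : ℝ} (hr : 0 ≤ r) :
    ‖pt e y n a (r * cos θ) (r * sin θ) - ⟪e, pt e y n a (r * cos θ) (r * sin θ)⟫ • e‖ = r := by
  refine (sq_eq_sq₀ (norm_nonneg _) hr).1 ?_
  rw [F.perp_sq, F.y_pt, F.n_pt]
  linear_combination r ^ 2 * cos_sq_add_sin_sq θ

theorem Fr.polar (F : Fr e y n) (x : E3) : ∃ θ ∈ Icc (-π) π,
    x = pt e y n ⟪e, x⟫ (‖x - ⟪e, x⟫ • e‖ * cos θ) (‖x - ⟪e, x⟫ • e‖ * sin θ) := by
  let z : ℂ := ⟨⟪y, x⟫, ⟪n, x⟫⟩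
  have : ‖x - ⟪e, x⟫ • e‖ = ‖z‖ := (sq_eq_sq₀ (norm_nonneg _) (norm_nonneg _)).1 (by
    rw [F.perp_sq, Complex.sq_norm, Complex.normSq_mk]; ring)
  refine ⟨z.arg, ⟨z.neg_pi_lt_arg.le, z.arg_le_pi⟩, ?_⟩
  rw [this, Complex.norm_mul_cos_arg, Complex.norm_mul_sin_arg, F.decomp]

theorem SecC.zero (H : SecC w e y n k σ 17 a) (F : Fr e y n) {x : E3} (hx : w x = 0)
    (ha : ⟪e, x⟫ = a) (hr : ‖x - ⟪e, x⟫ • e‖ ≤ 17) : |‖x - ⟪e, x⟫ • e‖ - √2| ≤ 1 / 10 ∧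
      ∃ c s : ℝ, ⟪y, x⟫ = ‖x - ⟪e, x⟫ • e‖ * c ∧ ⟪n, x⟫ = ‖x - ⟪e, x⟫ • e‖ * s ∧
        c ^ 2 + s ^ 2 = 1 ∧ σ ≤ |⟪nuW w x, c • y + s • n⟫| := by
  obtain ⟨θ, -, h⟩ := F.polar x
  have r0 := norm_nonneg (x - ⟪e, x⟫ • e)
  generalize ‖x - ⟪e, x⟫ • e‖ = r at h hr r0 ⊢
  rw [ha] at h
  obtain ⟨k1, k2⟩ := H.1 θ r r0 hr (h ▸ hx)
  exact ⟨k1, cos θ, sin θ, by rw [h, F.y_pt], by rw [h, F.n_pt], cos_sq_add_sin_sq θ, h ▸ k2⟩

theorem Ci.mem (U : Ci w e y n a u) (l : Fin k) {θ : ℝ} (h : θ ∈ Icc (-π) π) :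
    u l θ ∈ Icc (0 : ℝ) 17 ∧ w (pt e y n a (u l θ * cos θ) (u l θ * sin θ)) = 0 :=
  (U.iff θ h _).2 ⟨l, rfl⟩

theorem Ci.near (U : Ci w e y n a u) (H : SecC w e y n k σ 17 a) (l : Fin k) {θ : ℝ}
    (h : θ ∈ Icc (-π) π) : |u l θ - √2| ≤ 1 / 10 :=
  (H.1 θ _ (U.mem l h).1.1 (U.mem l h).1.2 (U.mem l h).2).1

theorem Ci.contOn (U : Ci w e y n a u) (l : Fin k) :
    ContinuousOn (fun θ => pt e y n a (u l θ * cos θ) (u l θ * sin θ)) (Icc (-π) π) :=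
  continuousOn_pt continuousOn_const ((U.cont l).mul continuous_cos.continuousOn)
    ((U.cont l).mul continuous_sin.continuousOn)

theorem Ci.sub (U : Ci w e y n a u) (H : SecC w e y n k σ 17 a) (F : Fr e y n) (l : Fin k) :
    circ e y n a (u l) ⊆ lv w e a 2 := by
  rintro _ ⟨θ, h, rfl⟩
  exact ⟨(U.mem l h).2, F.e_pt .., by
    rw [F.perp_pol a θ (U.mem l h).1.1]; linarith [(abs_le.1 (U.near H l h)).2, sqrt2.2]⟩

theorem lv_le {r r' : ℝ} (h : r ≤ r') : lv w e a r ⊆ lv w e a r' :=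
  fun _ m => ⟨m.1, m.2.1, m.2.2.trans h⟩

theorem Ci.lab (U : Ci w e y n a u) (H : SecC w e y n k σ 17 a) (F : Fr e y n) :
    Lab w e a fun l => circ e y n a (u l) where
  cl l := (isCompact_Icc.image_of_continuousOn (U.contOn l)).isClosed
  inj := by
    rintro l l' _ ⟨θ, h, rfl⟩ ⟨θ', h', m⟩
    have r0 : u l' θ' = u l θ := by
      rw [← F.perp_pol a θ (U.mem l h).1.1, ← F.perp_pol a θ' (U.mem l' h').1.1]
      exact congrArg (fun x => ‖x - ⟪e, x⟫ • e‖) m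
    have p : u l θ ≠ 0 := by
      have := (abs_le.1 (U.near H l h)).1
      exact ne_of_gt (by linarith [sqrt2.1])
    obtain ⟨-, m1, m2⟩ := F.pt_inj m
    rw [r0] at m1 m2
    have := ((U.mono θ h).range_inj (U.mono θ' h')).1 (by
      ext r
      rw [mem_range, mem_range, ← U.iff θ h, ← U.iff θ' h', mul_left_cancel₀ p m1,
        mul_left_cancel₀ p m2])
    exact (U.mono θ h).injective (r0.symm.trans (congrFun this l').symm)
  cov x hx := by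
    obtain ⟨θ, h, m⟩ := F.polar x
    obtain ⟨l, hl⟩ := (U.iff θ h _).1
      ⟨⟨norm_nonneg _, hx.2.2.trans (by norm_num)⟩, hx.2.1 ▸ m ▸ hx.1⟩
    exact ⟨l, θ, h, by simp only [hl]; exact hx.2.1 ▸ m.symm⟩
  con l := ⟨_, isPreconnected_Icc.image _ (U.contOn l), (U.sub H F l).trans (lv_le (by norm_num)),
    inter_subset_left⟩
  ne l := ⟨_, ⟨0, ⟨by linarith [pi_pos], pi_pos.le⟩, rfl⟩,
    lv_le (by norm_num) (U.sub H F l ⟨0, ⟨by linarith [pi_pos], pi_pos.le⟩, rfl⟩)⟩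

theorem Ci.nearby (U : Ci w e y n a u) (H : SecC w e y n k σ 17 a) (F : Fr e y n) : Near w e a := by
  have h0 : (0 : ℝ) ∈ Icc (-π) π := ⟨by linarith [pi_pos], pi_pos.le⟩
  refine (U.lab H F).near (c := fun l => pt e y n a (u l 0 * cos 0) (u l 0 * sin 0))
    (fun l => ⟨⟨0, h0, rfl⟩, lv_le (by norm_num) (U.sub H F l ⟨0, h0, rfl⟩)⟩) (fun l => ?_)
    fun l l' => ?_
  · have := (U.sub H F l ⟨0, h0, rfl⟩).2.2
    rw [F.e_pt] at this
    linarith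
  · have i1 := abs_le.1 (U.near H l h0)
    have i2 := abs_le.1 (U.near H l' h0)
    refine lt_of_pow_lt_pow_left₀ 2 (by norm_num) ?_
    rw [F.dist_sq]
    simp only [F.e_pt, F.y_pt, F.n_pt, cos_zero, sin_zero]
    nlinarith

/-- cartesian graphs near a generating line -/
theorem Ci.sh (hS : Shr w) (U : Ci w e y n a u) (H : SecC w e y n k σ 17 a) (F : Fr e y n)
    (σ0 : 0 < σ) {B : ℝ} (B0 : 0 ≤ B) (B1 : B ≤ 1 / 2) (B2 : B ≤ σ / 2) :
    ∃ v : Fin k → ℝ → ℝ, Sh w e y n (σ / 4) a B 1 2 v ∧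
      ∀ l, arc e y n a B (v l) ⊆ circ e y n a (u l) := by
  have h0 : π / 2 ∈ Icc (-π) π := ⟨by linarith [pi_pos], by linarith [pi_pos]⟩
  have z : ∀ h, (h ∈ Icc (1 : ℝ) 2 ∧ w (pt e y n a 0 h) = 0) ↔ ∃ l, u l (π / 2) = h := fun h => by
    rw [← U.iff _ h0, cos_pi_div_two, sin_pi_div_two, mul_zero, mul_one]
    refine and_congr_left fun m => ⟨fun k => ⟨by linarith [k.1], by linarith [k.2]⟩, fun k => ?_⟩
    have := abs_le.1 (H.1 (π / 2) h k.1 k.2 (by simpa using m)).1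
    exact ⟨by linarith [sqrt2.1], by linarith [sqrt2.2]⟩
  have b0 : (0 : ℝ) ∈ Icc (-B) B := ⟨by linarith, B0⟩
  obtain ⟨v, V⟩ := exists_sh (k := k) (σ := σ / 4) (a := a) (B := B) (h₁ := 1) (h₂ := 2) hS F
    (by positivity) (fun b hb h hh m => by
      have i0 := F.perp_sq (pt e y n a b h)
      have i1 : b ^ 2 ≤ (1 / 2) ^ 2 := sq_le_sq' (by linarith [hb.1]) (by linarith [hb.2])
      obtain ⟨k1, c, s, k2, k3, -, k5⟩ := H.zero F m (F.e_pt ..) (abs_le_of_sq_le_sq' (by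
        rw [i0, F.y_pt, F.n_pt]; nlinarith [hh.1, hh.2]) (by norm_num)).2
      rw [F.y_pt] at k2 i0
      rw [F.n_pt] at k3 i0
      generalize ‖pt e y n a b h - ⟪e, pt e y n a b h⟫ • e‖ = r at k1 k2 k3 i0
      have r1 : 131 / 100 < r := by linarith [(abs_le.1 k1).1, sqrt2.1]
      have r2 : r < 152 / 100 := by linarith [(abs_le.1 k1).2, sqrt2.2]
      refine ⟨⟨by nlinarith [hh.1], by nlinarith [hh.1]⟩, ?_⟩
      have i2 := abs_nu_le hS m F.norm_y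
      have i3 : r * σ ≤ |b| * |⟪nuW w (pt e y n a b h), y⟫| + h * |⟪nuW w (pt e y n a b h), n⟫| := by
        calc _ ≤ |r| * |⟪nuW w (pt e y n a b h), c • y + s • n⟫| := by
              gcongr; exact le_abs_self r
          _ = |b * ⟪nuW w (pt e y n a b h), y⟫ + h * ⟪nuW w (pt e y n a b h), n⟫| := by
              rw [← abs_mul, inner_add_right, real_inner_smul_right, real_inner_smul_right, mul_add,
                ← mul_assoc, ← mul_assoc, ← k2, ← k3]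
          _ ≤ _ := by
              refine (abs_add_le _ _).trans ?_
              rw [abs_mul, abs_mul, abs_of_nonneg (by linarith [hh.1] : 0 ≤ h)]
      have i4 : |b| ≤ σ / 2 := (abs_le.2 hb).trans B2
      nlinarith [abs_nonneg b, abs_nonneg ⟪nuW w (pt e y n a b h), n⟫, hh.2]) b0 (by
      rw [show {h | h ∈ Icc (1 : ℝ) 2 ∧ w (pt e y n a 0 h) = 0} = range fun l => u l (π / 2) from
        Set.ext z, Set.ncard_range_of_injective (U.mono _ h0).injective]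
      simp)
  refine ⟨v, V, fun l => (U.lab H F).sub (V.conn l) (fun x hx => ?_) ⟨_, ⟨0, b0, rfl⟩, π / 2, h0, ?_⟩⟩
  · obtain ⟨m1, m2, m3, m4, -⟩ := V.arc_mem F hx
    refine ⟨m1, m2, (abs_le_of_sq_le_sq' ?_ (by norm_num)).2⟩
    have i1 : ⟪y, x⟫ ^ 2 ≤ (1 / 2) ^ 2 := sq_le_sq' (by linarith [(abs_le.1 m3).1])
      (by linarith [(abs_le.1 m3).2])
    rw [F.perp_sq]
    nlinarith [m4.1, m4.2]
  · have := ((U.mono _ h0).range_inj (V.mono _ b0)).1 (by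
      ext r
      rw [mem_range, mem_range, ← V.iff 0 b0, z])
    simp [show u l (π / 2) = v l 0 from congrFun this l]

theorem Fr.perp_sub (F : Fr e y n) {x z : E3} {l : ℝ} (l0 : 0 ≤ l)
    (h : (⟪y, z⟫ - ⟪y, x⟫) ^ 2 + (⟪n, z⟫ - ⟪n, x⟫) ^ 2 ≤ l ^ 2) :
    |‖z - ⟪e, z⟫ • e‖ - ‖x - ⟪e, x⟫ • e‖| ≤ l := by
  refine (abs_norm_sub_norm_le _ _).trans (abs_le_of_sq_le_sq' ?_ l0).2
  rw [show z - ⟪e, z⟫ • e - (x - ⟪e, x⟫ • e) = (z - x) - ⟪e, z - x⟫ • e by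
    rw [inner_sub_right, sub_smul]; abel, F.perp_sq, inner_sub_right, inner_sub_right]
  exact h

theorem step_cyl (hS : Shr w) (F : Fr e y n) (σ0 : 0 < σ) {ρ : ℝ} (hN : NoCut {x | w x = 0} ρ)
    (hρ : ρ < a₀) (hσ : 2 < σ * a₀) (h01 : a₀ + 1 ≤ a₁) (hη : (a₁ + 1 - a₀) * 136 ≤ a₀ / 100)
    (H0 : SecC w e y n k σ 17 a₀) (H1 : SecC w e y n k σ 17 a₁) : Step w e a₀ a₁ := by
  obtain ⟨u, U⟩ := exists_ci hS F σ0 H0
  obtain ⟨v, V⟩ := exists_ci hS F σ0 H1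
  have L0 := U.lab H0 F
  have L1 := V.lab H1 F
  have conf : ∀ x, w x = 0 → ⟪e, x⟫ ∈ Icc a₀ a₁ → ‖x - ⟪e, x⟫ • e‖ ≤ 16 →
      |‖x - ⟪e, x⟫ • e‖ - √2| ≤ 1 / 5 := fun x h1 h2 h3 => by
    obtain ⟨N, z, -, -, n3, n4, n5⟩ := hS.capsule F (a₁ := a₁ + 1) (l := 1 / 10) h1 h2.1
      (by linarith [h2.2]) (by norm_num) (by
        rw [← F.perp_sq]
        have := pow_le_pow_left₀ (norm_nonneg _) h3 2
        nlinarith)
    have i1 := abs_le.1 (F.perp_sub (by norm_num) (n5 z n3).2.2.2)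
    have i2 := abs_le.1 (H0.zero F (n5 z n3).1 n4 (by linarith)).1
    exact abs_le.2 ⟨by linarith, by linarith⟩
  have t0 : ∀ l, circ e y n a₀ (u l) ⊆ tube w e a₀ a₁ := fun l x hx =>
    have m := U.sub H0 F l hx
    ⟨m.1, ⟨m.2.1.ge, by linarith [m.2.1]⟩, by linarith [m.2.2]⟩
  have t1 : ∀ l, circ e y n a₁ (v l) ⊆ tube w e a₀ a₁ := fun l x hx =>
    have m := V.sub H1 F l hx
    ⟨m.1, ⟨by linarith [m.2.1], m.2.1.le⟩, by linarith [m.2.2]⟩
  have core : ∀ l, ∀ x ∈ circ e y n a₀ (u l), ToCore ({p | w p = 0} ∩ {p | ⟪e, p⟫ ≤ a₀}) x :=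
    fun l x hx => by
      obtain ⟨m1, m2, m3⟩ := U.sub H0 F l hx
      refine hS.toCore m1 m2.le fun p p1 p2 p3 => ?_
      have i1 : ‖p - ⟪e, p⟫ • e‖ ≤ ‖x - ⟪e, x⟫ • e‖ := (abs_le_of_sq_le_sq' (by
        rw [F.norm_sq, F.norm_sq, p2, m2] at p3
        rw [F.perp_sq, F.perp_sq]
        linarith) (norm_nonneg _)).2
      obtain ⟨-, c, s, k2, k3, k4, k5⟩ := H0.zero F p1 p2 (by linarith)
      refine face_vec hS F.norm_e σ0 p1 (by simp [inner_add_right, inner_smul_right, F.ey, F.en])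
        k5 ?_
      rw [inner_add_right, real_inner_smul_right, real_inner_smul_right, real_inner_comm y,
        real_inner_comm n, p2, show c * ⟪y, p⟫ + s * ⟪n, p⟫ = ‖p - ⟪e, p⟫ • e‖ by
          rw [k2, k3]; linear_combination ‖p - ⟪e, p⟫ • e‖ * k4, abs_norm]
      linarith
  have sep0 : ∀ N, IsPreconnected N → N ⊆ tube w e a₀ a₁ → ∀ l j,
      (N ∩ circ e y n a₀ (u l)).Nonempty → (N ∩ circ e y n a₀ (u j)).Nonempty → l = j := by
    rintro N n1 n2 l j ⟨x₁, x1⟩ ⟨x₂, x2⟩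
    have s : {p : E3 | w p = 0} ∩ {p | ⟪e, p⟫ ≤ a₀} ⊆ {p | w p = 0} ∩
        ({p | ⟪e, p⟫ ≤ a₀} ∪ {p | a₁ ≤ ⟪e, p⟫} ∪ {p | 14 ≤ ‖p - ⟪e, p⟫ • e‖}) :=
      fun p hp => ⟨hp.1, Or.inl (Or.inl hp.2)⟩
    have := box hN (T := Sum.elim (fun l => circ e y n a₀ (u l)) fun l => circ e y n a₁ (v l))
      (C := {inl l}) (A := {p | ⟪e, p⟫ ∈ Icc a₀ a₁} ∩ {p | ‖p - ⟪e, p⟫ • e‖ ≤ 14}) (K₁ := ∅) (K₂ := ∅)
      (O₁ := ∅) (O₂ := ∅) (i := inl l) (j := inl j)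
      ((isClosed_Icc.preimage (by fun_prop)).inter (isClosed_le (by fun_prop) (by fun_prop)))
      (((isClosed_le (by fun_prop) (by fun_prop)).union
        (isClosed_le (by fun_prop) (by fun_prop))).union (isClosed_le (by fun_prop) (by fun_prop)))
      (fun p _ => by
        simp only [mem_union, mem_inter_iff, mem_ofPred, mem_Icc]
        by_contra! c
        exact (c.1 ⟨c.2.1.1.le, c.2.1.2.le⟩).not_ge c.2.2.le)
      (by
        rintro (l | l)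
        exacts [isCompact_Icc.image_of_continuousOn (U.contOn l),
          isCompact_Icc.image_of_continuousOn (V.contOn l)])
      (by
        rintro (i | i) (j | j) x hi hj
        · exact congrArg _ (L0.inj i j x hi hj)
        · linarith [(U.sub H0 F i hi).2.1, (V.sub H1 F j hj).2.1]
        · linarith [(U.sub H0 F j hj).2.1, (V.sub H1 F i hi).2.1]
        · exact congrArg _ (L1.inj i j x hi hj))
      (by
        rintro p ⟨⟨p1, p2, p3⟩, (p4 | p4) | p4⟩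
        · obtain ⟨l, hl⟩ := L0.cov p ⟨p1, le_antisymm p4 p2.1, le_trans p3 (by norm_num)⟩
          exact Or.inl (Or.inl (mem_iUnion.2 ⟨inl l, hl⟩))
        · obtain ⟨l, hl⟩ := L1.cov p ⟨p1, le_antisymm p2.2 p4, le_trans p3 (by norm_num)⟩
          exact Or.inl (Or.inl (mem_iUnion.2 ⟨inr l, hl⟩))
        · have := (abs_le.1 (conf p p1 p2 (le_trans p3 (by norm_num)))).2
          linarith [sqrt2.2, show 14 ≤ ‖p - ⟪e, p⟫ • e‖ from p4])
      isCompact_empty isCompact_empty (by simp) (by simp) (by simp) (by simp) (by simp) (by simp)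
      Subset.rfl Subset.rfl (by simp)
      (by
        rintro x ((m | m) | m)
        · obtain ⟨i | i, hi⟩ := mem_iUnion.1 m
          exacts [lt_norm_of F.norm_e (hρ.trans_le (t0 i hi).2.1.1),
            lt_norm_of F.norm_e (hρ.trans_le (t1 i hi).2.1.1)]
        all_goals exact m.elim)
      n1 ((isCompact_tube hS F.norm_e).isBounded.subset n2) n2 rfl x1 x2
      ((core l x₁ x1.2).mono s) ((core j x₂ x2.2).mono s)
    exact (inl_injective this).symm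
  have B0 : 0 < min (1 / 2) (σ / 2) := lt_min (by norm_num) (by positivity)
  obtain ⟨u', U', su⟩ := U.sh hS H0 F σ0 B0.le (min_le_left _ _) (min_le_right _ _)
  obtain ⟨v', V', sv⟩ := V.sh hS H1 F σ0 B0.le (min_le_left _ _) (min_le_right _ _)
  obtain ⟨g, μ, O, -, g2, W, cr⟩ := exists_wall hS F (by positivity) (by linarith) U' V'
    (fun x h1 h2 h3 => by
      have i0 := F.perp_sq x
      have i1 : ⟪y, x⟫ ^ 2 ≤ (1 / 2) ^ 2 := by
        rw [← sq_abs]; exact pow_le_pow_left₀ (abs_nonneg _) (h3.trans (min_le_left _ _)) 2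
      have r0 := norm_nonneg (x - ⟪e, x⟫ • e)
      constructor <;> intro m <;> rw [m] at i0 <;>
        have := abs_le.1 (conf x h1 h2 (by nlinarith)) <;>
        nlinarith [sqrt2.1, sqrt2.2, sq_nonneg ⟪y, x⟫]) (c := 0) B0 (by simp)
  have tO : ∀ i, O i ⊆ tube w e a₀ a₁ := fun i x hx => by
    obtain ⟨m1, m2, m3, m4⟩ := W.sub i hx
    have i0 := g2 x m2 m3
    rw [m4, sub_zero, zero_sub, abs_neg] at i0
    have i1 : ⟪y, x⟫ ^ 2 ≤ (1 / 2) ^ 2 := by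
      rw [← sq_abs]; exact pow_le_pow_left₀ (abs_nonneg _) (i0.trans (min_le_left _ _)) 2
    refine ⟨m1, m2, (abs_le_of_sq_le_sq' ?_ (by norm_num)).2⟩
    rw [F.perp_sq]
    nlinarith [m3.1, m3.2]
  have o1 : ∀ l, (O (inl l) ∩ circ e y n a₀ (u l)).Nonempty := fun l =>
    (W.n1 (inl l)).imp fun x hx => ⟨hx.2, su l hx.1⟩
  have hμ := cr fun l => by
    rcases h : μ (inl l) with j | j
    · obtain ⟨x, x1, x2⟩ := W.n2 (inl l)
      rw [h] at x1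
      exact (W.ne (inl l) (h.trans (congrArg _
        (sep0 _ (W.con _) (tO _) l j (o1 l) ⟨x, x2, su j x1⟩).symm))).elim
    · exact ⟨j, rfl⟩
  have ext : ∀ N, IsPreconnected N → N ⊆ tube w e a₀ a₁ → ∀ l,
      (N ∩ (circ e y n a₀ (u l) ∪ circ e y n a₁ (v l))).Nonempty → ∃ N', IsPreconnected N' ∧
        N' ⊆ tube w e a₀ a₁ ∧ N ⊆ N' ∧ (N' ∩ circ e y n a₀ (u l)).Nonempty := by
    rintro N n1 n2 l ⟨x, x1, x2 | x2⟩
    · exact ⟨N, n1, n2, Subset.rfl, x, x1, x2⟩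
    · obtain ⟨z, z1, z2⟩ := W.n2 (inl l)
      rw [hμ] at z1
      exact ⟨N ∪ (circ e y n a₁ (v l) ∪ O (inl l)), n1.union x x1 (Or.inl x2)
        ((isPreconnected_Icc.image _ (V.contOn l)).union z (sv l z1) z2 (W.con _)),
        union_subset n2 (union_subset (t1 l) (tO _)), subset_union_left,
        (o1 l).mono fun p hp => ⟨Or.inr (Or.inr hp.1), hp.2⟩⟩
  refine step_of_sep hS F.norm_e L0 L1 (by linarith) fun N n1 n2 l l' h1 h2 => ?_
  obtain ⟨N₁, a1, a2, a3, a4⟩ := ext N n1 n2 l h1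
  obtain ⟨N₂, b1, b2, b3, b4⟩ := ext N₁ a1 a2 l' (h2.mono (inter_subset_inter_left _ a3))
  exact sep0 N₂ b1 b2 l l' (a4.mono (inter_subset_inter_left _ b3)) b4

theorem mult_cyl (hS : Shr w) {b : ℕ} (hb : RankC {x | w x = 0} b) (σ0 : 0 < σ) (F : Fr e y n)
    (h : ∀ η : ℝ, 0 < η → ∃ a₀, ∀ a, a₀ ≤ a →
      ∃ a', a ≤ a' ∧ a' ≤ (1 + η) * a ∧ SecC w e y n k σ 17 a') : k ≤ 1 := by
  by_contra! hk
  have := hS.locConn
  obtain ⟨ρ, hρ⟩ := exists_noCut hS.closed hb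
  obtain ⟨a₀, h⟩ := h (1 / 60000) (by norm_num)
  obtain ⟨a, ha⟩ := exists_chain (by norm_num) (by norm_num) h (max (ρ + 1) (3 / σ))
  obtain ⟨u, U⟩ := exists_ci hS F σ0 (ha 0).1
  refine chain_false hS F.norm_e (fun j => (ha j).2.2.1) (fun j => ?_) (fun j => ?_)
    ((U.lab (ha 0).1 F).split (I := {⟨0, by omega⟩}) (singleton_nonempty _)
      ⟨⟨1, hk⟩, fun m => absurd (congrArg Fin.val (mem_singleton_iff.1 m)) one_ne_zero⟩)
  · obtain ⟨a1, a2, a3, a4⟩ := ha j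
    have i1 := (div_le_iff₀ σ0).1 ((le_max_right _ _).trans a2)
    exact step_cyl hS F σ0 hρ (by linarith [le_max_left (ρ + 1) (3 / σ)]) (by linarith) a3
      (by nlinarith) a1 (ha (j + 1)).1
  · obtain ⟨v, V⟩ := exists_ci hS F σ0 (ha j).1
    exact V.nearby (ha j).1 F

end Vale.Agent.P218N.CM
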