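import Vale.Agent.P218N.CM.Plane
import Vale.Agent.P218N.CM.Cyl
import Vale.Agent.P218N.C.Stmt

/-! # Multiplicity one at infinity -/

namespace Vale.Agent.P218N.CM

theorem multP3 : C.MultP3 := fun _ _ _ _ _ hS hb σ0 h => mult_plane hS hb σ0 fun L η h1 h2 =>
  (h L η h1 h2).imp fun _ k a ha => (k a ha).imp fun _ m =>
    ⟨m.1, m.2.1, m.2.2.imp fun _ => Exists.imp fun _ m => ⟨Fr.of m.1, m.2⟩⟩

theorem multC3 : C.MultC3 := fun _ _ _ _ _ _ _ hS hb σ0 F h =>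
  mult_cyl hS hb σ0 (Fr.of F) fun η h2 => h 17 η (by norm_num) h2

end Vale.Agent.P218N.CM
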