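import Vale.Agent.P218N.CM.Defs
import Vale.Agent.P218N.H.Basic

/-! # Frames, second order jets of curves, curves on a shrinker -/

open Set Real Filter Topology
open scoped RealInnerProductSpace ContDiff

noncomputable section

namespace Vale.Agent.P218N.CM

open Vale.Agent.P218N.H Vale.Agent.P218.H313

/-- an orthonormal frame -/
structure Fr (e y n : E3) : Prop where
  ee : ⟪e, e⟫ = 1
  yy : ⟪y, y⟫ = 1
  nn : ⟪n, n⟫ = 1
  ey : ⟪e, y⟫ = 0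
  en : ⟪e, n⟫ = 0
  yn : ⟪y, n⟫ = 0

variable {e y n : E3}

theorem norm_of_inner {x : E3} (h : ⟪x, x⟫ = 1) : ‖x‖ = 1 := by
  rw [real_inner_self_eq_norm_sq] at h
  exact (sq_eq_sq₀ (norm_nonneg _) zero_le_one).1 (by rw [h]; norm_num)

theorem inner_of_norm {x : E3} (h : ‖x‖ = 1) : ⟪x, x⟫ = 1 := by
  rw [real_inner_self_eq_norm_sq, h]; norm_num

theorem Fr.of (h : Orthonormal ℝ ![e, y, n]) : Fr e y n :=
  ⟨inner_of_norm (h.1 0), inner_of_norm (h.1 1), inner_of_norm (h.1 2),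
    h.2 (show (0 : Fin 3) ≠ 1 by decide), h.2 (show (0 : Fin 3) ≠ 2 by decide),
    h.2 (show (1 : Fin 3) ≠ 2 by decide)⟩

namespace Fr

theorem ye (F : Fr e y n) : ⟪y, e⟫ = 0 := by rw [real_inner_comm, F.ey]
theorem ne (F : Fr e y n) : ⟪n, e⟫ = 0 := by rw [real_inner_comm, F.en]
theorem ny (F : Fr e y n) : ⟪n, y⟫ = 0 := by rw [real_inner_comm, F.yn]
theorem norm_e (F : Fr e y n) : ‖e‖ = 1 := norm_of_inner F.ee
theorem norm_y (F : Fr e y n) : ‖y‖ = 1 := norm_of_inner F.yy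
theorem norm_n (F : Fr e y n) : ‖n‖ = 1 := norm_of_inner F.nn

theorem on (F : Fr e y n) : Orthonormal ℝ ![e, y, n] := by
  rw [orthonormal_iff_ite]
  intro i j
  fin_cases i <;> fin_cases j <;>
    simp [F.norm_e, F.norm_y, F.norm_n, F.ey, F.en, F.yn, F.ye, F.ne, F.ny]

theorem basis (F : Fr e y n) : ∃ b : OrthonormalBasis (Fin 3) ℝ E3, ⇑b = ![e, y, n] :=
  ⟨OrthonormalBasis.mk F.on (F.on.linearIndependent.span_eq_top_of_card_eq_finrank (by simp)).ge,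
    OrthonormalBasis.coe_mk _ _⟩

theorem decomp (F : Fr e y n) (x : E3) : pt e y n ⟪e, x⟫ ⟪y, x⟫ ⟪n, x⟫ = x := by
  obtain ⟨b, hb⟩ := F.basis
  have := b.sum_repr' x
  rwa [Fin.sum_univ_three, hb] at this

theorem tr_eq (F : Fr e y n) (A : E3 →L[ℝ] E3) : tr A = ⟪e, A e⟫ + ⟪y, A y⟫ + ⟪n, A n⟫ := by
  obtain ⟨b, hb⟩ := F.basis
  have := LinearMap.trace_eq_sum_inner A.toLinearMap b
  rwa [Fin.sum_univ_three, hb] at this

@[simp] theorem e_pt (F : Fr e y n) (a b h : ℝ) : ⟪e, pt e y n a b h⟫ = a := by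
  simp [pt, inner_add_right, inner_smul_right, F.norm_e, F.ey, F.en]

@[simp] theorem y_pt (F : Fr e y n) (a b h : ℝ) : ⟪y, pt e y n a b h⟫ = b := by
  simp [pt, inner_add_right, inner_smul_right, F.ye, F.norm_y, F.yn]

@[simp] theorem n_pt (F : Fr e y n) (a b h : ℝ) : ⟪n, pt e y n a b h⟫ = h := by
  simp [pt, inner_add_right, inner_smul_right, F.ne, F.ny, F.norm_n]

theorem inner_eq (F : Fr e y n) (x z : E3) :
    ⟪x, z⟫ = ⟪e, x⟫ * ⟪e, z⟫ + ⟪y, x⟫ * ⟪y, z⟫ + ⟪n, x⟫ * ⟪n, z⟫ := by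
  conv_lhs => rw [← F.decomp x]
  simp only [pt, inner_add_left, real_inner_smul_left]

theorem norm_sq (F : Fr e y n) (x : E3) : ‖x‖ ^ 2 = ⟪e, x⟫ ^ 2 + ⟪y, x⟫ ^ 2 + ⟪n, x⟫ ^ 2 := by
  rw [← real_inner_self_eq_norm_sq, F.inner_eq]; ring

theorem perp_sq (F : Fr e y n) (x : E3) : ‖x - ⟪e, x⟫ • e‖ ^ 2 = ⟪y, x⟫ ^ 2 + ⟪n, x⟫ ^ 2 := by
  rw [F.norm_sq]
  simp [inner_sub_right, inner_smul_right, F.norm_e, F.ye, F.ne]

theorem dist_sq (F : Fr e y n) (x z : E3) :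
    ‖x - z‖ ^ 2 = (⟪e, x⟫ - ⟪e, z⟫) ^ 2 + (⟪y, x⟫ - ⟪y, z⟫) ^ 2 + (⟪n, x⟫ - ⟪n, z⟫) ^ 2 := by
  rw [F.norm_sq]; simp only [inner_sub_right]

theorem pt_inj (F : Fr e y n) {a b h a' b' h' : ℝ} (k : pt e y n a b h = pt e y n a' b' h') :
    a = a' ∧ b = b' ∧ h = h' :=
  ⟨by rw [← F.e_pt a b h, k, F.e_pt], by rw [← F.y_pt a b h, k, F.y_pt],
    by rw [← F.n_pt a b h, k, F.n_pt]⟩

end Fr

theorem exists_fr (he : ‖e‖ = 1) : ∃ y n, Fr e y n := by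
  obtain ⟨b, hb⟩ := Orthonormal.exists_orthonormalBasis_extension_of_card_eq (𝕜 := ℝ) (ι := Fin 3)
    (E := E3) (by simp) (v := fun _ => e) (s := {0}) (by
      refine ⟨fun _ => he, fun i j h => (h (Subtype.ext (i.2.trans j.2.symm))).elim⟩)
  refine ⟨b 1, b 2, Fr.of ?_⟩
  have : ![e, b 1, b 2] = b := by
    ext1 i
    fin_cases i
    · exact (hb 0 rfl).symm
    · rfl
    · rfl
  rw [this]
  exact b.orthonormal

@[fun_prop] theorem continuous_pt {X : Type*} [TopologicalSpace X] {a b h : X → ℝ}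
    (ha : Continuous a) (hb : Continuous b) (hh : Continuous h) :
    Continuous fun x => pt e y n (a x) (b x) (h x) := by
  unfold pt; fun_prop

theorem continuousOn_pt {X : Type*} [TopologicalSpace X] {a b h : X → ℝ} {s : Set X}
    (ha : ContinuousOn a s) (hb : ContinuousOn b s) (hh : ContinuousOn h s) :
    ContinuousOn (fun x => pt e y n (a x) (b x) (h x)) s :=
  ((ha.smul continuousOn_const).add (hb.smul continuousOn_const)).add (hh.smul continuousOn_const)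

section jets

variable {F : Type*} [NormedAddCommGroup F] [NormedSpace ℝ F]

/-- `γ` has value `p`, first derivative `v` and second derivative `z` at `0` -/
def J2 (γ : ℝ → F) (p v z : F) : Prop :=
  ∃ γ' : ℝ → F, γ 0 = p ∧ γ' 0 = v ∧ (∀ᶠ t in 𝓝 (0 : ℝ), HasDerivAt γ (γ' t) t) ∧ HasDerivAt γ' z 0

namespace J2

variable {γ δ : ℝ → F} {p v z q u x : F}

theorem der (h : J2 γ p v z) : HasDerivAt γ v 0 := by
  obtain ⟨γ', -, h2, h3, -⟩ := h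
  exact h2 ▸ h3.self_of_nhds

theorem zero (h : J2 γ p v z) : γ 0 = p := h.choose_spec.1

theorem tendsto (h : J2 γ p v z) : Tendsto γ (𝓝 0) (𝓝 p) := h.zero ▸ h.der.continuousAt

theorem const (p : F) : J2 (fun _ => p) p 0 0 :=
  ⟨fun _ => 0, rfl, rfl, Eventually.of_forall fun t => hasDerivAt_const t p, hasDerivAt_const _ _⟩

theorem add (h : J2 γ p v z) (k : J2 δ q u x) :
    J2 (fun t => γ t + δ t) (p + q) (v + u) (z + x) := by
  obtain ⟨γ', h1, h2, h3, h4⟩ := h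
  obtain ⟨δ', k1, k2, k3, k4⟩ := k
  exact ⟨fun t => γ' t + δ' t, by simp only [h1, k1], by simp only [h2, k2],
    (h3.and k3).mono fun t ht => ht.1.add ht.2, h4.add k4⟩

theorem sub (h : J2 γ p v z) (k : J2 δ q u x) :
    J2 (fun t => γ t - δ t) (p - q) (v - u) (z - x) := by
  obtain ⟨γ', h1, h2, h3, h4⟩ := h
  obtain ⟨δ', k1, k2, k3, k4⟩ := k
  exact ⟨fun t => γ' t - δ' t, by simp only [h1, k1], by simp only [h2, k2],
    (h3.and k3).mono fun t ht => ht.1.sub ht.2, h4.sub k4⟩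

theorem mul {f g : ℝ → ℝ} {a b c a' b' c' : ℝ} (h : J2 f a b c) (k : J2 g a' b' c') :
    J2 (fun t => f t * g t) (a * a') (b * a' + a * b') (c * a' + 2 * (b * b') + a * c') := by
  have d1 := h.der
  have d2 := k.der
  obtain ⟨γ', h1, h2, h3, h4⟩ := h
  obtain ⟨δ', k1, k2, k3, k4⟩ := k
  refine ⟨fun t => γ' t * g t + f t * δ' t, by simp only [h1, k1],
    by simp only [h1, k1, h2, k2],
    (h3.and k3).mono fun t ht => ht.1.mul ht.2, ((h4.mul d2).add (d1.mul k4)).congr_deriv ?_⟩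
  rw [h1, k1, h2, k2]; ring

theorem inner {γ δ : ℝ → E3} {p v z q u x : E3} (h : J2 γ p v z) (k : J2 δ q u x) :
    J2 (fun t => ⟪γ t, δ t⟫) ⟪p, q⟫ (⟪p, u⟫ + ⟪v, q⟫) (⟪p, x⟫ + 2 * ⟪v, u⟫ + ⟪z, q⟫) := by
  have d1 := h.der
  have d2 := k.der
  obtain ⟨γ', h1, h2, h3, h4⟩ := h
  obtain ⟨δ', k1, k2, k3, k4⟩ := k
  refine ⟨fun t => ⟪γ t, δ' t⟫ + ⟪γ' t, δ t⟫, by simp only [h1, k1],
    by simp only [h1, k1, h2, k2],
    (h3.and k3).mono fun t ht => ht.1.inner ℝ ht.2,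
    ((d1.inner ℝ k4).add (h4.inner ℝ d2)).congr_deriv ?_⟩
  rw [h1, k1, h2, k2]; ring

/-- the second derivative test -/
theorem min {g : ℝ → ℝ} {a b c : ℝ} (h : J2 g a b c) (hm : ∀ᶠ t in 𝓝 (0 : ℝ), a ≤ g t) :
    b = 0 ∧ 0 ≤ c := by
  have hm' : IsLocalMin g 0 := by rw [IsLocalMin, IsMinFilter, h.zero]; exact hm
  have b0 : b = 0 := hm'.hasDerivAt_eq_zero h.der
  refine ⟨b0, not_lt.1 fun hc => ?_⟩
  obtain ⟨g', h1, h2, h3, h4⟩ := h
  have h5 := (hasDerivAt_iff_tendsto_slope_zero.1 h4).eventually_lt_const hc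
  obtain ⟨ε, ε0, hε⟩ := Metric.eventually_nhds_iff.1
    ((hm.and h3).and (eventually_nhdsWithin_iff.1 h5))
  have k : ∀ t, 0 ≤ t → t ≤ ε / 2 → dist t 0 < ε := fun t a b => by
    rw [dist_zero_right, Real.norm_eq_abs, abs_of_nonneg a]; linarith
  obtain ⟨s, hs, e⟩ := exists_hasDerivAt_eq_slope g g' (half_pos ε0)
    (fun t ht => (hε (k t ht.1 ht.2)).1.2.continuousAt.continuousWithinAt)
    (fun t ht => (hε (k t ht.1.le ht.2.le)).1.2)
  have k1 := (hε (k s hs.1.le hs.2.le)).2 hs.1.ne'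
  have k2 := (hε (k (ε / 2) (half_pos ε0).le le_rfl)).1.1
  rw [zero_add, h2, b0, sub_zero, smul_eq_mul, e, h1, sub_zero] at k1
  have : 0 ≤ s⁻¹ * ((g (ε / 2) - a) / (ε / 2)) :=
    mul_nonneg (inv_pos.2 hs.1).le (div_nonneg (by linarith) (half_pos ε0).le)
  linarith

theorem of_contDiffAt (h : ContDiffAt ℝ ∞ γ 0) : J2 γ (γ 0) (deriv γ 0) (deriv (deriv γ) 0) := by
  have h2 : ContDiffAt ℝ 2 γ 0 := h.of_le
    (show ((2 : ℕ∞) : WithTop ℕ∞) ≤ ((⊤ : ℕ∞) : WithTop ℕ∞) from WithTop.coe_le_coe.2 le_top)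
  refine ⟨deriv γ, rfl, rfl, (h2.eventually (by simp)).mono fun t ht =>
    (ht.differentiableAt (by simp)).hasDerivAt, ?_⟩
  have : ContDiffAt ℝ 1 (deriv γ) 0 := by
    have := (h2.fderiv_right (m := 1) (by norm_num)).clm_apply (contDiffAt_const (c := (1 : ℝ)))
    simpa using this
  exact (this.differentiableAt one_ne_zero).hasDerivAt

theorem comp {γ : ℝ → E3} {p v z : E3} (h : J2 γ p v z) {w : E3 → ℝ} (hw : ContDiff ℝ ∞ w) :
    J2 (fun t => w (γ t)) (w p) ⟪grad w p, v⟫ (⟪grad w p, z⟫ + ⟪fderiv ℝ (grad w) p v, v⟫) := by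
  have d1 := h.der
  obtain ⟨γ', h1, h2, h3, h4⟩ := h
  refine ⟨fun t => ⟪grad w (γ t), γ' t⟫, by simp only [h1], by simp only [h1, h2],
    h3.mono fun t ht => ?_, ?_⟩
  · simp only [inner_grad]
    exact (hw.differentiable (by simp) _).hasFDerivAt.comp_hasDerivAt t ht
  · have := (((contDiff_grad_top hw).differentiable (by simp) (γ 0)).hasFDerivAt.comp_hasDerivAt
      0 d1).inner ℝ h4
    simpa only [Function.comp, h1, h2] using this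

end J2

end jets

variable {w : E3 → ℝ} {x : E3}

theorem _root_.Vale.Agent.P218N.Shr.norm_nu (hS : Shr w) (hx : w x = 0) : ‖nuW w x‖ = 1 :=
  norm_nuW (hS.ne x hx)

theorem _root_.Vale.Agent.P218N.Shr.closed (hS : Shr w) : IsClosed {x | w x = 0} :=
  isClosed_eq hS.smooth.continuous continuous_const

theorem _root_.Vale.Agent.P218N.Shr.curve (hS : Shr w) (hx : w x = 0) {v : E3}
    (hv : ⟪nuW w x, v⟫ = 0) : ∃ γ z, J2 γ x v z ∧ (∀ᶠ t in 𝓝 (0 : ℝ), w (γ t) = 0) ∧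
      ⟪nuW w x, z⟫ = -⟪v, AW w x v⟫ := by
  have h0 := hS.ne x hx
  have hv' : ⟪grad w x, v⟫ = 0 := by rw [grad_eq_smul_nuW, real_inner_smul_left, hv, mul_zero]
  obtain ⟨γ, h1, h2, h3, h4⟩ := (locDef_level hS.smooth).exists_curve h0 hx hv'
  have J := J2.of_contDiffAt h3
  rw [h1, h2.deriv] at J
  refine ⟨γ, _, J, h4, ?_⟩
  have k1 := ((J.comp hS.smooth).min (h4.mono fun t ht => by rw [hx]; exact ht.ge)).2
  have k2 := (((J2.const (0 : ℝ)).sub (J.comp hS.smooth)).min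
    (h4.mono fun t ht => by rw [hx, show w (γ t) = 0 from ht])).2
  have k3 : ⟪grad w x, deriv (deriv γ) 0⟫ = -⟪fderiv ℝ (grad w) x v, v⟫ := by linarith
  rw [nuW, real_inner_smul_left, k3, AW]
  simp only [smul_apply, ContinuousLinearMap.comp_apply, real_inner_smul_right,
    PW_of_inner hv']
  rw [PW, ← inner_perp_left, ← PW, PW_of_inner hv', real_inner_comm]
  ring

/-- two curves in orthogonal directions; the sum of their accelerations is the mean curvature -/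
theorem _root_.Vale.Agent.P218N.Shr.two (hS : Shr w) (hx : w x = 0) {ν v₁ v₂ : E3}
    (F : Fr ν v₁ v₂) (h1 : ⟪nuW w x, v₁⟫ = 0) (h2 : ⟪nuW w x, v₂⟫ = 0) :
    ∃ γ₁ z₁ γ₂ z₂, J2 γ₁ x v₁ z₁ ∧ J2 γ₂ x v₂ z₂ ∧ (∀ᶠ t in 𝓝 (0 : ℝ), w (γ₁ t) = 0) ∧
      (∀ᶠ t in 𝓝 (0 : ℝ), w (γ₂ t) = 0) ∧
      ∀ N, ⟪v₁, N⟫ = 0 → ⟪v₂, N⟫ = 0 → ⟪N, z₁⟫ + ⟪N, z₂⟫ = -⟪N, x⟫ / 2 := by
  obtain ⟨γ₁, z₁, a1, a2, a3⟩ := hS.curve hx h1
  obtain ⟨γ₂, z₂, b1, b2, b3⟩ := hS.curve hx h2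
  refine ⟨γ₁, z₁, γ₂, z₂, a1, b1, a2, b2, fun N n1 n2 => ?_⟩
  have F' : Fr (nuW w x) v₁ v₂ := ⟨inner_of_norm (hS.norm_nu hx), F.yy, F.nn, h1, h2, F.yn⟩
  have t := F'.tr_eq (AW w x)
  have t0 : AW w x (nuW w x) = 0 := by
    rw [← AW_PW (hS.ne x hx), PW, perp_self (hS.norm_nu hx), map_zero]
  rw [hS.eq x hx, t0, inner_zero_right, real_inner_comm] at t
  have k : ∀ z, ⟪N, z⟫ = ⟪nuW w x, N⟫ * ⟪nuW w x, z⟫ := fun z => by
    rw [F'.inner_eq N z, n1, n2]; ring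
  rw [k z₁, k z₂, k x, a3, b3]
  linear_combination (⟪nuW w x, N⟫) * t

end Vale.Agent.P218N.CM
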