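import Vale.Agent.P218N.GB.Geo
import Mathlib.Analysis.Calculus.BumpFunction.FiniteDimension

/-! # Arcs of the intersection of a surface with a transversal plane -/

open Set Filter Topology Metric

noncomputable section

namespace Vale.Agent.P218N.CM

open Vale.Agent.P218N.GB

theorem side {g : ℝ → ℝ} {α : ℝ} (h : HasDerivAt g α 0) (h0 : α ≠ 0) :
    ((∀ᶠ s in 𝓝[>] (0 : ℝ), g 0 < g s) ∧ ∀ᶠ s in 𝓝[<] (0 : ℝ), g s < g 0) ∨
      ((∀ᶠ s in 𝓝[>] (0 : ℝ), g s < g 0) ∧ ∀ᶠ s in 𝓝[<] (0 : ℝ), g 0 < g s) := by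
  obtain ⟨l, r⟩ := hasDerivAt_iff_tendsto_slope_left_right.1 h
  rcases h0.lt_or_gt with k | k
  · refine Or.inr ⟨?_, ?_⟩
    · filter_upwards [r.eventually_lt_const k, self_mem_nhdsWithin] with t h1 h2
      rw [slope_def_field, sub_zero, div_lt_iff₀ h2] at h1
      linarith
    · filter_upwards [l.eventually_lt_const k, self_mem_nhdsWithin] with t h1 h2
      rw [slope_def_field, sub_zero, div_lt_iff_of_neg h2] at h1
      linarith
  · refine Or.inl ⟨?_, ?_⟩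
    · filter_upwards [r.eventually_const_lt k, self_mem_nhdsWithin] with t h1 h2
      rw [slope_def_field, sub_zero, lt_div_iff₀ h2] at h1
      linarith
    · filter_upwards [l.eventually_const_lt k, self_mem_nhdsWithin] with t h1 h2
      rw [slope_def_field, sub_zero, lt_div_iff_of_neg h2] at h1
      linarith

theorem side' {g : ℝ → ℝ} {α a₀ a₁ : ℝ} (h : HasDerivAt g α 0) (h0 : α ≠ 0) (ha : a₀ < a₁)
    (he : g 0 = a₀ ∨ g 0 = a₁) :
    ((∀ᶠ s in 𝓝[>] (0 : ℝ), g s ∈ Ioo a₀ a₁) ∧ ∀ᶠ s in 𝓝[<] (0 : ℝ), g s ∉ Icc a₀ a₁) ∨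
      ((∀ᶠ s in 𝓝[<] (0 : ℝ), g s ∈ Ioo a₀ a₁) ∧ ∀ᶠ s in 𝓝[>] (0 : ℝ), g s ∉ Icc a₀ a₁) := by
  rcases he with e | e
  · have k : ∀ᶠ s in 𝓝 (0 : ℝ), g s < a₁ := h.continuousAt.eventually_lt_const (e ▸ ha)
    rcases side h h0 with ⟨a, b⟩ | ⟨a, b⟩
    · exact Or.inl ⟨(a.and (nhdsWithin_le_nhds k)).mono fun s hs => ⟨e ▸ hs.1, hs.2⟩,
        b.mono fun s hs m => (e ▸ hs).not_ge m.1⟩
    · exact Or.inr ⟨(b.and (nhdsWithin_le_nhds k)).mono fun s hs => ⟨e ▸ hs.1, hs.2⟩,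
        a.mono fun s hs m => (e ▸ hs).not_ge m.1⟩
  · have k : ∀ᶠ s in 𝓝 (0 : ℝ), a₀ < g s := h.continuousAt.eventually_const_lt (e ▸ ha)
    rcases side h h0 with ⟨a, b⟩ | ⟨a, b⟩
    · exact Or.inr ⟨(b.and (nhdsWithin_le_nhds k)).mono fun s hs => ⟨hs.2, e ▸ hs.1⟩,
        a.mono fun s hs m => (e ▸ hs).not_ge m.2⟩
    · exact Or.inl ⟨(a.and (nhdsWithin_le_nhds k)).mono fun s hs => ⟨hs.2, e ▸ hs.1⟩,
        b.mono fun s hs m => (e ▸ hs).not_ge m.2⟩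

variable {X : Type*} [TopologicalSpace X] {Z K : Set X} {γ : X → ℝ → X} {a : X → ℝ} {a₀ a₁ : ℝ}

/-- an arc in `K` from `p` to another point of the boundary, open and closed in `K` -/
def IsArc (K : Set X) (a : X → ℝ) (a₀ a₁ : ℝ) (p : X) (c : ℝ → X) : Prop :=
  Continuous c ∧ c 0 = p ∧ (a (c 1) = a₀ ∨ a (c 1) = a₁) ∧ c 1 ≠ p ∧ (∀ t ∈ Icc (0 : ℝ) 1, c t ∈ K) ∧
    IsClosed (K \ c '' Icc 0 1) ∧ ∀ t ∈ Ioo (0 : ℝ) 1, a (c t) ∈ Ioo a₀ a₁

theorem arc_fwd (F : Flw Z γ) (ha : Continuous a) (h01 : a₀ < a₁) (hK : IsCompact K)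
    (hK' : IsClosed K) (hZ : ∀ x, x ∈ K ↔ x ∈ Z ∧ a x ∈ Icc a₀ a₁)
    (tr : ∀ p ∈ K, a p = a₀ ∨ a p = a₁ → ∃ α ≠ 0, HasDerivAt (fun t => a (γ p t)) α 0) {p : X}
    (hp : p ∈ K) (hp' : a p = a₀ ∨ a p = a₁) (h1 : ∀ᶠ s in 𝓝[>] (0 : ℝ), a (γ p s) ∈ Ioo a₀ a₁)
    (h2 : ∀ᶠ s in 𝓝[<] (0 : ℝ), a (γ p s) ∉ Icc a₀ a₁) : ∃ c, IsArc K a a₀ a₁ p c := by
  have pZ := ((hZ p).1 hp).1
  have cγ := F.cont p pZ
  have nI : ∀ x, a x = a₀ ∨ a x = a₁ → a x ∉ Ioo a₀ a₁ := by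
    rintro x (e | e) m
    exacts [m.1.ne' e, m.2.ne e]
  obtain ⟨ε, ε0, hε⟩ := (nhdsGT_basis (0 : ℝ)).eventually_iff.1 h1
  let B : Set ℝ := {t | ε ≤ t ∧ a (γ p t) ∉ Ioo a₀ a₁}
  have Bc : IsClosed B := isClosed_Ici.inter (isOpen_Ioo.preimage (ha.comp cγ)).isClosed_compl
  have Bn : B.Nonempty := by
    by_contra hn
    have al : ∀ t, 0 < t → a (γ p t) ∈ Ioo a₀ a₁ := fun t ht => by
      by_contra k
      exact hn ⟨t, not_lt.1 fun l => k (hε ⟨ht, l⟩), k⟩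
    obtain ⟨T, T0, hT⟩ := F.periodic pZ hK (fun x hx => ((hZ x).1 hx).1) fun t ht => by
      rcases (show 0 ≤ t from ht).eq_or_lt with rfl | t0
      · rwa [F.zero p pZ]
      · exact (hZ _).2 ⟨F.mem p pZ t, Ioo_subset_Icc_self (al t t0)⟩
    have := F.add p pZ (-T) T
    rw [hT, neg_add_cancel, F.zero p pZ] at this
    exact nI p hp' (this ▸ al T T0)
  have Bb : BddBelow B := ⟨ε, fun t ht => ht.1⟩
  obtain ⟨T1, T2⟩ := Bc.csInf_mem Bn Bb
  set T := sInf B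
  have T0 : 0 < T := ε0.trans_le T1
  have mid : ∀ t ∈ Ioo 0 T, a (γ p t) ∈ Ioo a₀ a₁ := fun t ht => by
    by_contra k
    exact (csInf_le Bb ⟨not_lt.1 fun l => k (hε ⟨ht.1, l⟩), k⟩).not_gt ht.2
  have inK : ∀ t ∈ Icc 0 T, γ p t ∈ K := by
    rw [← closure_Ioo T0.ne]
    exact fun t ht => closure_minimal (t := γ p ⁻¹' K) (fun s hs => (hZ _).2
      ⟨F.mem p pZ s, Ioo_subset_Icc_self (mid s hs)⟩) (hK'.preimage cγ) ht
  have qK := inK T ⟨T0.le, le_rfl⟩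
  have q' : a (γ p T) = a₀ ∨ a (γ p T) = a₁ := by
    obtain ⟨-, m1, m2⟩ := (hZ _).1 qK
    by_contra! k
    exact T2 ⟨m1.lt_of_ne k.1.symm, m2.lt_of_ne k.2⟩
  have bef : ∀ᶠ s in 𝓝[<] (0 : ℝ), a (γ (γ p T) s) ∈ Ioo a₀ a₁ := by
    filter_upwards [Ioo_mem_nhdsLT (neg_lt_zero.2 T0)] with s hs
    rw [F.add p pZ]
    exact mid _ ⟨by linarith [hs.1], by linarith [hs.2]⟩
  have aft : ∀ᶠ s in 𝓝[>] (0 : ℝ), a (γ (γ p T) s) ∉ Icc a₀ a₁ := by
    obtain ⟨α, α0, d⟩ := tr _ qK q'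
    rcases side' d α0 h01 (by simpa only [F.zero _ (F.mem p pZ T)] using q') with k | k
    · obtain ⟨s, s1, s2⟩ := (bef.and k.2).exists
      exact (s2 (Ioo_subset_Icc_self s1)).elim
    · exact k.2
  have im : (fun t => γ p (T * t)) '' Icc 0 1 = γ p '' Icc 0 T := by
    rw [← image_image (γ p) fun t => T * t, image_mul_left_Icc T0.le zero_le_one, mul_zero, mul_one]
  refine ⟨fun t => γ p (T * t), by fun_prop, by simp [F.zero p pZ], by simpa using q', fun e => ?_,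
    fun t ht => inK _ ⟨by nlinarith [ht.1], by nlinarith [ht.2]⟩, ?_,
    fun t ht => mid _ ⟨by nlinarith [ht.1], by nlinarith [ht.2]⟩⟩
  · simp only [mul_one] at e
    rw [e] at bef
    obtain ⟨s, s1, s2⟩ := (bef.and h2).exists
    exact s2 (Ioo_subset_Icc_self s1)
  · rw [im, ← isOpen_compl_iff, isOpen_iff_mem_nhds]
    intro z hz
    by_cases zK : z ∈ K
    swap
    · exact mem_of_superset (hK'.isOpen_compl.mem_nhds zK) fun x hx m => hx m.1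
    obtain ⟨t, ht, rfl⟩ : z ∈ γ p '' Icc 0 T := by_contra fun k => hz ⟨zK, k⟩
    have ev : ∀ᶠ s in 𝓝 (0 : ℝ), a (γ (γ p t) s) ∈ Icc a₀ a₁ → t + s ∈ Icc 0 T := by
      rw [← nhdsLT_sup_nhdsGE, ← nhdsGT_sup_nhdsWithin_singleton, eventually_sup, eventually_sup]
      refine ⟨?_, ?_, ?_⟩
      · rcases ht.1.eq_or_lt with rfl | t0
        · rw [F.zero p pZ]
          exact h2.mono fun s hs m => (hs m).elim
        · filter_upwards [Ioo_mem_nhdsLT (neg_lt_zero.2 t0)] with s hs _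
          exact ⟨by linarith [hs.1], by linarith [hs.2, ht.2]⟩
      · rcases ht.2.eq_or_lt with rfl | t0
        · exact aft.mono fun s hs m => (hs m).elim
        · filter_upwards [Ioo_mem_nhdsGT (sub_pos.2 t0)] with s hs _
          exact ⟨by linarith [hs.1, ht.1], by linarith [hs.2]⟩
      · filter_upwards [self_mem_nhdsWithin] with s hs _
        rw [show s = 0 from hs, add_zero]
        exact ht
    obtain ⟨δ, δ0, hδ⟩ := Metric.eventually_nhds_iff.1 ev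
    filter_upwards [eventually_nhdsWithin_iff.1 (F.loc _ (F.mem p pZ t) δ δ0)] with x hx m
    obtain ⟨s, hs, rfl⟩ := hx ((hZ x).1 m.1).1
    exact m.2 ⟨t + s, hδ (by simpa [abs_lt] using hs) ((hZ _).1 m.1).2, (F.add p pZ t s).symm⟩

theorem exists_arc (F : Flw Z γ) (ha : Continuous a) (h01 : a₀ < a₁) (hK : IsCompact K)
    (hK' : IsClosed K) (hZ : ∀ x, x ∈ K ↔ x ∈ Z ∧ a x ∈ Icc a₀ a₁)
    (tr : ∀ p ∈ K, a p = a₀ ∨ a p = a₁ → ∃ α ≠ 0, HasDerivAt (fun t => a (γ p t)) α 0) {p : X}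
    (hp : p ∈ K) (hp' : a p = a₀ ∨ a p = a₁) : ∃ c, IsArc K a a₀ a₁ p c := by
  obtain ⟨α, α0, d⟩ := tr p hp hp'
  rcases side' d α0 h01 (by simpa only [F.zero p ((hZ p).1 hp).1] using hp') with k | k
  · exact arc_fwd F ha h01 hK hK' hZ tr hp hp' k.1 k.2
  · have n1 : Tendsto (fun t : ℝ => -t) (𝓝[>] 0) (𝓝[<] 0) := by simpa using tendsto_neg_nhdsGT (a := (0 : ℝ))
    have n2 : Tendsto (fun t : ℝ => -t) (𝓝[<] 0) (𝓝[>] 0) := by simpa using tendsto_neg_nhdsLT (a := (0 : ℝ))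
    refine arc_fwd F.rev ha h01 hK hK' hZ (fun q hq hq' => ?_) hp hp' (n1.eventually k.1)
      (n2.eventually k.2)
    obtain ⟨β, β0, d⟩ := tr q hq hq'
    exact ⟨β * -1, by simpa using β0, HasDerivAt.comp (h₂ := fun t => a (γ q t)) (h := fun t => -t) 0
      (by simpa using d) (hasDerivAt_neg 0)⟩

theorem loc_curve {w f : V3 → ℝ} (hw : ContDiff ℝ 2 w) (hf : ContDiff ℝ 2 f) {q : V3} {c : ℝ → V3}
    {l : ℝ} (l0 : 0 < l) (cc : Continuous c) (h0 : c 0 = q) (hd : HasDerivAt c (l • fld w f q) 0)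
    (h1 : ∀ t, w (c t) = w q) (h2 : ∀ t, f (c t) = f q) (reg : fld w f q ≠ 0) {δ : ℝ} (hδ : 0 < δ) :
    ∀ᶠ z in 𝓝 q, w z = w q → f z = f q → z ∈ c '' Ioo (-δ) δ := by
  set ℓ : V3 →L[ℝ] ℝ := innerSL ℝ (fld w f q) with hℓ
  have l1 : 0 < ℓ (fld w f q) := real_inner_self_pos.2 reg
  obtain ⟨L, hL⟩ := exists_equiv (a := ℓ) l1.ne'
  have sd : HasStrictFDerivAt (fun x => ((ℓ x, w x), f x)) (L : V3 →L[ℝ] (ℝ × ℝ) × ℝ) q := by
    rw [hL]
    exact (ℓ.hasStrictFDerivAt.prodMk (hw.hasStrictFDerivAt (by norm_num))).prodMk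
      (hf.hasStrictFDerivAt (by norm_num))
  obtain ⟨T, T1, T2⟩ : ∃ T ∈ 𝓝 q, InjOn (fun x => ((ℓ x, w x), f x)) T :=
    ⟨_, sd.eventually_left_inverse, fun x hx y hy e => by
      rw [← show _ = x from hx, ← show _ = y from hy]
      exact congrArg _ e⟩
  have d : HasDerivAt (fun u => ℓ (c u)) (l * ℓ (fld w f q)) 0 :=
    (ℓ.hasFDerivAt.comp_hasDerivAt 0 hd).congr_deriv (by rw [map_smul, smul_eq_mul])
  have ev : ∀ᶠ u in 𝓝 (0 : ℝ), c u ∈ T ∧ |u| < δ :=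
    (cc.continuousAt.eventually (by simp only [h0]; exact T1)).and
      (continuous_abs.continuousAt.eventually_lt_const (by simpa using hδ))
  obtain ⟨ε, ε0, hε⟩ := Metric.eventually_nhds_iff.1 ev
  obtain ⟨s, t, s1, t1, s2, t2⟩ : ∃ s t, s ∈ Ioo (-ε) ε ∧ t ∈ Ioo (-ε) ε ∧ ℓ (c s) < ℓ q ∧
      ℓ q < ℓ (c t) := by
    have m : ∀ᶠ u in 𝓝 (0 : ℝ), u ∈ Ioo (-ε) ε := Ioo_mem_nhds (by linarith) ε0
    rcases side d (mul_pos l0 l1).ne' with ⟨a, b⟩ | ⟨a, b⟩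
    · obtain ⟨s, s1, s2⟩ := (b.and (nhdsWithin_le_nhds m)).exists
      obtain ⟨t, t1, t2⟩ := (a.and (nhdsWithin_le_nhds m)).exists
      exact ⟨s, t, s2, t2, h0 ▸ s1, h0 ▸ t1⟩
    · obtain ⟨s, s1, s2⟩ := (a.and (nhdsWithin_le_nhds m)).exists
      obtain ⟨t, t1, t2⟩ := (b.and (nhdsWithin_le_nhds m)).exists
      exact ⟨s, t, s2, t2, h0 ▸ s1, h0 ▸ t1⟩
  filter_upwards [T1, ℓ.continuous.continuousAt.eventually (Icc_mem_nhds s2 t2)] with z z2 z3 z4 z5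
  obtain ⟨u, hu, e⟩ := isPreconnected_Ioo.intermediate_value s1 t1
    (ℓ.continuous.comp cc).continuousOn z3
  have k := hε (y := u) (by simpa [abs_lt] using hu)
  refine ⟨u, abs_lt.1 k.2, T2 k.1 z2 ?_⟩
  simp only [show ℓ (c u) = ℓ z from e, h1, h2, z4, z5]

/-- the flow on the intersection of two level sets inside a bounded open set -/
theorem exists_flw {w f : V3 → ℝ} (hw : ContDiff ℝ 2 w) (hf : ContDiff ℝ 2 f) {U : Set V3}
    (hU : IsOpen U) (hb : Bornology.IsBounded U) {τ : ℝ}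
    (reg : ∀ x, w x = 0 → f x = τ → fld w f x ≠ 0) :
    ∃ γ : V3 → ℝ → V3, Flw {x | w x = 0 ∧ f x = τ ∧ x ∈ U} γ ∧
      ∀ q ∈ U, ∃ l : ℝ, l ≠ 0 ∧ HasDerivAt (γ q) (l • fld w f q) 0 := by
  obtain ⟨χ, χ1, χ2, χ3⟩ := hU.exists_contDiff_support_eq (n := 1)
  have c1 : ContDiff ℝ 1 fun x => χ x • fld w f x := χ2.smul
    (contDiff_cr (hw.fderiv_right (by norm_num)) (hf.fderiv_right (by norm_num)))
  have c0 : HasCompactSupport χ := by
    rw [HasCompactSupport, tsupport, χ1]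
    exact hb.isCompact_closure
  have c2 : HasCompactSupport fun x => χ x • fld w f x := c0.smul_right
  obtain ⟨K, hK⟩ := c1.lipschitzWith_of_hasCompactSupport c2 one_ne_zero
  obtain ⟨C, hC⟩ := c1.continuous.bounded_above_of_compact_support c2
  choose α a0 a1 using exists_curve (C := ⟨C, (norm_nonneg _).trans (hC 0)⟩) hC hK
  have cons : ∀ g : V3 → ℝ, ContDiff ℝ 2 g → (∀ x, fderiv ℝ g x (fld w f x) = 0) →
      ∀ x t, g (α x t) = g x := fun g hg h x t => by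
    have d : ∀ t, HasDerivAt (fun t => g (α x t)) 0 t := fun t =>
      (((hg.differentiable (by norm_num)) _).hasFDerivAt.comp_hasDerivAt t (a1 x t)).congr_deriv
        (by rw [map_smul, h, smul_zero])
    rw [is_const_of_deriv_eq_zero (fun t => (d t).differentiableAt) (fun t => (d t).deriv) t 0, a0]
  have lw : ∀ x t, w (α x t) = w x := cons w hw fun x => cr_left _ _
  have lf : ∀ x t, f (α x t) = f x := cons f hf fun x => cr_right _ _
  have cα : ∀ q, Continuous (α q) := fun q =>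
    continuous_iff_continuousAt.2 fun t => (a1 q t).continuousAt
  have pos : ∀ q ∈ U, 0 < χ q := fun q hq =>
    (χ3 ⟨q, rfl⟩).1.lt_of_ne' (χ1.ge hq)
  have d0 : ∀ q, HasDerivAt (α q) (χ q • fld w f q) 0 := fun q => by simpa only [a0] using a1 q 0
  refine ⟨α, ⟨fun q hq t => ⟨(lw q t).trans hq.1, (lf q t).trans hq.2.1, by_contra fun k => ?_⟩,
    fun q _ => cα q, fun q _ => a0 q, fun q _ t u => ?_, fun q hq δ hδ => ?_⟩,
    fun q hq => ⟨_, (pos q hq).ne', d0 q⟩⟩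
  · have z : χ (α q t) = 0 := by_contra fun n => k (χ1.le n)
    have := congrFun (curve_unique hK (a1 q) (g := fun _ => α q t)
      (fun u => by simpa [z] using hasDerivAt_const u (α q t)) (t₀ := t) rfl) 0
    rw [a0] at this
    exact k (this ▸ hq.2.2)
  · exact congrFun (curve_unique hK (a1 _) (fun u => (a1 q (t + u)).comp_const_add t u) (t₀ := 0)
      (by simp [a0])) u
  · exact eventually_nhdsWithin_iff.2 ((loc_curve hw hf (pos q hq.2.2) (cα q) (a0 q) (d0 q) (lw q)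
      (lf q) (reg q hq.1 hq.2.1) hδ).mono fun z hz m => hz (m.1.trans hq.1.symm)
        (m.2.1.trans hq.2.1.symm))

theorem eq_smul_of_cr {a b : V3 →L[ℝ] ℝ} (h : cr a b = 0) {y : V3} (hy : b y = 1) :
    a = a y • b := by
  ext v
  have e0 := congrArg (fun v : V3 => v 0) h
  have e1 := congrArg (fun v : V3 => v 1) h
  have e2 := congrArg (fun v : V3 => v 2) h
  simp only [cr, Matrix.cons_val_zero, Matrix.cons_val_one, Matrix.cons_val, PiLp.zero_apply]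
    at e0 e1 e2
  rw [smul_apply, smul_eq_mul, ← mul_one (a v), ← hy, clm_eq a v, clm_eq a y, clm_eq b v, clm_eq b y]
  linear_combination (v 1 * y 2 - v 2 * y 1) * e0 + (v 2 * y 0 - v 0 * y 2) * e1 +
    (v 0 * y 1 - v 1 * y 0) * e2

theorem sub_of_clopen {N O : Set X} (hN : IsPreconnected N) (hs : N ⊆ K) (hO : IsClosed O)
    (hO' : IsClosed (K \ O)) (h : (N ∩ O).Nonempty) : N ⊆ O := by
  by_contra k
  obtain ⟨x, x1, x2⟩ := not_subset.1 k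
  obtain ⟨z, -, z1, z2⟩ := isPreconnected_closed_iff.1 hN O (K \ O) hO hO'
    (fun p hp => (em (p ∈ O)).imp id fun m => ⟨hs hp, m⟩) h ⟨x, x1, hs x1, x2⟩
  exact z2.2 z1

end Vale.Agent.P218N.CM
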