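import Vale.Agent.P218N.CM.Jet

/-! # A localised avoidance principle along a ray -/

open Set Real Filter Topology
open scoped RealInnerProductSpace

noncomputable section

namespace Vale.Agent.P218N.CM

open Vale.Agent.P218N.H Vale.Agent.P218.H313

variable {w : E3 → ℝ}

theorem jet_gap {γ δ : ℝ → E3} {p q v u z y : E3} (c : E3) (M Λ : ℝ) (h : J2 γ p v z)
    (k : J2 δ q u y) :
    J2 (fun t => ‖γ t - δ t‖ ^ 2 - M * (1 - ‖γ t - c‖ ^ 2 / Λ) ^ 4)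
      (‖p - q‖ ^ 2 - M * (1 - ‖p - c‖ ^ 2 / Λ) ^ 4)
      (2 * ⟪p - q, v⟫ - 2 * ⟪p - q, u⟫ + 8 * M * (1 - ‖p - c‖ ^ 2 / Λ) ^ 3 / Λ * ⟪p - c, v⟫)
      (2 * ⟪p - q, z⟫ - 2 * ⟪p - q, y⟫ + 2 * ‖v - u‖ ^ 2
        + 8 * M * (1 - ‖p - c‖ ^ 2 / Λ) ^ 3 / Λ * (⟪p - c, z⟫ + ‖v‖ ^ 2)
        - 48 * M * (1 - ‖p - c‖ ^ 2 / Λ) ^ 2 / Λ ^ 2 * ⟪p - c, v⟫ ^ 2) := by
  have a1 := (h.sub k).inner (h.sub k)
  have a2 := (h.sub (J2.const c)).inner (h.sub (J2.const c))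
  have a3 := (J2.const (1 : ℝ)).sub (a2.mul (J2.const Λ⁻¹))
  have a4 := a1.sub ((J2.const M).mul ((a3.mul a3).mul (a3.mul a3)))
  simp only [real_inner_self_eq_norm_sq, sub_zero, real_inner_comm (p - c), real_inner_comm (p - q),
    inner_sub_right (p - q) v, inner_sub_right (p - q) z] at a4
  convert a4 using 1
  · ext t; ring
  · ring
  · ring
  · ring

theorem refl_frame {ν v₁ v₂ ω : E3} (F : Fr ν v₁ v₂) (ωω : ⟪ω, ω⟫ = 1) (cs0 : 0 ≤ ⟪ν, ω⟫) :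
    ∃ u₁ u₂, Fr ω u₁ u₂ ∧ ‖v₁ - u₁‖ ^ 2 = 2 * ⟪v₁, ω⟫ ^ 2 / (1 + ⟪ν, ω⟫) ∧
      ‖v₂ - u₂‖ ^ 2 = 2 * ⟪v₂, ω⟫ ^ 2 / (1 + ⟪ν, ω⟫) := by
  set cs := ⟪ν, ω⟫ with hcs
  have c1 : 1 + cs ≠ 0 := by positivity
  let u : E3 → E3 := fun v => v - (⟪v, ω⟫ / (1 + cs)) • (ν + ω)
  have uω : ∀ v, ⟪ω, u v⟫ = 0 := fun v => by
    simp only [u, inner_sub_right, inner_add_right, real_inner_smul_right, ωω,
      real_inner_comm ν ω, real_inner_comm v ω, ← hcs]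
    field_simp
    ring
  have nn : ⟪ν + ω, ν + ω⟫ = 2 * (1 + cs) := by
    simp only [inner_add_left, inner_add_right, F.ee, ωω, real_inner_comm ν ω, ← hcs]; ring
  have uu : ∀ v v', ⟪ν, v⟫ = 0 → ⟪ν, v'⟫ = 0 → ⟪u v, u v'⟫ = ⟪v, v'⟫ := fun v v' a b => by
    simp only [u, inner_sub_right, inner_sub_left, real_inner_smul_right, real_inner_smul_left, nn]
    simp only [inner_add_left, inner_add_right, real_inner_comm ν v, a, b, real_inner_comm v' ω]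
    field_simp
    ring
  have vu : ∀ v, ‖v - u v‖ ^ 2 = 2 * ⟪v, ω⟫ ^ 2 / (1 + cs) := fun v => by
    simp only [u, sub_sub_cancel, ← real_inner_self_eq_norm_sq, real_inner_smul_left,
      real_inner_smul_right, nn]
    field_simp
  exact ⟨u v₁, u v₂, ⟨ωω, (uu _ _ F.ey F.ey).trans F.yy, (uu _ _ F.en F.en).trans F.nn,
    uω _, uω _, (uu _ _ F.ey F.en).trans F.yn⟩, vu _, vu _⟩

theorem arith {M Λ ψ r cs s₁ s₂ c₀ c₁ c₂ A X : ℝ} (M0 : 0 < M) (M1 : M ≤ 1) (hΛ : 36 ≤ Λ)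
    (ψ0 : 0 < ψ) (ψ1 : ψ ≤ 1) (r0 : 0 < r) (h0 : r ^ 2 = M * ψ ^ 4) (cs0 : 0 ≤ cs)
    (b3 : 1 = cs * cs + s₁ * s₁ + s₂ * s₂) (b4 : c₀ ^ 2 + c₁ ^ 2 + c₂ ^ 2 < Λ)
    (f1 : 2 * (r * s₁) + 8 * M * ψ ^ 3 / Λ * c₁ = 0) (f2 : 2 * (r * s₂) + 8 * M * ψ ^ 3 / Λ * c₂ = 0)
    (s : 0 ≤ A + 2 * (2 * s₁ ^ 2 / (1 + cs)) + 2 * (2 * s₂ ^ 2 / (1 + cs))
      - 48 * M * ψ ^ 2 / Λ ^ 2 * c₁ ^ 2 - 48 * M * ψ ^ 2 / Λ ^ 2 * c₂ ^ 2)
    (hA : A = -(M * ψ ^ 4) - 8 * M * ψ ^ 3 / Λ * X / 2 + 2 * (8 * M * ψ ^ 3 / Λ)) :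
    ψ + 4 * X / Λ ≤ 16 / Λ := by
  have Λ0 : 0 < Λ := by linarith
  have ang : ∀ s c : ℝ, 2 * (r * s) + 8 * M * ψ ^ 3 / Λ * c = 0 →
      s ^ 2 = 16 * M * ψ ^ 2 / Λ ^ 2 * c ^ 2 := fun s c hv => by
    have a1 : r ^ 2 * s ^ 2 = (8 * M * ψ ^ 3 / Λ * c / 2) ^ 2 := by
      rw [← mul_pow, show r * s = -(8 * M * ψ ^ 3 / Λ * c / 2) by linarith, neg_sq]
    refine mul_left_cancel₀ (pow_pos r0 2).ne' ?_
    rw [a1, h0]
    field_simp
    ring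
  have b1 := ang _ _ f1
  have b2 := ang _ _ f2
  have b5 : 16 * M * ψ ^ 2 / Λ ^ 2 * (c₁ ^ 2 + c₂ ^ 2) ≤ 16 / 36 := by
    have i1 : M * ψ ^ 2 ≤ 1 := mul_le_one₀ M1 (by positivity) (pow_le_one₀ ψ0.le ψ1)
    have i2 : c₁ ^ 2 + c₂ ^ 2 ≤ Λ := by linarith [sq_nonneg c₀]
    calc _ ≤ 16 * 1 / Λ ^ 2 * Λ := by
          gcongr ?_ * ?_
          rw [mul_assoc]
          gcongr
      _ = 16 / Λ := by field_simp
      _ ≤ 16 / 36 := by gcongr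
  have cs3 : 1 / 3 ≤ cs := (abs_le_of_sq_le_sq' (by linarith) cs0).2
  have b6 : ∀ s : ℝ, 2 * (2 * s ^ 2 / (1 + cs)) ≤ 3 * s ^ 2 := fun s => by
    rw [← mul_div_assoc, div_le_iff₀ (by positivity)]
    nlinarith [sq_nonneg s]
  have x1 : 48 * M * ψ ^ 2 / Λ ^ 2 * c₁ ^ 2 = 3 * s₁ ^ 2 := by rw [b1]; ring
  have x2 : 48 * M * ψ ^ 2 / Λ ^ 2 * c₂ ^ 2 = 3 * s₂ ^ 2 := by rw [b2]; ring
  have fin : 0 ≤ A := by linarith [b6 s₁, b6 s₂]
  refine le_of_mul_le_mul_left (sub_nonneg.1 ?_) (show 0 < M * ψ ^ 3 by positivity)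
  refine fin.trans_eq ?_
  rw [hA]; ring

theorem touch (hS : Shr w) {p q c : E3} {M Λ : ℝ} (hp : w p = 0) (hq : w q = 0) (M0 : 0 < M)
    (M1 : M ≤ 1) (hΛ : 36 ≤ Λ) (hψ : ‖p - c‖ ^ 2 < Λ)
    (h0 : ‖p - q‖ ^ 2 = M * (1 - ‖p - c‖ ^ 2 / Λ) ^ 4)
    (hm : ∀ᶠ x in 𝓝 (p, q), w x.1 = 0 → w x.2 = 0 →
      M * (1 - ‖x.1 - c‖ ^ 2 / Λ) ^ 4 ≤ ‖x.1 - x.2‖ ^ 2) :
    1 - ‖p - c‖ ^ 2 / Λ + 4 * ⟪p - c, p⟫ / Λ ≤ 16 / Λ := by
  have Λ0 : 0 < Λ := by linarith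
  have key : ∀ {γ δ : ℝ → E3} {v u z y : E3}, J2 γ p v z → J2 δ q u y →
      (∀ᶠ t in 𝓝 (0 : ℝ), w (γ t) = 0) → (∀ᶠ t in 𝓝 (0 : ℝ), w (δ t) = 0) → _ ∧ _ :=
    fun h k h1 h2 => (jet_gap c M Λ h k).min (by
      filter_upwards [(h.tendsto.prodMk_nhds k.tendsto).eventually hm, h1, h2] with t a1 a2 a3
      have := a1 a2 a3
      rw [h0]
      linarith)
  have ρ0 : 0 ≤ ‖p - c‖ ^ 2 / Λ := by positivity
  have ψ0 : 0 < 1 - ‖p - c‖ ^ 2 / Λ := sub_pos.2 ((div_lt_one Λ0).2 hψ)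
  have ψ1 : 1 - ‖p - c‖ ^ 2 / Λ ≤ 1 := by linarith
  generalize 1 - ‖p - c‖ ^ 2 / Λ = ψ at key h0 ψ0 ψ1 ⊢
  clear hm ρ0
  have r0 : 0 < ‖p - q‖ := by
    have : 0 < ‖p - q‖ ^ 2 := by rw [h0]; positivity
    exact lt_of_le_of_ne (norm_nonneg _) fun e => by rw [← e] at this; simp at this
  obtain ⟨ω, dω, ωω⟩ : ∃ ω : E3, (∀ v, ⟪p - q, v⟫ = ‖p - q‖ * ⟪v, ω⟫) ∧ ⟪ω, ω⟫ = 1 :=
    ⟨‖p - q‖⁻¹ • (p - q), fun v => by
      rw [real_inner_smul_right, ← mul_assoc, mul_inv_cancel₀ r0.ne', one_mul, real_inner_comm],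
      inner_of_norm (by rw [norm_smul, norm_inv, norm_norm, inv_mul_cancel₀ r0.ne'])⟩
  -- first order condition at `q`
  have fq : ∀ u, ⟪ω, u⟫ = 0 → ⟪nuW w q, u⟫ = 0 := by
    obtain ⟨u₁, u₂, F⟩ := exists_fr (hS.norm_nu hq)
    have t : ∀ u, ⟪nuW w q, u⟫ = 0 → ⟪u, ω⟫ = 0 := fun u hu => by
      obtain ⟨δ, y, a1, a2, -⟩ := hS.curve hq hu
      have := (key (J2.const p) a1 (Eventually.of_forall fun _ => hp) a2).1
      rw [inner_zero_right, inner_zero_right, dω] at this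
      exact (mul_eq_zero.1 (by linarith : ‖p - q‖ * ⟪u, ω⟫ = 0)).resolve_left r0.ne'
    intro u hu
    have a1 := F.inner_eq ω ω
    have a2 := F.inner_eq ω u
    rw [t _ F.ey, t _ F.en] at a1 a2
    have : ⟪nuW w q, ω⟫ ≠ 0 := fun e => by rw [e, ωω] at a1; norm_num at a1
    exact (mul_eq_zero.1 (by linarith : ⟪nuW w q, ω⟫ * ⟪nuW w q, u⟫ = 0)).resolve_left this
  -- frames
  obtain ⟨ν, v₁, v₂, F, t1, t2, cs0⟩ : ∃ ν v₁ v₂, Fr ν v₁ v₂ ∧ ⟪nuW w p, v₁⟫ = 0 ∧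
      ⟪nuW w p, v₂⟫ = 0 ∧ 0 ≤ ⟪ν, ω⟫ := by
    obtain ⟨v₁, v₂, F⟩ := exists_fr (hS.norm_nu hp)
    rcases le_total 0 ⟪nuW w p, ω⟫ with k | k
    · exact ⟨_, v₁, v₂, F, F.ey, F.en, k⟩
    · exact ⟨-nuW w p, v₁, v₂, ⟨by rw [inner_neg_neg, F.ee], F.yy, F.nn, by simpa using F.ey,
        by simpa using F.en, F.yn⟩, F.ey, F.en, by simpa using k⟩
  obtain ⟨u₁, u₂, G, vu1, vu2⟩ := refl_frame F ωω cs0
  obtain ⟨γ₁, z₁, γ₂, z₂, j1, j2, m1, m2, hz⟩ := hS.two hp F t1 t2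
  obtain ⟨δ₁, y₁, δ₂, y₂, k1, k2, n1, n2, hy⟩ := hS.two hq G (fq _ G.ey) (fq _ G.en)
  obtain ⟨f1, s1⟩ := key j1 k1 m1 n1
  obtain ⟨f2, s2⟩ := key j2 k2 m2 n2
  have du1 : ⟪p - q, u₁⟫ = 0 := by rw [dω, G.ye, mul_zero]
  have du2 : ⟪p - q, u₂⟫ = 0 := by rw [dω, G.ne, mul_zero]
  rw [du1] at f1
  rw [du2] at f2
  have e1 := hz ((2 : ℝ) • (p - q) + (8 * M * ψ ^ 3 / Λ) • (p - c))
    (by rw [real_inner_comm, inner_add_left, real_inner_smul_left, real_inner_smul_left]; linarith)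
    (by rw [real_inner_comm, inner_add_left, real_inner_smul_left, real_inner_smul_left]; linarith)
  have e2 := hy (p - q) (by rw [real_inner_comm, du1]) (by rw [real_inner_comm, du2])
  simp only [inner_add_left, real_inner_smul_left] at e1
  have e3 : ⟪p - q, p⟫ - ⟪p - q, q⟫ = M * ψ ^ 4 := by
    rw [← inner_sub_right, real_inner_self_eq_norm_sq, h0]
  have b4 := F.norm_sq (p - c)
  rw [real_inner_comm (p - c) v₁, real_inner_comm (p - c) v₂] at b4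
  rw [vu1, F.norm_y] at s1
  rw [vu2, F.norm_n] at s2
  rw [dω v₁] at f1
  rw [dω v₂] at f2
  exact arith M0 M1 hΛ ψ0 ψ1 r0 h0 cs0 (ωω ▸ F.inner_eq ω ω) (b4 ▸ hψ) (by linarith) (by linarith)
    (by linarith) rfl

theorem abs_inner_le {e x : E3} (he : ‖e‖ = 1) : |⟪e, x⟫| ≤ ‖x‖ := by
  simpa [he] using abs_real_inner_le_norm e x

theorem perp_le {e : E3} (he : ‖e‖ = 1) (x : E3) (a : ℝ) : ‖x - ⟪e, x⟫ • e‖ ≤ ‖x - a • e‖ := by
  have := norm_perp_apply_le he (x - a • e)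
  rwa [perp_apply, inner_sub_right, real_inner_smul_right, inner_of_norm he, mul_one, sub_smul,
    sub_sub_sub_cancel_right] at this

theorem slide (hS : Shr w) {e : E3} (he : ‖e‖ = 1) {V V' : Set E3} {a₀ R μ : ℝ} (hV : IsClosed V)
    (hV' : IsClosed V') (hd : Disjoint V V') (s1 : V ⊆ {x | w x = 0}) (s2 : V' ⊆ {x | w x = 0})
    (cov : ∀ x, w x = 0 → a₀ ≤ ⟪e, x⟫ → ‖x - ⟪e, x⟫ • e‖ ≤ 14 → x ∈ V ∪ V') (R0 : 0 ≤ R)
    (hR : a₀ + 14 ≤ R) (μ0 : 0 < μ) (μ1 : μ ≤ 1 / 4)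
    (h1 : ∀ p ∈ V, ∀ q ∈ V', ‖p - R • e‖ ≤ 6 → μ < ‖p - q‖ ^ 2) {τ : ℝ} (hτ : τ ∈ Icc (1 : ℝ) 4)
    {p q : E3} (hp : p ∈ V) (hq : q ∈ V') (hb : ‖p - (τ * R) • e‖ ^ 2 ≤ 36 * τ) :
    μ * τ * (1 - ‖p - (τ * R) • e‖ ^ 2 / (36 * τ)) ^ 4 < ‖p - q‖ ^ 2 := by
  by_contra! hc
  let K : Set (ℝ × E3 × E3) := {z | z.1 ∈ Icc (1 : ℝ) 4 ∧ z.2.1 ∈ V ∧ z.2.2 ∈ V' ∧
    ‖z.2.1 - (z.1 * R) • e‖ ^ 2 ≤ 36 * z.1 ∧ ‖z.2.1 - z.2.2‖ ^ 2 * (36 * z.1) ^ 4 ≤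
      μ * z.1 * (36 * z.1 - ‖z.2.1 - (z.1 * R) • e‖ ^ 2) ^ 4}
  have conv : ∀ (τ : ℝ) (x D : ℝ), 0 < τ → (D * (36 * τ) ^ 4 ≤ μ * τ * (36 * τ - x) ^ 4 ↔
      D ≤ μ * τ * (1 - x / (36 * τ)) ^ 4) := fun τ x D h => by
    rw [← le_div_iff₀ (by positivity), mul_div_assoc, ← div_pow, sub_div, div_self (by positivity)]
  have bd : ∀ z ∈ K, ‖z.2.1 - (z.1 * R) • e‖ ≤ 12 ∧ ‖z.2.1 - z.2.2‖ ≤ 1 := by
    rintro ⟨τ, p, q⟩ ⟨k1, -, -, k4, k5⟩
    have τ0 : 0 < τ := by linarith [k1.1]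
    rw [conv _ _ _ τ0] at k5
    dsimp only at k1 k4 k5 ⊢
    have i1 : (1 - ‖p - (τ * R) • e‖ ^ 2 / (36 * τ)) ^ 4 ≤ 1 :=
      pow_le_one₀ (sub_nonneg.2 ((div_le_one (by positivity)).2 k4))
        (sub_le_self _ (by positivity))
    have i2 : μ * τ ≤ 1 := by nlinarith [k1.2]
    refine ⟨abs_le_of_sq_le_sq' (by linarith [k1.2]) (by norm_num) |>.2,
      abs_le_of_sq_le_sq' (k5.trans ?_) (by norm_num) |>.2⟩
    exact (mul_le_one₀ i2 (by positivity) i1).trans (by norm_num)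
  have Kc : IsCompact K := by
    refine Metric.isCompact_of_isClosed_isBounded ?_ ?_
    · simp only [K, ofPred_and]
      exact (isClosed_Icc.preimage continuous_fst).inter ((hV.preimage (by fun_prop)).inter
        ((hV'.preimage (by fun_prop)).inter ((isClosed_le (by fun_prop) (by fun_prop)).inter
          (isClosed_le (by fun_prop) (by fun_prop)))))
    · refine ((Metric.isBounded_Icc (1 : ℝ) 4).prod
        ((Metric.isBounded_closedBall (x := (0 : E3)) (r := 4 * R + 12)).prod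
          (Metric.isBounded_closedBall (x := (0 : E3)) (r := 4 * R + 13)))).subset fun z hz => ?_
      obtain ⟨b1, b2⟩ := bd z hz
      have b3 : ‖(z.1 * R) • e‖ ≤ 4 * R := by
        rw [norm_smul, he, mul_one, Real.norm_eq_abs, abs_of_nonneg (by nlinarith [hz.1.1])]
        nlinarith [hz.1.2]
      have b4 := norm_le_norm_add_norm_sub' z.2.1 ((z.1 * R) • e)
      have b5 := norm_le_norm_add_norm_sub z.2.1 z.2.2
      exact ⟨hz.1, mem_closedBall_zero_iff.2 (by linarith), mem_closedBall_zero_iff.2 (by linarith)⟩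
  obtain ⟨⟨s, x, x'⟩, hz, hmin⟩ := Kc.exists_isMinOn
    ⟨(τ, p, q), hτ, hp, hq, hb, (conv _ _ _ (by linarith [hτ.1])).2 hc⟩ continuous_fst.continuousOn
  obtain ⟨b1, b2⟩ := bd _ hz
  obtain ⟨k1, k2, k3, k4, k5⟩ := hz
  dsimp only at k1 k2 k3 k4 k5 b1 b2
  have s0 : 0 < s := by linarith [k1.1]
  rw [conv _ _ _ s0] at k5
  have D0 : 0 < ‖x - x'‖ ^ 2 := pow_pos (norm_pos_iff.2 (sub_ne_zero.2 fun e : x = x' =>
    disjoint_left.1 hd k2 (e ▸ k3))) 2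
  have k4' : ‖x - (s * R) • e‖ ^ 2 < 36 * s := k4.lt_of_ne fun e => by
    rw [e, div_self (by positivity)] at k5
    rw [sub_self, zero_pow (by norm_num), mul_zero] at k5
    linarith
  have s1' : 1 < s := k1.1.lt_of_ne fun e => by
    subst e
    have i1 := h1 x k2 x' k3 (abs_le_of_sq_le_sq' (by rw [one_mul] at k4; linarith) (by norm_num)).2
    have i2 : (1 - ‖x - (1 * R) • e‖ ^ 2 / (36 * 1)) ^ 4 ≤ 1 :=
      pow_le_one₀ (sub_nonneg.2 ((div_le_one (by positivity)).2 k4))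
        (sub_le_self _ (by positivity))
    nlinarith
  -- before time `s` there is no contact
  have bef : ∀ z ∈ V, ∀ z' ∈ V', ‖z - (s * R) • e‖ ^ 2 < 36 * s → ∀ᶠ t in 𝓝[<] s,
      μ * t * (1 - ‖z - (t * R) • e‖ ^ 2 / (36 * t)) ^ 4 ≤ ‖z - z'‖ ^ 2 := fun z hz z' hz' hl => by
    have c1 : ∀ᶠ t in 𝓝 s, ‖z - (t * R) • e‖ ^ 2 < 36 * t :=
      ContinuousAt.eventually_lt (by fun_prop) (by fun_prop) hl
    filter_upwards [nhdsWithin_le_nhds c1, Ioo_mem_nhdsLT s1'] with t a1 a2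
    by_contra! a3
    exact (hmin (a := (t, z, z')) ⟨⟨a2.1.le, a2.2.le.trans k1.2⟩, hz, hz', a1.le,
      (conv _ _ _ (by linarith [a2.1])).2 a3.le⟩).not_gt a2.2
  have der : ∀ z : E3, HasDerivAt (fun t : ℝ => μ * t * (1 - ‖z - (t * R) • e‖ ^ 2 / (36 * t)) ^ 4)
      (μ * (1 - ‖z - (s * R) • e‖ ^ 2 / (36 * s)) ^ 3 * (1 - ‖z - (s * R) • e‖ ^ 2 / (36 * s)
        + 8 * ⟪z - (s * R) • e, (s * R) • e⟫ / (36 * s) + 4 * (‖z - (s * R) • e‖ ^ 2 / (36 * s))))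
      s := fun z => by
    have d1 : HasDerivAt (fun t : ℝ => z - (t * R) • e) (-((1 * R) • e)) s :=
      (((hasDerivAt_id s).mul_const R).smul_const e).const_sub z
    have d2 := ((hasDerivAt_id s).const_mul μ).mul ((((d1.norm_sq).div
      ((hasDerivAt_id s).const_mul 36) (by simpa using s0.ne')).const_sub 1).pow 4)
    refine d2.congr_deriv ?_
    simp only [id, inner_neg_right, real_inner_smul_right, Pi.pow_apply, Pi.div_apply,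
      Nat.add_one_sub_one, Nat.cast_ofNat]
    generalize 1 - ‖z - (s * R) • e‖ ^ 2 / (36 * s) = ψ
    field_simp
    ring
  have aft : ∀ z ∈ V, ∀ z' ∈ V', ‖z - (s * R) • e‖ ^ 2 < 36 * s →
      μ * s * (1 - ‖z - (s * R) • e‖ ^ 2 / (36 * s)) ^ 4 ≤ ‖z - z'‖ ^ 2 := fun z hz z' hz' hl =>
    le_of_tendsto ((der z).continuousAt.tendsto.mono_left nhdsWithin_le_nhds) (bef z hz z' hz' hl)
  have eq := le_antisymm k5 (aft x k2 x' k3 k4')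
  have ψ0 : 0 < 1 - ‖x - (s * R) • e‖ ^ 2 / (36 * s) :=
    sub_pos.2 ((div_lt_one (by positivity)).2 k4')
  have d0 := ge_of_tendsto ((hasDerivAt_iff_tendsto_slope_left_right.1 (der x)).1)
    ((bef x k2 x' k3 k4').and self_mem_nhdsWithin |>.mono fun t ht => by
      rw [slope_def_field]
      exact div_nonneg_of_nonpos (by rw [← eq]; linarith [ht.1]) (sub_nonpos.2 (le_of_lt ht.2)))
  have d1 := (mul_nonneg_iff_of_pos_left (mul_pos μ0 (pow_pos ψ0 3))).1 d0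
  -- near the contact points the two pieces are the surface
  have loc : ∀ {W W' : Set E3} {z : E3}, IsClosed W' → z ∉ W' → ‖z - (s * R) • e‖ ≤ 13 →
      (∀ x, x ∈ V ∪ V' → x ∈ W ∪ W') → ∀ᶠ x in 𝓝 z, w x = 0 → x ∈ W := fun {W W' z} c n b u => by
    have i1 : a₀ < ⟪e, z⟫ := by
      have := (abs_le.1 ((abs_inner_le he).trans b)).1
      rw [inner_sub_right, real_inner_smul_right, inner_of_norm he] at this
      nlinarith
    have i2 : ‖z - ⟪e, z⟫ • e‖ < 14 := by linarith [perp_le he z (s * R)]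
    filter_upwards [c.isOpen_compl.mem_nhds n,
      ContinuousAt.eventually_lt (f := fun _ => a₀) (g := fun x : E3 => ⟪e, x⟫) (by fun_prop)
        (by fun_prop) i1,
      ContinuousAt.eventually_lt (f := fun x : E3 => ‖x - ⟪e, x⟫ • e‖) (g := fun _ => 14)
        (by fun_prop) (by fun_prop) i2]
      with x a1 a2 a3 a4
    exact (u x (cov x a4 a2.le a3.le)).resolve_right a1
  have l1 := loc (W := V) hV' (disjoint_left.1 hd k2) (by linarith) fun _ h => h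
  have l2 := loc (W := V') hV (disjoint_right.1 hd k3)
    (by linarith [norm_sub_le_norm_sub_add_norm_sub x' x ((s * R) • e), norm_sub_rev x x'])
    fun _ h => h.symm
  have t := touch hS (c := (s * R) • e) (M := μ * s) (Λ := 36 * s) (s1 k2) (s2 k3) (by positivity)
    (by nlinarith [k1.2]) (by linarith) k4' eq (by
      filter_upwards [continuous_fst.continuousAt.eventually l1,
        continuous_snd.continuousAt.eventually l2,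
        ContinuousAt.eventually_lt (f := fun z : E3 × E3 => ‖z.1 - (s * R) • e‖ ^ 2)
          (g := fun _ => 36 * s) (by fun_prop) (by fun_prop) k4'] with z a1 a2 a3 a4 a5
      exact aft _ (a1 a4) _ (a2 a5) a3)
  have i1 : ⟪x - (s * R) • e, x⟫ = ‖x - (s * R) • e‖ ^ 2 + ⟪x - (s * R) • e, (s * R) • e⟫ := by
    rw [← real_inner_self_eq_norm_sq, ← inner_add_right, sub_add_cancel]
  have i2 : 16 / (36 * s) ≤ 16 / 36 := by gcongr; linarith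
  have i3 : 0 ≤ ‖x - (s * R) • e‖ ^ 2 / (36 * s) := by positivity
  rw [i1, mul_add, add_div, mul_div_assoc, mul_div_assoc] at t
  rw [mul_div_assoc] at d1
  linarith

theorem gap : GapStmt := by
  intro w e V V' a₀ hS he hV hV' hd s1 s2 cov
  set R := max (a₀ + 14) 1 with hR
  have R1 : 1 ≤ R := le_max_right _ _
  obtain ⟨r, r0, hr⟩ := Metric.exists_pos_forall_lt_edist
    ((isCompact_closedBall (0 : E3) (4 * R + 6)).inter_left hV) hV'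
    (hd.mono_left inter_subset_left)
  have main : ∀ i : ℕ, ∀ a, R * 4 ^ i ≤ a → a ≤ R * 4 ^ (i + 1) → ∀ p ∈ V, ∀ q ∈ V',
      ‖p - a • e‖ ≤ 6 → min ((5 / 4) ^ i * (r : ℝ) ^ 2) (1 / 9) ≤ ‖p - q‖ ^ 2 := by
    intro i
    induction i with
    | zero =>
      intro a a1 a2 p hp q hq h
      rw [pow_zero] at a1
      rw [zero_add, pow_one] at a2
      have b3 : ‖a • e‖ ≤ 4 * R := by
        rw [norm_smul, he, mul_one, Real.norm_eq_abs, abs_of_nonneg (by linarith)]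
        linarith
      have := hr p ⟨hp, mem_closedBall_zero_iff.2
        (by linarith [norm_le_norm_add_norm_sub' p (a • e)])⟩ q hq
      rw [edist_nndist, ENNReal.coe_lt_coe, ← NNReal.coe_lt_coe, coe_nndist, dist_eq_norm] at this
      refine (min_le_left _ _).trans ?_
      rw [pow_zero, one_mul]
      exact pow_le_pow_left₀ r.2 this.le 2
    | succ i ih =>
      intro a a1 a2 p hp q hq h
      have r0' : (0 : ℝ) < r := r0
      set m := min ((5 / 4) ^ i * (r : ℝ) ^ 2) (1 / 9) with hm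
      have m0 : 0 < m := lt_min (by positivity) (by norm_num)
      have m1 : m ≤ 1 / 9 := min_le_right _ _
      have p1 : (1 : ℝ) ≤ 4 ^ i := one_le_pow₀ (by norm_num)
      have a3 : R * 4 ^ i ≤ a / 4 := by rw [pow_succ] at a1; linarith
      have a4 : R ≤ a / 4 := le_trans (by nlinarith) a3
      have n2 : ‖p - a • e‖ ^ 2 ≤ 36 := by nlinarith [norm_nonneg (p - a • e)]
      have := slide hS he hV hV' hd s1 s2 cov (R := a / 4) (μ := 99 / 100 * m) (by linarith)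
        ((le_max_left _ _).trans a4) (by positivity) (by linarith)
        (fun p hp q hq h => lt_of_lt_of_le (by linarith)
          (ih (a / 4) a3 (by rw [pow_succ] at a2; linarith) p hp q hq h))
        (τ := 4) ⟨by norm_num, le_rfl⟩ hp hq
        (by rw [show 4 * (a / 4) = a by ring]; linarith)
      rw [show 4 * (a / 4) = a by ring] at this
      have i1 : (3 / 4 : ℝ) ^ 4 ≤ (1 - ‖p - a • e‖ ^ 2 / (36 * 4)) ^ 4 :=
        pow_le_pow_left₀ (by norm_num) (by linarith) 4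
      have i2 : min ((5 / 4) ^ (i + 1) * (r : ℝ) ^ 2) (1 / 9) ≤ 5 / 4 * m := by
        rw [hm, mul_min_of_nonneg _ _ (by norm_num)]
        exact min_le_min (le_of_eq (by ring)) (by norm_num)
      nlinarith
  have r0' : (0 : ℝ) < r := r0
  obtain ⟨J, hJ⟩ := pow_unbounded_of_one_lt (1 / 9 / (r : ℝ) ^ 2) (by norm_num : (1 : ℝ) < 5 / 4)
  refine ⟨R * 4 ^ J, fun a ha p hp q hq h => ?_⟩
  have p1 : (1 : ℝ) ≤ 4 ^ J := one_le_pow₀ (by norm_num)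
  have a1 : (4 : ℝ) ^ J ≤ a / R := by rw [le_div_iff₀ (by linarith)]; linarith
  obtain ⟨i, i1, i2⟩ := exists_nat_pow_near (p1.trans a1) (by norm_num : (1 : ℝ) < 4)
  have iJ : J ≤ i := Nat.lt_succ_iff.1 ((pow_lt_pow_iff_right₀ (by norm_num)).1 (a1.trans_lt i2))
  rw [le_div_iff₀ (by linarith)] at i1
  rw [div_lt_iff₀ (by linarith)] at i2
  have := main i a (by linarith) (by linarith) p hp q hq h
  rw [div_lt_iff₀ (by positivity)] at hJ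
  have i3 : (5 / 4 : ℝ) ^ J ≤ (5 / 4) ^ i := pow_le_pow_right₀ (by norm_num) iJ
  rw [min_eq_right (by nlinarith [pow_pos r0' 2])] at this
  exact (abs_le_of_sq_le_sq' (by linarith) (norm_nonneg _)).2

end Vale.Agent.P218N.CM
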