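import Vale.Agent.P218N.CM.Wall
import Vale.Agent.P218N.CM.Gap

/-! # Boxes, separation, and the chain of levels -/

open Set Real Filter Topology
open scoped RealInnerProductSpace

noncomputable section

set_option linter.unusedSectionVars false

namespace Vale.Agent.P218N.CM

open Vale.Agent.P218N.H Vale.Agent.P218N.GB

theorem box {S : Set E3} {ρ : ℝ} (h : NoCut S ρ) {ι : Type} [Finite ι]
    {A B K₁ K₂ O₁ O₂ N : Set E3} {T : ι → Set E3} {C : Set ι} (hA : IsClosed A) (hB : IsClosed B)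
    (hAB : S ⊆ A ∪ B) (cpt : ∀ i, IsCompact (T i)) (inj : ∀ i j x, x ∈ T i → x ∈ T j → i = j)
    (cov : S ∩ A ∩ B ⊆ (⋃ i, T i) ∪ K₁ ∪ K₂) (c1 : IsCompact O₁) (c2 : IsCompact O₂)
    (l1 : IsClosed (K₁ \ O₁)) (l2 : IsClosed (K₂ \ O₂)) (m1 : ∀ i ∈ C, T i ∩ K₁ ⊆ O₁)
    (m2 : ∀ i ∈ C, T i ∩ K₂ ⊆ O₂) (f1 : ∀ i, (T i ∩ O₁).Nonempty → i ∈ C)
    (f2 : ∀ i, (T i ∩ O₂).Nonempty → i ∈ C) (s1 : O₁ ⊆ K₁) (s2 : O₂ ⊆ K₂) (hd : Disjoint K₁ K₂)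
    (far : ∀ x ∈ (⋃ i, T i) ∪ K₁ ∪ K₂, ρ < ‖x‖) (hN : IsPreconnected N)
    (hb : Bornology.IsBounded N) (hs : N ⊆ S ∩ A) {i j : ι} {x₁ x₂ : E3} (hi : i ∈ C)
    (x1 : x₁ ∈ N ∩ T i) (x2 : x₂ ∈ N ∩ T j) (t1 : ToCore (S ∩ B) x₁) (t2 : ToCore (S ∩ B) x₂) :
    j ∈ C := by
  by_contra hj
  refine h A B ((⋃ i ∈ C, T i) ∪ O₁ ∪ O₂) ((⋃ i ∈ Cᶜ, T i) ∪ (K₁ \ O₁) ∪ (K₂ \ O₂)) N x₁ x₂ hA hB hAB
    ((((toFinite C).isCompact_biUnion fun i _ => cpt i).union c1).union c2)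
    ((((toFinite Cᶜ).isClosed_biUnion fun i _ => (cpt i).isClosed).union l1).union l2) ?_ ?_ ?_
    (Or.inl (Or.inl (mem_biUnion hi x1.2))) (Or.inl (Or.inl (mem_biUnion (mem_compl hj) x2.2)))
    hN hb hs x1.1 x2.1 t1 t2
  · rw [disjoint_left]
    rintro x ((a | a) | a) ((b | b) | b)
    · obtain ⟨i, i1, i2⟩ := mem_iUnion₂.1 a
      obtain ⟨j, j1, j2⟩ := mem_iUnion₂.1 b
      exact j1 (inj i j x i2 j2 ▸ i1)
    · obtain ⟨i, i1, i2⟩ := mem_iUnion₂.1 a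
      exact b.2 (m1 i i1 ⟨i2, b.1⟩)
    · obtain ⟨i, i1, i2⟩ := mem_iUnion₂.1 a
      exact b.2 (m2 i i1 ⟨i2, b.1⟩)
    · obtain ⟨j, j1, j2⟩ := mem_iUnion₂.1 b
      exact j1 (f1 j ⟨x, j2, a⟩)
    · exact b.2 a
    · exact disjoint_left.1 hd (s1 a) b.1
    · obtain ⟨j, j1, j2⟩ := mem_iUnion₂.1 b
      exact j1 (f2 j ⟨x, j2, a⟩)
    · exact disjoint_left.1 hd b.1 (s2 a)
    · exact b.2 a
  · intro x hx
    rcases cov hx with (a | a) | a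
    · obtain ⟨i, hi⟩ := mem_iUnion.1 a
      by_cases k : i ∈ C
      exacts [Or.inl (Or.inl (Or.inl (mem_biUnion k hi))),
        Or.inr (Or.inl (Or.inl (mem_biUnion (mem_compl k) hi)))]
    · by_cases k : x ∈ O₁
      exacts [Or.inl (Or.inl (Or.inr k)), Or.inr (Or.inl (Or.inr ⟨a, k⟩))]
    · by_cases k : x ∈ O₂
      exacts [Or.inl (Or.inr k), Or.inr (Or.inr ⟨a, k⟩)]
  · rintro x ((a | a) | a)
    · obtain ⟨i, -, i2⟩ := mem_iUnion₂.1 a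
      exact far x (Or.inl (Or.inl (mem_iUnion.2 ⟨i, i2⟩)))
    · exact far x (Or.inl (Or.inr (s1 a)))
    · exact far x (Or.inr (s2 a))

/-- two closed sets which are not joined in a compact set are separated -/
theorem exists_sep {K C C' : Set E3} (hK : IsCompact K) (hC : IsClosed C) (hC' : IsClosed C')
    (h : ∀ N, IsPreconnected N → N ⊆ K → (N ∩ C).Nonempty → (N ∩ C').Nonempty → False) :
    ∃ V V', IsClosed V ∧ IsClosed V' ∧ Disjoint V V' ∧ V ∪ V' = K ∧ K ∩ C ⊆ V ∧ K ∩ C' ⊆ V' := by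
  have : CompactSpace K := isCompact_iff_compactSpace.1 hK
  have c1 : IsCompact (Subtype.val ⁻¹' C : Set K) := (hC.preimage continuous_subtype_val).isCompact
  have c2 : IsCompact (Subtype.val ⁻¹' C' : Set K) := (hC'.preimage continuous_subtype_val).isCompact
  have key : ∀ x : K, x.1 ∈ C → ∃ U : Set K, IsClopen U ∧ x ∈ U ∧ ∀ z ∈ U, z.1 ∉ C' := by
    intro x hx
    have d : (Subtype.val ⁻¹' C' : Set K) ∩ ⋂ s : {s : Set K // IsClopen s ∧ x ∈ s}, s = ∅ := by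
      rw [← connectedComponent_eq_iInter_isClopen, eq_empty_iff_forall_notMem]
      exact fun z hz => h (Subtype.val '' connectedComponent x)
        (isPreconnected_connectedComponent.image _ continuous_subtype_val.continuousOn)
        (Subtype.coe_image_subset _ _) ⟨x, ⟨x, mem_connectedComponent, rfl⟩, hx⟩
        ⟨z, ⟨z, hz.2, rfl⟩, hz.1⟩
    obtain ⟨t, ht⟩ := c2.elim_finite_subfamily_closed _ (fun s => s.2.1.isClosed) d
    exact ⟨⋂ s ∈ t, s.1, isClopen_biInter_finset fun s _ => s.2.1,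
      mem_iInter₂.2 fun s _ => s.2.2, fun z hz m => (eq_empty_iff_forall_notMem.1 ht z) ⟨m, hz⟩⟩
  choose! U U1 U2 U3 using key
  obtain ⟨t, t1, t2⟩ := c1.elim_nhds_subcover U fun x hx => (U1 x hx).isOpen.mem_nhds (U2 x hx)
  have cW : IsClopen (⋃ x ∈ t, U x) := isClopen_biUnion_finset fun x hx => U1 x (t1 x hx)
  have ce := hK.isClosed.isClosedEmbedding_subtypeVal.isClosedMap
  refine ⟨_, _, ce _ cW.isClosed, ce _ cW.compl.isClosed,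
    disjoint_image_of_injective Subtype.val_injective disjoint_compl_right,
    by rw [← image_union, union_compl_self, Subtype.coe_image_univ],
    fun x hx => ⟨⟨x, hx.1⟩, t2 hx.2, rfl⟩, fun x hx => ⟨⟨x, hx.1⟩, fun m => ?_, rfl⟩⟩
  obtain ⟨z, z1, z2⟩ := mem_iUnion₂.1 m
  exact U3 z (t1 z z1) _ z2 hx.2

variable {w : E3 → ℝ} {e : E3} {a a' : ℝ}

/-- the cross section of radius `r` at the level `a` -/
def lv (w : E3 → ℝ) (e : E3) (a r : ℝ) : Set E3 :=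
  {x | w x = 0 ∧ ⟪e, x⟫ = a ∧ ‖x - ⟪e, x⟫ • e‖ ≤ r}

/-- the part of the surface in the tube between two levels -/
def tube (w : E3 → ℝ) (e : E3) (a a' : ℝ) : Set E3 :=
  {x | w x = 0 ∧ ⟪e, x⟫ ∈ Icc a a' ∧ ‖x - ⟪e, x⟫ • e‖ ≤ 14}

/-- a splitting of a cross section -/
def Split (w : E3 → ℝ) (e : E3) (a : ℝ) (C C' : Set E3) : Prop :=
  C ∪ C' = lv w e a 14 ∧ C.Nonempty ∧ C'.Nonempty ∧
    ∀ N, IsPreconnected N → N ⊆ lv w e a 15 → (N ∩ C).Nonempty → (N ∩ C').Nonempty → False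

/-- splittings extend to the next level -/
def Step (w : E3 → ℝ) (e : E3) (a a' : ℝ) : Prop :=
  ∀ C C', Split w e a C C' → ∃ V V' D D', IsClosed V ∧ IsClosed V' ∧ Disjoint V V' ∧
    V ∪ V' = tube w e a a' ∧ C ⊆ V ∧ C' ⊆ V' ∧ D ⊆ V ∧ D' ⊆ V' ∧ Split w e a' D D'

/-- the two parts of a splitting are close -/
def Near (w : E3 → ℝ) (e : E3) (a : ℝ) : Prop :=
  ∀ C C', Split w e a C C' → ∃ p ∈ C, ∃ q ∈ C', ‖p - a • e‖ ≤ 6 ∧ ‖p - q‖ < 1 / 3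

theorem chain_false (hS : Shr w) (he : ‖e‖ = 1) {a : ℕ → ℝ} (ha : ∀ j, a j + 1 ≤ a (j + 1))
    (st : ∀ j, Step w e (a j) (a (j + 1))) (nr : ∀ j, Near w e (a j)) {C C' : Set E3}
    (h0 : Split w e (a 0) C C') : False := by
  choose V V' D D' p1 p2 p3 p4 p5 p6 p7 p8 p9 using st
  let s : ∀ j, {p : Set E3 × Set E3 // Split w e (a j) p.1 p.2} := fun j =>
    Nat.rec ⟨(C, C'), h0⟩ (fun j s => ⟨(D j _ _ s.2, D' j _ _ s.2), p9 j _ _ s.2⟩) j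
  have am : StrictMono a := strictMono_nat_of_lt_succ fun j => by linarith [ha j]
  have aj : ∀ j : ℕ, a 0 + j ≤ a j := fun j => by
    induction j with
    | zero => simp
    | succ j ih => push_cast; linarith [ha j]
  have lf : ∀ {W : ℕ → Set E3}, (∀ j, W j ⊆ tube w e (a j) (a (j + 1))) → LocallyFinite W :=
    fun {W} hW x => by
      obtain ⟨J, hJ⟩ := exists_nat_gt (⟪e, x⟫ + 1 - a 0)
      refine ⟨{z | ⟪e, z⟫ < ⟪e, x⟫ + 1}, (isOpen_lt (by fun_prop) continuous_const).mem_nhds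
        (show ⟪e, x⟫ < ⟪e, x⟫ + 1 from lt_add_one _), (finite_lt_nat J).subset fun j ⟨z, z1, z2⟩ => ?_⟩
      have : (j : ℝ) < J := by linarith [aj j, (hW j z1).2.1.1, show ⟪e, z⟫ < _ from z2]
      exact_mod_cast this
  have v1 : ∀ j, V j _ _ (s j).2 ⊆ tube w e (a j) (a (j + 1)) := fun j =>
    p4 j _ _ (s j).2 ▸ subset_union_left
  have v2 : ∀ j, V' j _ _ (s j).2 ⊆ tube w e (a j) (a (j + 1)) := fun j =>
    p4 j _ _ (s j).2 ▸ subset_union_right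
  have mid : ∀ j, ∀ x ∈ tube w e (a j) (a (j + 1)), x ∈ tube w e (a (j + 1)) (a (j + 1 + 1)) →
      (x ∈ V j _ _ (s j).2 ∧ x ∈ V (j + 1) _ _ (s (j + 1)).2) ∨
        (x ∈ V' j _ _ (s j).2 ∧ x ∈ V' (j + 1) _ _ (s (j + 1)).2) := fun j x h1 h2 =>
    ((s (j + 1)).2.1.ge ⟨h1.1, h1.2.1.2.antisymm h2.2.1.1, h1.2.2⟩).imp
      (fun m => ⟨p7 j _ _ (s j).2 m, p5 _ _ _ _ m⟩) fun m => ⟨p8 j _ _ (s j).2 m, p6 _ _ _ _ m⟩
  have lev : ∀ i j, i < j → ∀ x ∈ tube w e (a i) (a (i + 1)), x ∈ tube w e (a j) (a (j + 1)) →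
      j = i + 1 := fun i j h x h1 h2 =>
    le_antisymm (am.le_iff_le.1 (h2.2.1.1.trans h1.2.1.2)) h
  obtain ⟨a₁, h⟩ := gap w e (⋃ j, V j _ _ (s j).2) (⋃ j, V' j _ _ (s j).2) (a 0) hS he
    ((lf v1).isClosed_iUnion fun j => p1 _ _ _ _) ((lf v2).isClosed_iUnion fun j => p2 _ _ _ _)
    (disjoint_left.2 fun x h1 h2 => by
      obtain ⟨i, hi⟩ := mem_iUnion.1 h1
      obtain ⟨j, hj⟩ := mem_iUnion.1 h2
      rcases lt_trichotomy i j with k | rfl | k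
      · obtain rfl := lev i j k x (v1 i hi) (v2 j hj)
        rcases mid i x (v1 i hi) (v2 _ hj) with m | m
        exacts [disjoint_left.1 (p3 _ _ _ _) m.2 hj, disjoint_left.1 (p3 _ _ _ _) hi m.1]
      · exact disjoint_left.1 (p3 _ _ _ _) hi hj
      · obtain rfl := lev j i k x (v2 j hj) (v1 i hi)
        rcases mid j x (v2 j hj) (v1 _ hi) with m | m
        exacts [disjoint_left.1 (p3 _ _ _ _) m.1 hj, disjoint_left.1 (p3 _ _ _ _) hi m.2])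
    (iUnion_subset fun j x hx => (v1 j hx).1) (iUnion_subset fun j x hx => (v2 j hx).1)
    (fun x h1 h2 h3 => by
      have ex : ∃ j, ⟪e, x⟫ ≤ a (j + 1) := by
        obtain ⟨J, hJ⟩ := exists_nat_gt (⟪e, x⟫ - a 0)
        exact ⟨J, by linarith [aj J, ha J]⟩
      classical
      have k : a (Nat.find ex) ≤ ⟪e, x⟫ := by
        rcases hn : Nat.find ex with _ | j
        · exact h2
        · exact (not_le.1 (Nat.find_min ex (hn ▸ Nat.lt_succ_self j))).le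
      exact ((p4 _ _ _ (s (Nat.find ex)).2).ge ⟨h1, ⟨k, Nat.find_spec ex⟩, h3⟩).imp
        (fun m => mem_iUnion.2 ⟨_, m⟩) fun m => mem_iUnion.2 ⟨_, m⟩)
  obtain ⟨J, hJ⟩ := exists_nat_gt (a₁ - a 0)
  obtain ⟨p, hp, q, hq, n1, n2⟩ := nr J _ _ (s J).2
  exact (h (a J) (by linarith [aj J]) p (mem_iUnion.2 ⟨J, p5 _ _ _ _ hp⟩) q
    (mem_iUnion.2 ⟨J, p6 _ _ _ _ hq⟩) n1).not_gt n2

/-- a chain of levels with a property which holds often -/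
theorem exists_chain {P : ℝ → Prop} {η a₀ : ℝ} (η0 : 0 < η) (η1 : η ≤ 1)
    (h : ∀ a, a₀ ≤ a → ∃ a', a ≤ a' ∧ a' ≤ (1 + η) * a ∧ P a') (ρ : ℝ) :
    ∃ a : ℕ → ℝ, ∀ j, P (a j) ∧ ρ ≤ a j ∧ a j + 1 ≤ a (j + 1) ∧ a (j + 1) + 1 - a j ≤ 4 * η * a j := by
  choose! f f1 f2 f3 using h
  set R := max (max a₀ ρ) (1 / η) with hR
  have r1 : a₀ ≤ R := (le_max_left _ _).trans (le_max_left _ _)
  have r2 : ρ ≤ R := (le_max_right _ _).trans (le_max_left _ _)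
  have r3 : 1 ≤ η * R := by rw [mul_comm, ← div_le_iff₀ η0]; exact le_max_right _ _
  let a : ℕ → ℝ := fun j => Nat.rec (f R) (fun _ s => f (s + 1)) j
  have k : ∀ j, R ≤ a j ∧ P (a j) := fun j => by
    induction j with
    | zero => exact ⟨f1 R r1, f3 R r1⟩
    | succ j ih => exact ⟨by linarith [f1 (a j + 1) (by linarith [ih.1]), ih.1],
        f3 (a j + 1) (by linarith [ih.1])⟩
  refine ⟨a, fun j => ⟨(k j).2, r2.trans (k j).1, f1 (a j + 1) (by linarith [(k j).1]), ?_⟩⟩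
  have i1 : a (j + 1) ≤ (1 + η) * (a j + 1) := f2 (a j + 1) (by linarith [(k j).1])
  have i2 : η * R ≤ η * a j := mul_le_mul_of_nonneg_left (k j).1 η0.le
  nlinarith

variable {ι : Type} [Finite ι] {A A' : ι → Set E3}

/-- labels of a cross section -/
structure Lab (w : E3 → ℝ) (e : E3) (a : ℝ) (A : ι → Set E3) : Prop where
  cl : ∀ l, IsClosed (A l)
  inj : ∀ l l' x, x ∈ A l → x ∈ A l' → l = l'
  cov : ∀ x ∈ lv w e a 15, ∃ l, x ∈ A l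
  con : ∀ l, ∃ P, IsPreconnected P ∧ P ⊆ lv w e a 15 ∧ A l ∩ lv w e a 14 ⊆ P
  ne : ∀ l, (A l ∩ lv w e a 14).Nonempty

theorem lv_mono : lv w e a 14 ⊆ lv w e a 15 := fun _ h => ⟨h.1, h.2.1, h.2.2.trans (by norm_num)⟩

theorem Lab.split (L : Lab w e a A) {I : Set ι} (h1 : I.Nonempty) (h2 : Iᶜ.Nonempty) :
    Split w e a (lv w e a 14 ∩ ⋃ l ∈ I, A l) (lv w e a 14 ∩ ⋃ l ∈ Iᶜ, A l) := by
  have cov : ∀ x ∈ lv w e a 15, x ∈ (⋃ l ∈ I, A l) ∪ ⋃ l ∈ Iᶜ, A l := fun x hx => by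
    obtain ⟨l, hl⟩ := L.cov x hx
    exact (em (l ∈ I)).imp (fun k => mem_biUnion k hl) fun k => mem_biUnion (mem_compl k) hl
  have ne : ∀ {I : Set ι}, I.Nonempty → (lv w e a 14 ∩ ⋃ l ∈ I, A l).Nonempty := fun ⟨l, hl⟩ =>
    (L.ne l).imp fun x hx => ⟨hx.2, mem_biUnion hl hx.1⟩
  refine ⟨by rw [← inter_union_distrib_left, inter_eq_left]; exact fun x hx => cov x (lv_mono hx),
    ne h1, ne h2, fun N n1 n2 n3 n4 => ?_⟩
  obtain ⟨z, -, z1, z2⟩ := isPreconnected_closed_iff.1 n1 _ _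
    ((toFinite I).isClosed_biUnion fun l _ => L.cl l)
    ((toFinite Iᶜ).isClosed_biUnion fun l _ => L.cl l) (fun x hx => cov x (n2 hx))
    (n3.mono fun x hx => ⟨hx.1, hx.2.2⟩) (n4.mono fun x hx => ⟨hx.1, hx.2.2⟩)
  obtain ⟨i, i1, i2⟩ := mem_iUnion₂.1 z1
  obtain ⟨j, j1, j2⟩ := mem_iUnion₂.1 z2
  exact j1 (L.inj i j z i2 j2 ▸ i1)

theorem Lab.not_both (L : Lab w e a A) {C C' : Set E3} (h : Split w e a C C') {l : ι} {x x' : E3}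
    (h1 : x ∈ A l) (h2 : x ∈ C) (h3 : x' ∈ A l) (h4 : x' ∈ C') : False := by
  obtain ⟨P, p1, p2, p3⟩ := L.con l
  exact h.2.2.2 P p1 p2 ⟨x, p3 ⟨h1, h.1.le (Or.inl h2)⟩, h2⟩ ⟨x', p3 ⟨h3, h.1.le (Or.inr h4)⟩, h4⟩

theorem Lab.near (L : Lab w e a A) {c : ι → E3} (h1 : ∀ l, c l ∈ A l ∩ lv w e a 14)
    (h2 : ∀ l, ‖c l - a • e‖ ≤ 6) (h3 : ∀ l l', ‖c l - c l'‖ < 1 / 3) : Near w e a := by
  intro C C' h
  obtain ⟨x, hx⟩ := h.2.1
  obtain ⟨x', hx'⟩ := h.2.2.1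
  obtain ⟨l, hl⟩ := L.cov x (lv_mono (h.1.le (Or.inl hx)))
  obtain ⟨l', hl'⟩ := L.cov x' (lv_mono (h.1.le (Or.inr hx')))
  exact ⟨c l, (h.1.ge (h1 l).2).resolve_right fun m => L.not_both h hl hx (h1 l).1 m, c l',
    (h.1.ge (h1 l').2).resolve_left fun m => L.not_both h (h1 l').1 m hl' hx', h2 l, h3 l l'⟩

theorem isCompact_tube (hS : Shr w) (he : ‖e‖ = 1) : IsCompact (tube w e a a') := by
  refine Metric.isCompact_of_isClosed_isBounded ?_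
    ((Metric.isBounded_closedBall (x := (0 : E3)) (r := 14 + (|a| + |a'|))).subset fun x hx => ?_)
  · simp only [tube, ofPred_and]
    exact hS.closed.inter ((isClosed_Icc.preimage (by fun_prop)).inter
      (isClosed_le (by fun_prop) (by fun_prop)))
  · have i1 := (abs_le_max_abs_abs hx.2.1.1 hx.2.1.2).trans
      (max_le_add_of_nonneg (abs_nonneg _) (abs_nonneg _))
    have i2 := norm_le_norm_add_norm_sub' x (⟪e, x⟫ • e)
    rw [norm_smul, he, mul_one, Real.norm_eq_abs] at i2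
    exact mem_closedBall_zero_iff.2 (by linarith [hx.2.2])

theorem step_of_sep (hS : Shr w) (he : ‖e‖ = 1) (L : Lab w e a A) (L' : Lab w e a' A') (h : a ≤ a')
    (sep : ∀ N, IsPreconnected N → N ⊆ tube w e a a' → ∀ l l', (N ∩ (A l ∪ A' l)).Nonempty →
      (N ∩ (A l' ∪ A' l')).Nonempty → l = l') : Step w e a a' := by
  intro C C' hC
  let I : Set ι := {l | (A l ∩ C).Nonempty}
  have t0 : lv w e a 14 ⊆ tube w e a a' := fun x hx => ⟨hx.1, ⟨hx.2.1.ge, hx.2.1.le.trans h⟩, hx.2.2⟩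
  have t1 : lv w e a' 14 ⊆ tube w e a a' := fun x hx =>
    ⟨hx.1, ⟨h.trans hx.2.1.ge, hx.2.1.le⟩, hx.2.2⟩
  have c1 : ∀ x ∈ C, ∃ l ∈ I, x ∈ A l := fun x hx => by
    obtain ⟨l, hl⟩ := L.cov x (lv_mono (hC.1.le (Or.inl hx)))
    exact ⟨l, ⟨x, hl, hx⟩, hl⟩
  have c2 : ∀ x ∈ C', ∃ l ∈ Iᶜ, x ∈ A l := fun x hx => by
    obtain ⟨l, hl⟩ := L.cov x (lv_mono (hC.1.le (Or.inr hx)))
    exact ⟨l, fun ⟨z, z1, z2⟩ => L.not_both hC z1 z2 hl hx, hl⟩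
  obtain ⟨V, V', v1, v2, v3, v4, v5, v6⟩ := exists_sep (isCompact_tube (a := a) (a' := a') hS he)
    ((toFinite I).isClosed_biUnion fun l _ => (L.cl l).union (L'.cl l))
    ((toFinite Iᶜ).isClosed_biUnion fun l _ => (L.cl l).union (L'.cl l))
    fun N n1 n2 ⟨x, x1, x2⟩ ⟨z, z1, z2⟩ => by
      obtain ⟨i, i1, i2⟩ := mem_iUnion₂.1 x2
      obtain ⟨j, j1, j2⟩ := mem_iUnion₂.1 z2
      exact j1 (sep N n1 n2 i j ⟨x, x1, i2⟩ ⟨z, z1, j2⟩ ▸ i1)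
  refine ⟨V, V', _, _, v1, v2, v3, v4, fun x hx => ?_, fun x hx => ?_, fun x hx => ?_,
    fun x hx => ?_, L'.split (I := I) ?_ ?_⟩
  · obtain ⟨l, l1, l2⟩ := c1 x hx
    exact v5 ⟨t0 (hC.1.le (Or.inl hx)), mem_biUnion l1 (Or.inl l2)⟩
  · obtain ⟨l, l1, l2⟩ := c2 x hx
    exact v6 ⟨t0 (hC.1.le (Or.inr hx)), mem_biUnion l1 (Or.inl l2)⟩
  · obtain ⟨l, l1, l2⟩ := mem_iUnion₂.1 hx.2
    exact v5 ⟨t1 hx.1, mem_biUnion l1 (Or.inr l2)⟩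
  · obtain ⟨l, l1, l2⟩ := mem_iUnion₂.1 hx.2
    exact v6 ⟨t1 hx.1, mem_biUnion l1 (Or.inr l2)⟩
  · obtain ⟨x, hx⟩ := hC.2.1
    exact (c1 x hx).imp fun _ h => h.1
  · obtain ⟨x, hx⟩ := hC.2.2.1
    exact (c2 x hx).imp fun _ h => h.1

theorem Lab.sub (L : Lab w e a A) {N : Set E3} (hN : IsPreconnected N) (hs : N ⊆ lv w e a 15)
    {l : ι} (h : (N ∩ A l).Nonempty) : N ⊆ A l := by
  intro x hx
  by_contra k
  obtain ⟨l', hl'⟩ := L.cov x (hs hx)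
  obtain ⟨z, -, z1, z2⟩ := isPreconnected_closed_iff.1 hN _ _ (L.cl l)
    ((toFinite {l}ᶜ).isClosed_biUnion fun l _ => L.cl l) (fun x hx => by
      obtain ⟨i, hi⟩ := L.cov x (hs hx)
      by_cases m : i = l
      exacts [Or.inl (m ▸ hi), Or.inr (mem_biUnion (show i ∈ ({l}ᶜ : Set ι) from m) hi)]) h
    ⟨x, hx, mem_biUnion (show l' ∈ ({l}ᶜ : Set ι) from fun m => k (m ▸ hl')) hl'⟩
  obtain ⟨j, j1, j2⟩ := mem_iUnion₂.1 z2
  exact j1 (L.inj j l z j2 z1)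

theorem ToCore.mono {T T' : Set E3} {x : E3} (h : ToCore T x) (hs : T ⊆ T') : ToCore T' x := by
  obtain ⟨N, p, a1, a2, a3, a4⟩ := h
  exact ⟨N, p, a1, a2, a3.trans hs, a4⟩

theorem ToCore.trans {T N : Set E3} {x z : E3} (h : ToCore T z) (hN : IsPreconnected N)
    (hb : Bornology.IsBounded N) (hs : N ⊆ T) (hx : x ∈ N) (hz : z ∈ N) : ToCore T x := by
  obtain ⟨M, p, a1, a2, a3, a4, a5, a6⟩ := h
  exact ⟨N ∪ M, p, hN.union z hz a4 a1, hb.union a2, union_subset hs a3, Or.inl hx, Or.inr a5, a6⟩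

theorem face_vec (hS : Shr w) (he : ‖e‖ = 1) {p N : E3} {σ : ℝ} (σ0 : 0 < σ) (hp : w p = 0)
    (hN : ⟪e, N⟫ = 0) (h1 : σ ≤ |⟪nuW w p, N⟫|) (h2 : |⟪p, N⟫| < σ * ⟪e, p⟫) :
    ∃ v, ⟪nuW w p, v⟫ = 0 ∧ ⟪e, v⟫ < 0 ∧ ⟪p, v⟫ < 0 := by
  have n0 := abs_pos.1 (σ0.trans_le h1)
  refine ⟨-e + (⟪nuW w p, e⟫ / ⟪nuW w p, N⟫) • N, ?_, ?_, ?_⟩
  · rw [inner_add_right, inner_neg_right, real_inner_smul_right, div_mul_cancel₀ _ n0,
      neg_add_cancel]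
  · rw [inner_add_right, inner_neg_right, real_inner_smul_right, hN, inner_of_norm he]
    norm_num
  · rw [inner_add_right, inner_neg_right, real_inner_smul_right, real_inner_comm e p]
    have i1 : |⟪nuW w p, e⟫ / ⟪nuW w p, N⟫| ≤ 1 / σ := by
      rw [abs_div]
      exact div_le_div₀ zero_le_one (abs_nu_le hS hp he) σ0 h1
    have i2 : ⟪nuW w p, e⟫ / ⟪nuW w p, N⟫ * ⟪p, N⟫ ≤ 1 / σ * |⟪p, N⟫| :=
      (le_abs_self _).trans (by rw [abs_mul]; gcongr)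
    have i3 : 1 / σ * |⟪p, N⟫| < ⟪e, p⟫ := by rwa [one_div, inv_mul_lt_iff₀ σ0]
    linarith

theorem lt_norm_of {ρ : ℝ} {x : E3} (he : ‖e‖ = 1) (h : ρ < ⟪e, x⟫) : ρ < ‖x‖ :=
  h.trans_le ((le_abs_self _).trans (abs_inner_le he))

end Vale.Agent.P218N.CM
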