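import Vale.Agent.P218N.CM.Jet

/-! # Maximum principles on a shrinker: capsules, paths to the core, empty cones -/

open Set Real Filter Topology
open scoped RealInnerProductSpace

noncomputable section

namespace Vale.Agent.P218N.CM

open Vale.Agent.P218N.H Vale.Agent.P218.H313

variable {w : E3 → ℝ} {x e y n : E3}

theorem _root_.Vale.Agent.P218N.Shr.loc_conn (hS : Shr w) (hx : w x = 0) {O : Set E3}
    (hO : O ∈ 𝓝 x) : ∃ N, IsPreconnected N ∧ N ⊆ {x | w x = 0} ∩ O ∧ x ∈ N ∧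
      ∀ᶠ p in 𝓝 x, w p = 0 → p ∈ N := by
  have h := hS.ne x hx
  obtain ⟨O', o1, o2, o3⟩ := _root_.mem_nhds_iff.1 hO
  obtain ⟨φ, h1, h2, h3, -, -⟩ := exists_strt hS.smooth h o2 o3
  have hφ : φ x = 0 := by rw [h3, strt, hx]; simp
  obtain ⟨r, r0, hr⟩ := Metric.isOpen_iff.1 φ.open_target 0 (hφ ▸ φ.map_source h1)
  have cv : Convex ℝ (Metric.ball (0 : E3) r ∩ {p | ⟪nuW w x, p⟫ = 0}) :=
    (convex_ball 0 r).inter (convex_hyperplane (f := fun p => ⟪nuW w x, p⟫)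
      (innerSL ℝ (nuW w x)).toLinearMap.isLinear 0)
  refine ⟨φ.symm '' (Metric.ball 0 r ∩ {p | ⟪nuW w x, p⟫ = 0}), cv.isPreconnected.image _
    (φ.continuousOn_symm.mono fun p hp => hr hp.1), ?_,
    ⟨0, ⟨Metric.mem_ball_self r0, inner_zero_right _⟩, by rw [← hφ, φ.left_inv h1]⟩, ?_⟩
  · rintro _ ⟨p, hp, rfl⟩
    refine ⟨?_, o1 (h2 (φ.map_target (hr hp.1)))⟩
    show w _ = 0
    rw [← inner_strt h, ← h3, φ.right_inv (hr hp.1)]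
    exact hp.2
  · filter_upwards [φ.open_source.mem_nhds h1,
      (φ.continuousAt h1).eventually (hφ ▸ Metric.ball_mem_nhds (0 : E3) r0)] with p p1 p2 p3
    exact ⟨φ p, ⟨hφ ▸ p2, by show _ = _; rw [h3, inner_strt h, p3]⟩, φ.left_inv p1⟩

theorem _root_.Vale.Agent.P218N.Shr.locConn (hS : Shr w) :
    LocallyConnectedSpace {x | w x = 0} := by
  refine locallyConnectedSpace_iff_connected_subsets.2 fun x U hU => ?_
  obtain ⟨O, hO, hOU⟩ := (mem_nhds_subtype _ _ _).1 hU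
  obtain ⟨N, n1, n2, -, n4⟩ := hS.loc_conn x.2 hO
  exact ⟨_, (continuous_subtype_val.continuousAt.eventually n4).mono fun p hp => hp p.2,
    preconnected_val n1 fun p hp => (n2 hp).1, fun p hp => hOU (n2 hp).2⟩

/-- minimise `f` on the component of `x` in a compact set -/
theorem exists_min_comp {K : Set E3} (hK : IsCompact K) {f : E3 → ℝ} (hf : Continuous f)
    (hx : x ∈ K) : ∃ N z, IsPreconnected N ∧ N ⊆ K ∧ x ∈ N ∧ z ∈ N ∧ f z ≤ f x ∧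
      ∀ N', IsPreconnected N' → N' ⊆ K → z ∈ N' → ∀ p ∈ N', f z ≤ f p := by
  have : CompactSpace K := isCompact_iff_compactSpace.1 hK
  have c : IsCompact (connectedComponentIn K x) := by
    rw [connectedComponentIn_eq_image hx]
    exact isClosed_connectedComponent.isCompact.image continuous_subtype_val
  obtain ⟨z, hz, hm⟩ := c.exists_isMinOn ⟨x, mem_connectedComponentIn hx⟩ hf.continuousOn
  exact ⟨_, z, isPreconnected_connectedComponentIn, connectedComponentIn_subset _ _,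
    mem_connectedComponentIn hx, hz, hm (mem_connectedComponentIn hx), fun N' n1 n2 n3 p hp =>
      hm (connectedComponentIn_eq hz ▸ n1.subset_connectedComponentIn n3 n2 hp)⟩

/-- the maximum principle at a local minimum of `f` on the shrinker -/
theorem _root_.Vale.Agent.P218N.Shr.min_le (hS : Shr w) (hx : w x = 0) {f : E3 → ℝ} {N : E3}
    {C : ℝ} (hm : ∀ᶠ p in 𝓝 x, w p = 0 → f x ≤ f p)
    (hf : ∀ γ v z, J2 γ x v z → ‖v‖ = 1 → ∃ c ≤ C, J2 (fun t => f (γ t)) (f x) ⟪N, v⟫ (⟪N, z⟫ + c)) :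
    ⟪N, x⟫ ≤ 4 * C := by
  obtain ⟨v₁, v₂, F⟩ := exists_fr (hS.norm_nu hx)
  obtain ⟨γ₁, z₁, γ₂, z₂, j1, j2, m1, m2, hz⟩ := hS.two hx F F.ey F.en
  obtain ⟨c₁, a1, k1⟩ := hf _ _ _ j1 F.norm_y
  obtain ⟨c₂, a2, k2⟩ := hf _ _ _ j2 F.norm_n
  obtain ⟨f1, s1⟩ := k1.min (((j1.tendsto.eventually hm).and m1).mono fun t h => h.1 h.2)
  obtain ⟨f2, s2⟩ := k2.min (((j2.tendsto.eventually hm).and m2).mono fun t h => h.1 h.2)
  have := hz N (by rw [real_inner_comm, f1]) (by rw [real_inner_comm, f2])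
  linarith

theorem J2.exists_arc {γ : ℝ → E3} {v z : E3} (h : J2 γ x v z) {P : E3 → Prop}
    (hP : ∀ᶠ t in 𝓝[>] (0 : ℝ), P (γ t)) :
    ∃ N p, IsPreconnected N ∧ x ∈ N ∧ p ∈ N ∧ P p ∧ ∀ q ∈ N, q = x ∨ P q := by
  obtain ⟨γ', h1, -, h3, -⟩ := h
  obtain ⟨ε, ε0, hε⟩ := Metric.eventually_nhds_iff.1 (h3.and (eventually_nhdsWithin_iff.1 hP))
  have k : ∀ t ∈ Icc 0 (ε / 2), dist t 0 < ε := fun t a => by
    rw [dist_zero_right, Real.norm_eq_abs, abs_of_nonneg a.1]; linarith [a.2]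
  have m : ε / 2 ∈ Icc 0 (ε / 2) := ⟨(half_pos ε0).le, le_rfl⟩
  refine ⟨γ '' Icc 0 (ε / 2), γ (ε / 2), isPreconnected_Icc.image _ fun t ht =>
    (hε (k t ht)).1.continuousAt.continuousWithinAt, ⟨0, ⟨le_rfl, m.1⟩, h1⟩, ⟨_, m, rfl⟩,
    (hε (k _ m)).2 (half_pos ε0), ?_⟩
  rintro _ ⟨t, ht, rfl⟩
  rcases ht.1.eq_or_lt with rfl | t0
  exacts [Or.inl h1, Or.inr ((hε (k t ht)).2 t0)]

theorem J2.lt {g : ℝ → ℝ} {a b c : ℝ} (h : J2 g a b c) (hb : b < 0) :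
    ∀ᶠ t in 𝓝[>] (0 : ℝ), g t < a := by
  filter_upwards [((hasDerivAt_iff_tendsto_slope_left_right.1 h.der).2).eventually_lt_const hb,
    self_mem_nhdsWithin] with t h1 h2
  rw [slope_def_field, h.zero, sub_zero, div_neg_iff] at h1
  rcases h1 with k | k
  exacts [absurd k.2 (not_lt.2 (le_of_lt h2)), by linarith [k.1]]

theorem J2.lin {γ : ℝ → E3} {v z : E3} (h : J2 γ x v z) (e : E3) :
    J2 (fun t => ⟪e, γ t⟫) ⟪e, x⟫ ⟪e, v⟫ ⟪e, z⟫ := by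
  simpa using (J2.const e).inner h

/-- a short arc on the shrinker which goes back in the direction `-e` and towards the origin -/
theorem _root_.Vale.Agent.P218N.Shr.back (hS : Shr w) (hx : w x = 0) {v : E3}
    (hv : ⟪nuW w x, v⟫ = 0) (h1 : ⟪e, v⟫ < 0) (h2 : ⟪x, v⟫ < 0) {O : Set E3} (hO : O ∈ 𝓝 x) :
    ∃ N p, IsPreconnected N ∧ x ∈ N ∧ p ∈ N ∧ ⟪e, p⟫ < ⟪e, x⟫ ∧ ‖p‖ ^ 2 < ‖x‖ ^ 2 ∧
      ∀ q ∈ N, w q = 0 ∧ ⟪e, q⟫ ≤ ⟪e, x⟫ ∧ q ∈ O := by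
  obtain ⟨γ, z, j, m, -⟩ := hS.curve hx hv
  have k := (j.inner j).lt (by rw [real_inner_comm x v]; linarith)
  simp only [real_inner_self_eq_norm_sq] at k
  obtain ⟨N, p, n1, n2, n3, n4, n5⟩ := j.exists_arc
    (P := fun q => (⟪e, q⟫ < ⟪e, x⟫ ∧ ‖q‖ ^ 2 < ‖x‖ ^ 2) ∧ w q = 0 ∧ q ∈ O)
    ((((j.lin e).lt h1).and k).and (nhdsWithin_le_nhds (m.and (j.tendsto.eventually hO))))
  refine ⟨N, p, n1, n2, n3, n4.1.1, n4.1.2, fun q hq => ?_⟩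
  rcases n5 q hq with rfl | a
  exacts [⟨hx, le_rfl, mem_of_mem_nhds hO⟩, ⟨a.2.1, a.1.1.le, a.2.2⟩]

theorem Fr.isCompact (F : Fr e y n) {K : Set E3} (hK : IsClosed K) {C : ℝ}
    (h : ∀ p ∈ K, |⟪e, p⟫| ≤ C ∧ |⟪y, p⟫| ≤ C ∧ |⟪n, p⟫| ≤ C) : IsCompact K := by
  refine Metric.isCompact_of_isClosed_isBounded hK
    ((Metric.isBounded_closedBall (x := (0 : E3)) (r := 2 * C)).subset fun p hp => ?_)
  obtain ⟨a, b, c⟩ := h p hp
  have C0 : 0 ≤ C := (abs_nonneg _).trans a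
  refine mem_closedBall_zero_iff.2 (abs_le_of_sq_le_sq' ?_ (by linarith)).2
  rw [F.norm_sq]
  nlinarith [sq_le_sq' (abs_le.1 a).1 (abs_le.1 a).2, sq_le_sq' (abs_le.1 b).1 (abs_le.1 b).2,
    sq_le_sq' (abs_le.1 c).1 (abs_le.1 c).2]

/-- every point is joined to the back level inside a thin capsule -/
theorem _root_.Vale.Agent.P218N.Shr.capsule (hS : Shr w) (F : Fr e y n) {a₀ a₁ l : ℝ}
    (hx : w x = 0) (h0 : a₀ ≤ ⟪e, x⟫) (h1 : ⟪e, x⟫ < a₁) (l0 : 0 < l)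
    (hη : (a₁ - a₀) * (8 + (⟪y, x⟫ ^ 2 + ⟪n, x⟫ ^ 2) / 2) ≤ a₀ * l ^ 2) :
    ∃ N z, IsPreconnected N ∧ x ∈ N ∧ z ∈ N ∧ ⟪e, z⟫ = a₀ ∧ ∀ p ∈ N, w p = 0 ∧ a₀ ≤ ⟪e, p⟫ ∧
      ⟪e, p⟫ ≤ a₁ ∧ (⟪y, p⟫ - ⟪y, x⟫) ^ 2 + (⟪n, p⟫ - ⟪n, x⟫) ^ 2 ≤ l ^ 2 := by
  set b₀ := ⟪y, x⟫
  set h₀ := ⟪n, x⟫
  obtain ⟨κ, κ0, hκ⟩ : ∃ κ : ℝ, 0 < κ ∧ κ * l ^ 2 = a₁ - a₀ :=
    ⟨(a₁ - a₀) / l ^ 2, div_pos (by linarith) (by positivity), by field_simp⟩
  have cw := hS.smooth.continuous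
  let K : Set E3 := {p | w p = 0 ∧ a₀ ≤ ⟪e, p⟫ ∧ ⟪e, p⟫ ≤ a₁ ∧
    (⟪y, p⟫ - b₀) ^ 2 + (⟪n, p⟫ - h₀) ^ 2 ≤ l ^ 2}
  have Kc : IsCompact K := by
    refine F.isCompact (C := |a₀| + |a₁| + |b₀| + |h₀| + l) ?_ fun p hp => ?_
    · simp only [K, ofPred_and]
      exact hS.closed.inter ((isClosed_le (by fun_prop) (by fun_prop)).inter
        ((isClosed_le (by fun_prop) (by fun_prop)).inter (isClosed_le (by fun_prop) (by fun_prop))))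
    · obtain ⟨-, p1, p2, p3⟩ := hp
      have i1 := abs_le_of_sq_le_sq' (show (⟪y, p⟫ - b₀) ^ 2 ≤ l ^ 2 by
        linarith [sq_nonneg (⟪n, p⟫ - h₀)]) l0.le
      have i2 := abs_le_of_sq_le_sq' (show (⟪n, p⟫ - h₀) ^ 2 ≤ l ^ 2 by
        linarith [sq_nonneg (⟪y, p⟫ - b₀)]) l0.le
      have := abs_nonneg a₀
      have := abs_nonneg a₁
      have := abs_nonneg b₀
      have := abs_nonneg h₀
      refine ⟨abs_le.2 ⟨?_, ?_⟩, abs_le.2 ⟨?_, ?_⟩, abs_le.2 ⟨?_, ?_⟩⟩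
      · linarith [neg_abs_le a₀]
      · linarith [le_abs_self a₁]
      · linarith [neg_abs_le b₀]
      · linarith [le_abs_self b₀]
      · linarith [neg_abs_le h₀]
      · linarith [le_abs_self h₀]
  obtain ⟨N, z, n1, n2, n3, n4, n5, n6⟩ := exists_min_comp Kc
    (f := fun p => ⟪e, p⟫ + κ * ((⟪y, p⟫ - b₀) ^ 2 + (⟪n, p⟫ - h₀) ^ 2)) (by fun_prop)
    (show x ∈ K from ⟨hx, h0, h1.le, by simp [b₀, h₀, sq_nonneg]⟩)
  refine ⟨N, z, n1, n3, n4, ?_, fun p hp => n2 hp⟩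
  obtain ⟨z1, z2, -, -⟩ := n2 n4
  refine (z2.eq_or_lt.resolve_right fun z2' => ?_).symm
  simp only [b₀, h₀, sub_self, ne_eq, OfNat.ofNat_ne_zero, not_false_eq_true, zero_pow, add_zero,
    mul_zero] at n5
  have q0 : 0 ≤ (⟪y, z⟫ - b₀) ^ 2 + (⟪n, z⟫ - h₀) ^ 2 := by positivity
  have z3 : ⟪e, z⟫ < a₁ := by nlinarith
  have z4 : (⟪y, z⟫ - b₀) ^ 2 + (⟪n, z⟫ - h₀) ^ 2 < l ^ 2 :=
    lt_of_mul_lt_mul_left (by linarith) κ0.le
  obtain ⟨N', m1, m2, m3, m4⟩ := hS.loc_conn z1 (O := {p | a₀ < ⟪e, p⟫ ∧ ⟪e, p⟫ < a₁ ∧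
    (⟪y, p⟫ - b₀) ^ 2 + (⟪n, p⟫ - h₀) ^ 2 < l ^ 2}) (IsOpen.mem_nhds (by
      simp only [ofPred_and]
      exact (isOpen_lt (by fun_prop) (by fun_prop)).inter
        ((isOpen_lt (by fun_prop) (by fun_prop)).inter (isOpen_lt (by fun_prop) (by fun_prop))))
      ⟨z2', z3, z4⟩)
  have key := hS.min_le z1 (C := 2 * κ)
    (f := fun p => ⟪e, p⟫ + κ * ((⟪y, p⟫ - b₀) ^ 2 + (⟪n, p⟫ - h₀) ^ 2))
    (N := pt e y n 1 (2 * κ * (⟪y, z⟫ - b₀)) (2 * κ * (⟪n, z⟫ - h₀)))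
    (m4.mono fun p hp a => n6 N' m1
      (fun q hq => ⟨(m2 hq).1, (m2 hq).2.1.le, (m2 hq).2.2.1.le, (m2 hq).2.2.2.le⟩) m3 p (hp a))
    (fun γ v u j hv => by
      have j1 := (j.lin y).sub (J2.const b₀)
      have j2 := (j.lin n).sub (J2.const h₀)
      refine ⟨2 * κ * (⟪y, v⟫ ^ 2 + ⟪n, v⟫ ^ 2), ?_, ?_⟩
      · have := F.norm_sq v
        rw [hv] at this
        nlinarith [sq_nonneg ⟪e, v⟫]
      · convert (j.lin e).add ((J2.const κ).mul ((j1.mul j1).add (j2.mul j2))) using 1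
        · ext t; ring
        · ring
        · rw [F.inner_eq, F.e_pt, F.y_pt, F.n_pt]; ring
        · rw [F.inner_eq, F.e_pt, F.y_pt, F.n_pt]; ring)
  rw [F.inner_eq, F.e_pt, F.y_pt, F.n_pt] at key
  have i1 : κ * (8 + (b₀ ^ 2 + h₀ ^ 2) / 2) ≤ a₀ :=
    le_of_mul_le_mul_right (by rw [mul_right_comm, hκ]; exact hη) (pow_pos l0 2)
  nlinarith [mul_nonneg κ0.le (sq_nonneg (2 * ⟪y, z⟫ - b₀)),
    mul_nonneg κ0.le (sq_nonneg (2 * ⟪n, z⟫ - h₀))]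

/-- points behind a good level are joined to the core behind this level -/
theorem _root_.Vale.Agent.P218N.Shr.toCore (hS : Shr w) {a₀ : ℝ} (hx : w x = 0)
    (h0 : ⟪e, x⟫ ≤ a₀) (face : ∀ p, w p = 0 → ⟪e, p⟫ = a₀ → ‖p‖ ^ 2 ≤ ‖x‖ ^ 2 →
      ∃ v, ⟪nuW w p, v⟫ = 0 ∧ ⟪e, v⟫ < 0 ∧ ⟪p, v⟫ < 0) :
    ToCore ({p | w p = 0} ∩ {p | ⟪e, p⟫ ≤ a₀}) x := by
  have Kc : IsCompact (({p | w p = 0} ∩ {p | ⟪e, p⟫ ≤ a₀}) ∩ Metric.closedBall 0 (‖x‖ + 1)) :=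
    (isCompact_closedBall _ _).inter_left
      (hS.closed.inter (isClosed_le (by fun_prop) (by fun_prop)))
  obtain ⟨N, z, n1, n2, n3, n4, n5, n6⟩ := exists_min_comp Kc (f := fun p => ‖p‖ ^ 2) (by fun_prop)
    (show x ∈ _ from ⟨⟨hx, h0⟩, mem_closedBall_zero_iff.2 (by linarith)⟩)
  refine ⟨N, z, n1, Kc.isBounded.subset n2, fun p hp => (n2 hp).1, n3, n4, ?_⟩
  obtain ⟨⟨z1, z2⟩, -⟩ := n2 n4
  have hb : Metric.closedBall (0 : E3) (‖x‖ + 1) ∈ 𝓝 z := Metric.closedBall_mem_nhds_of_mem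
    (mem_ball_zero_iff.2 (by linarith [(abs_le_of_sq_le_sq' n5 (norm_nonneg _)).2]))
  rcases (show ⟪e, z⟫ ≤ a₀ from z2).eq_or_lt with k | k
  · obtain ⟨v, v1, v2, v3⟩ := face z z1 k n5
    obtain ⟨N', p, m1, m2, m3, -, m5, m6⟩ := hS.back z1 v1 v2 v3 hb
    exact absurd (n6 N' m1 (fun q hq => ⟨⟨(m6 q hq).1, (m6 q hq).2.1.trans k.le⟩, (m6 q hq).2.2⟩)
      m2 p m3) (not_le.2 m5)
  · obtain ⟨N', m1, m2, m3, m4⟩ := hS.loc_conn z1 (inter_mem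
      ((isOpen_lt (f := fun p : E3 => ⟪e, p⟫) (by fun_prop) continuous_const).mem_nhds k) hb)
    have key := hS.min_le z1 (C := 2) (f := fun p => ‖p‖ ^ 2) (N := (2 : ℝ) • z)
      (m4.mono fun p hp a => n6 N' m1
        (fun q hq => ⟨⟨(m2 hq).1, (show ⟪e, q⟫ < a₀ from (m2 hq).2.1).le⟩, (m2 hq).2.2⟩) m3 p (hp a))
      (fun γ v u j hv => ⟨2, le_rfl, by
        have := j.inner j
        simp only [real_inner_self_eq_norm_sq, hv, real_inner_comm z] at this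
        convert this using 1
        · rw [real_inner_smul_left]; ring
        · rw [real_inner_smul_left]; ring⟩)
    rw [real_inner_smul_left, real_inner_self_eq_norm_sq] at key
    exact (abs_le_of_sq_le_sq' (by linarith) (by norm_num)).2

/-- an empty ball sweeps out an empty cone -/
theorem _root_.Vale.Agent.P218N.Shr.empty_cone (hS : Shr w) {c : E3} {L : ℝ}
    (h : ∀ p, w p = 0 → L ≤ ‖p - c‖ ^ 2) {τ : ℝ} (hτ : 1 ≤ τ) (hx : w x = 0) :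
    τ ^ 2 * (L - 4) + 4 ≤ ‖x - τ • c‖ ^ 2 := by
  refine le_of_forall_pos_lt_add fun ε ε0 => ?_
  by_contra! hc
  obtain ⟨δ, δ0, hδ⟩ : ∃ δ : ℝ, 0 < δ ∧ δ * (2 * τ ^ 2 - 1) = ε :=
    ⟨ε / (2 * τ ^ 2 - 1), div_pos ε0 (by nlinarith), div_mul_cancel₀ _ (by nlinarith)⟩
  let K : Set (ℝ × E3) := {z | z.1 ∈ Icc 1 τ ∧ w z.2 = 0 ∧
    ‖z.2 - z.1 • c‖ ^ 2 ≤ z.1 ^ 2 * (L - 4 - 2 * δ) + (4 + δ)}
  have cw := hS.smooth.continuous
  have Kc : IsCompact K := by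
    refine Metric.isCompact_of_isClosed_isBounded ?_ ?_
    · simp only [K, ofPred_and]
      exact (isClosed_Icc.preimage continuous_fst).inter
        ((isClosed_eq (by fun_prop) (by fun_prop)).inter (isClosed_le (by fun_prop) (by fun_prop)))
    · refine ((Metric.isBounded_Icc 1 τ).prod (Metric.isBounded_closedBall (x := (0 : E3))
        (r := τ * ‖c‖ + (τ ^ 2 * |L - 4 - 2 * δ| + (4 + δ) + 1)))).subset fun z hz => ⟨hz.1, ?_⟩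
      obtain ⟨⟨k1, k2⟩, -, k3⟩ := hz
      have b1 : ‖z.1 • c‖ ≤ τ * ‖c‖ := by
        rw [norm_smul, Real.norm_eq_abs, abs_of_nonneg (by linarith)]
        gcongr
      have b2 : z.1 ^ 2 * (L - 4 - 2 * δ) ≤ τ ^ 2 * |L - 4 - 2 * δ| :=
        (mul_le_mul_of_nonneg_left (le_abs_self _) (sq_nonneg _)).trans (by gcongr)
      have b3 := norm_le_norm_add_norm_sub' z.2 (z.1 • c)
      exact mem_closedBall_zero_iff.2 (by nlinarith [sq_nonneg (‖z.2 - z.1 • c‖ - 1)])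
  obtain ⟨⟨s, p⟩, ⟨k1, k2, k3⟩, hmin⟩ := Kc.exists_isMinOn
    ⟨(τ, x), ⟨hτ, le_rfl⟩, hx, by dsimp only; linarith⟩ continuous_fst.continuousOn
  dsimp only at k1 k2 k3
  have s1 : 1 < s := k1.1.lt_of_ne fun e => by
    subst e
    have := h p k2
    rw [one_smul] at k3
    linarith
  have bef : ∀ q, w q = 0 → ∀ᶠ t in 𝓝[<] s,
      0 ≤ ‖q - t • c‖ ^ 2 - (t ^ 2 * (L - 4 - 2 * δ) + (4 + δ)) := fun q hq => by
    filter_upwards [Ioo_mem_nhdsLT s1] with t a2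
    by_contra! a3
    exact (hmin (a := (t, q)) ⟨⟨a2.1.le, a2.2.le.trans k1.2⟩, hq, by dsimp only; linarith⟩).not_gt
      a2.2
  have der : ∀ q : E3, HasDerivAt (fun t : ℝ => ‖q - t • c‖ ^ 2 -
      (t ^ 2 * (L - 4 - 2 * δ) + (4 + δ))) (-(2 * ⟪q - s • c, c⟫) - 2 * s * (L - 4 - 2 * δ)) s :=
    fun q => ((((hasDerivAt_id s).smul_const c).const_sub q).norm_sq.sub
      ((((hasDerivAt_id s).pow 2).mul_const _).add_const _)).congr_deriv (by simp [inner_neg_right])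
  have aft : ∀ q, w q = 0 → 0 ≤ ‖q - s • c‖ ^ 2 - (s ^ 2 * (L - 4 - 2 * δ) + (4 + δ)) :=
    fun q hq => ge_of_tendsto ((der q).continuousAt.tendsto.mono_left nhdsWithin_le_nhds) (bef q hq)
  have eq : ‖p - s • c‖ ^ 2 = s ^ 2 * (L - 4 - 2 * δ) + (4 + δ) := by linarith [aft p k2]
  have d0 := le_of_tendsto ((hasDerivAt_iff_tendsto_slope_left_right.1 (der p)).1)
    ((bef p k2).and self_mem_nhdsWithin |>.mono fun t ht => by
      rw [slope_def_field]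
      exact div_nonpos_of_nonneg_of_nonpos (by linarith [ht.1]) (sub_nonpos.2 (le_of_lt ht.2)))
  have key := hS.min_le k2 (C := 2) (f := fun q => ‖q - s • c‖ ^ 2) (N := (2 : ℝ) • (p - s • c))
    (Eventually.of_forall fun q hq => by linarith [aft q hq])
    (fun γ v u j hv => ⟨2, le_rfl, by
      have := (j.sub (J2.const (s • c))).inner (j.sub (J2.const (s • c)))
      simp only [real_inner_self_eq_norm_sq, sub_zero, hv, real_inner_comm (p - s • c)] at this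
      convert this using 1
      · rw [real_inner_smul_left]; ring
      · rw [real_inner_smul_left]; ring⟩)
  have i1 : ⟪p - s • c, p⟫ = ‖p - s • c‖ ^ 2 + s * ⟪p - s • c, c⟫ := by
    rw [← real_inner_self_eq_norm_sq, ← real_inner_smul_right, ← inner_add_right, sub_add_cancel]
  rw [real_inner_smul_left, i1] at key
  nlinarith

end Vale.Agent.P218N.CM
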