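import Vale.Agent.P218N.CM.Slab

/-! # Planar limits have multiplicity at most one -/

open Set Real Filter Topology Sum
open scoped RealInnerProductSpace

noncomputable section

namespace Vale.Agent.P218N.CM

open Vale.Agent.P218N.H Vale.Agent.P218N.GB

variable {w : E3 → ℝ} {e y n y' n' x : E3} {k : ℕ} {σ ρ a L a₀ a₁ : ℝ}

theorem SecP.zero (H : SecP w e y n k σ (1 / 10) L a) (F : Fr e y n) (hx : w x = 0)
    (ha : ⟪e, x⟫ = a) (h1 : |⟪y, x⟫| ≤ L) (h2 : |⟪n, x⟫| ≤ L) :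
    |⟪n, x⟫| ≤ 1 / 10 ∧ σ ≤ |⟪nuW w x, n⟫| := by
  have k := F.decomp x
  rw [ha] at k
  have := H.1 _ _ h1 h2 (k.symm ▸ hx)
  rwa [k] at this

theorem SecP.sh0 (hS : Shr w) (H : SecP w e y n k σ (1 / 10) L a) (F : Fr e y n) (σ0 : 0 < σ)
    (hL : 1 ≤ L) : ∃ u : Fin k → ℝ → ℝ, Sh w e y n σ a L (-L) L u := by
  obtain ⟨b, hb, hk⟩ := H.2
  refine exists_sh hS F σ0 (fun b hb h hh m => ?_) (abs_le.1 hb) (by simpa only [abs_le, mem_Icc] using hk)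
  obtain ⟨k1, k2⟩ := H.1 b h (abs_le.2 hb) (abs_le.2 hh) m
  exact ⟨⟨by linarith [(abs_le.1 k1).1], by linarith [(abs_le.1 k1).2]⟩, k2⟩

/-- change of the frame -/
theorem SecP.sh (hS : Shr w) (H : SecP w e y' n' k σ (1 / 10) L a) (F : Fr e y n)
    (F' : Fr e y' n') (σ0 : 0 < σ) (σ1 : σ ≤ 1) (hL : 40 ≤ L) (hs : |⟪n, y'⟫| ≤ σ / 2)
    (conf : ∀ x, w x = 0 → ⟪e, x⟫ = a → |⟪y, x⟫| ≤ L / 2 → |⟪n, x⟫| ≤ 15 → |⟪n, x⟫| ≤ 1) :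
    ∃ v : Fin k → ℝ → ℝ, Sh w e y n (σ / 2) a (L / 2) (-15) 15 v := by
  obtain ⟨u, U⟩ := H.sh0 hS F' σ0 (by linarith)
  have r1 : ⟪n, y'⟫ ^ 2 + ⟪n, n'⟫ ^ 2 = 1 := by
    have := F'.norm_sq n
    rw [F.norm_n, F.en, real_inner_comm n y', real_inner_comm n n'] at this
    linarith
  have r2 : |⟪y, n'⟫| = |⟪n, y'⟫| := by
    have := F.norm_sq n'
    rw [F'.norm_n, F'.en] at this
    exact sq_eq_sq_iff_abs_eq_abs _ _ |>.1 (by linarith)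
  have r3 : 1 / 2 < |⟪n, n'⟫| := lt_of_pow_lt_pow_left₀ 2 (abs_nonneg _) (by
    have := pow_le_pow_left₀ (abs_nonneg _) (hs.trans (show σ / 2 ≤ 1 / 2 by linarith)) 2
    rw [sq_abs] at this ⊢
    linarith)
  have r4 : |⟪n, n'⟫| ≤ 1 := by simpa [F'.norm_n] using abs_inner_le (x := n') F.norm_n
  have d0 : ⟪n, n'⟫ ≠ 0 := abs_pos.1 (by linarith)
  have r5 : |⟪n, y'⟫ / ⟪n, n'⟫| < σ := by
    rw [abs_div, div_lt_iff₀ (abs_pos.2 d0)]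
    nlinarith
  obtain ⟨P, P1, P2, P3⟩ := U.label σ0 (c := 0) r5 (fun h hh => by
    rw [zero_add, abs_mul]
    nlinarith [abs_le.2 hh, abs_nonneg h, abs_nonneg (⟪n, y'⟫ / ⟪n, n'⟫)]) (by linarith)
  have ept : ∀ h, pt e y n a 0 h = pt e y' n' a (h * ⟪n, y'⟫) (h * ⟪n, n'⟫) := fun h => by
    rw [← F'.decomp (pt e y n a 0 h), F.e_pt, F.inner_eq y', F.inner_eq n', F.e_pt, F.y_pt, F.n_pt,
      F'.ey, F'.en]
    congr 1 <;> ring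
  refine exists_sh hS F (half_pos σ0) (fun b hb h hh m => ?_) (b₀ := 0)
    ⟨by linarith, by linarith⟩ ?_
  · have i1 : |⟪y, pt e y n a b h⟫| ≤ L / 2 := by rw [F.y_pt]; exact abs_le.2 hb
    have i2 : |⟪n, pt e y n a b h⟫| ≤ 15 := by rw [F.n_pt]; exact abs_le.2 hh
    have i3 := abs_le.1 (conf _ m (F.e_pt ..) i1 i2)
    obtain ⟨i4, i5⟩ := F'.abs_le_perp (F.perp_le_of i1 i2 (r := L) (by linarith) (by nlinarith))
    have i6 := (H.zero F' m (F.e_pt ..) i4 i5).2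
    rw [F.n_pt] at i3
    refine ⟨⟨by linarith, by linarith⟩, ?_⟩
    rw [F.inner_eq, F'.en, mul_zero, zero_add, real_inner_comm _ y, real_inner_comm _ n] at i6
    have i7 := i6.trans (abs_add_le _ _)
    rw [abs_mul, abs_mul, r2] at i7
    nlinarith [abs_nu_le hS m F.norm_y, abs_nonneg ⟪n, y'⟫,
      abs_nonneg ⟪nuW w (pt e y n a b h), n⟫]
  · rw [show {h | h ∈ Icc (-15 : ℝ) 15 ∧ w (pt e y n a 0 h) = 0} =
      range fun l => u l (P l) / ⟪n, n'⟫ from ?_, Set.ncard_range_of_injective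
        fun l l' m => P3.injective ((div_left_inj' d0).1 m)]
    · simp
    ext h
    rw [mem_ofPred, ept]
    constructor
    · rintro ⟨h1, h2⟩
      have i1 : h * ⟪n, y'⟫ ∈ Icc (-L) L := abs_le.1 (by
        rw [abs_mul]; nlinarith [abs_le.2 h1, abs_nonneg h, abs_nonneg ⟪n, y'⟫])
      obtain ⟨l, hl⟩ := (U.iff _ i1 _).1 ⟨abs_le.1 (by
        rw [abs_mul]; nlinarith [abs_le.2 h1, abs_nonneg h, abs_nonneg ⟪n, n'⟫]), h2⟩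
      refine ⟨l, ?_⟩
      simp only [← P2 l _ i1 (by rw [hl]; field_simp; ring), hl, mul_div_cancel_right₀ _ d0]
    · rintro ⟨l, rfl⟩
      obtain ⟨m1, m2⟩ := U.mem l (P1 l).1
      have i1 := (H.1 _ _ (abs_le.2 (P1 l).1) (abs_le.2 m1) m2).1
      refine ⟨abs_le.1 ?_, ?_⟩
      · rw [abs_div, div_le_iff₀ (abs_pos.2 d0)]
        linarith
      · rwa [div_mul_cancel₀ _ d0, show u l (P l) / ⟪n, n'⟫ * ⟪n, y'⟫ = P l by
          conv_rhs => rw [(P1 l).2]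
          ring]

theorem cap (hS : Shr w) (F : Fr e y n) (hη : (a₁ + 1 - a₀) * (8 + L ^ 2) ≤ a₀ / 100)
    {a' : ℝ} (ha : a' ≤ a₁ + 1) (hx : w x = 0) (h0 : a₀ ≤ ⟪e, x⟫) (h1 : ⟪e, x⟫ < a')
    (h2 : |⟪y, x⟫| ≤ L) (h3 : |⟪n, x⟫| ≤ L) : ∃ N z, IsPreconnected N ∧ x ∈ N ∧ z ∈ N ∧
      ⟪e, z⟫ = a₀ ∧ ∀ p ∈ N, w p = 0 ∧ ⟪e, p⟫ ∈ Icc a₀ a' ∧ |⟪y, p⟫ - ⟪y, x⟫| ≤ 1 / 10 ∧
        |⟪n, p⟫ - ⟪n, x⟫| ≤ 1 / 10 := by
  obtain ⟨N, z, n1, n2, n3, n4, n5⟩ := hS.capsule F (l := 1 / 10) hx h0 h1 (by norm_num) (by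
    have := sq_le_sq' (abs_le.1 h2).1 (abs_le.1 h2).2
    have := sq_le_sq' (abs_le.1 h3).1 (abs_le.1 h3).2
    refine le_trans (mul_le_mul (show _ ≤ a₁ + 1 - a₀ by linarith) (show _ ≤ 8 + L ^ 2 by linarith)
      (by positivity) (by linarith)) (by linarith))
  refine ⟨N, z, n1, n2, n3, n4, fun p hp => ?_⟩
  obtain ⟨p1, p2, p3, p4⟩ := n5 p hp
  exact ⟨p1, ⟨p2, p3⟩,
    abs_le.2 (abs_le_of_sq_le_sq' (by linarith [sq_nonneg (⟪n, p⟫ - ⟪n, x⟫)]) (by norm_num)),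
    abs_le.2 (abs_le_of_sq_le_sq' (by linarith [sq_nonneg (⟪y, p⟫ - ⟪y, x⟫)]) (by norm_num))⟩

theorem exists_slab (hS : Shr w) (F : Fr e y n) (F' : Fr e y' n') (σ0 : 0 < σ) (hk : 0 < k)
    (hN : NoCut {x | w x = 0} ρ) (hρ : ρ < a₀) (hσ : 2 < σ * a₀) (h01 : a₀ + 1 ≤ a₁) (hL : 40 ≤ L)
    (hLσ : 1 ≤ (L - 2) * σ) (hη : (a₁ + 1 - a₀) * (8 + L ^ 2) ≤ a₀ / 100)
    (H0 : SecP w e y n k σ (1 / 10) L a₀) (H1 : SecP w e y' n' k σ (1 / 10) L a₁) :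
    ∃ u v : Fin k → ℝ → ℝ, Slab w e y n (σ / 2) ρ a₀ a₁ (L / 2) u v := by
  have conf : ∀ x, w x = 0 → ⟪e, x⟫ ∈ Icc a₀ a₁ → |⟪y, x⟫| ≤ L - 1 → |⟪n, x⟫| ≤ L - 1 →
      |⟪n, x⟫| ≤ 1 / 5 := fun x h1 h2 h3 h4 => by
    obtain ⟨N, z, -, -, n3, n4, n5⟩ := cap hS F hη le_rfl h1 h2.1 (by linarith [h2.2])
      (by linarith) (by linarith)
    obtain ⟨z1, -, z3, z4⟩ := n5 z n3
    have i1 := abs_sub_abs_le_abs_sub ⟪n, z⟫ ⟪n, x⟫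
    have i2 := abs_sub_abs_le_abs_sub ⟪n, x⟫ ⟪n, z⟫
    rw [abs_sub_comm] at i2
    linarith [(H0.zero F z1 n4 (by linarith [abs_sub_abs_le_abs_sub ⟪y, z⟫ ⟪y, x⟫])
      (by linarith)).1]
  have conf' : ∀ x, w x = 0 → ⟪e, x⟫ ∈ Icc a₀ a₁ → |⟪y, x⟫| ≤ L / 2 → |⟪n, x⟫| ≤ 15 →
      |⟪n, x⟫| ≤ 1 := fun x h1 h2 h3 h4 => by
    linarith [conf x h1 h2 (by linarith) (by linarith)]
  obtain ⟨u', U'⟩ := H1.sh0 hS F' σ0 (by linarith)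
  have m0 : L - 2 ∈ Icc (-L) L := ⟨by linarith, by linarith⟩
  obtain ⟨m1, m2⟩ := U'.mem ⟨0, hk⟩ m0
  obtain ⟨m3, m4⟩ := H1.1 _ _ (abs_le.2 m0) (abs_le.2 m1) m2
  have σ1 : σ ≤ 1 := m4.trans (abs_nu_le hS m2 F'.norm_n)
  have hs : |⟪n, y'⟫| ≤ σ / 2 := by
    obtain ⟨i1, i2⟩ := F.abs_le_perp (F'.perp_le_of (x := pt e y' n' a₁ (L - 2) (u' ⟨0, hk⟩ (L - 2)))
      (r := L - 1) (s := L - 2) (t := 1 / 10) (by rw [F'.y_pt, abs_of_nonneg (by linarith)])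
      (by rwa [F'.n_pt]) (by linarith) (by nlinarith))
    have i3 := conf _ m2 (by rw [F'.e_pt]; exact ⟨by linarith, le_rfl⟩) i1 i2
    rw [F'.inner_eq n, F.en, F'.y_pt, F'.n_pt, zero_mul, zero_add, real_inner_comm n y'] at i3
    have i4 : |⟪n', n⟫| ≤ 1 := by simpa [F.norm_n] using abs_inner_le (x := n) F'.norm_n
    have i5 := abs_sub_abs_le_abs_add (⟪n, y'⟫ * (L - 2)) (⟪n', n⟫ * u' ⟨0, hk⟩ (L - 2))
    rw [abs_mul, abs_mul, abs_of_nonneg (by linarith : 0 ≤ L - 2)] at i5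
    have i6 := mul_le_mul i4 m3 (abs_nonneg _) zero_le_one
    nlinarith
  obtain ⟨u, U⟩ := H0.sh hS F F σ0 σ1 hL (by rw [F.ny, abs_zero]; positivity)
    fun x h1 h2 => conf' x h1 ⟨h2.ge, by linarith⟩
  obtain ⟨v, V⟩ := H1.sh hS F F' σ0 σ1 hL hs fun x h1 h2 => conf' x h1 ⟨by linarith, h2.le⟩
  refine ⟨u, v, hS, F, half_pos σ0, hN, hρ, by linarith, U, V, conf', fun x h1 h2 h3 h4 => ?_,
    fun l b hb => ?_⟩
  · refine hS.toCore h1 h2.le fun p p1 p2 p3 => ?_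
    have i1 : ‖p - ⟪e, p⟫ • e‖ ≤ ‖x - ⟪e, x⟫ • e‖ := (abs_le_of_sq_le_sq' (by
      rw [F.norm_sq, F.norm_sq, p2, h2] at p3
      rw [F.perp_sq, F.perp_sq]
      linarith) (norm_nonneg _)).2
    obtain ⟨i2, i3⟩ := F.abs_le_perp (i1.trans
      (F.perp_le_of h3 h4 (r := L) (by linarith) (by nlinarith)))
    obtain ⟨i4, i5⟩ := H0.zero F p1 p2 i2 i3
    exact face_vec hS F.norm_e σ0 p1 F.en i5 (by rw [real_inner_comm, p2]; linarith)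
  · obtain ⟨x1, x2, x3, x4, x5⟩ := V.arc_mem F (l := l) (x := pt e y n a₁ b (v l b)) ⟨b, hb, rfl⟩
    have xb : ⟪y, pt e y n a₁ b (v l b)⟫ = b := F.y_pt ..
    generalize pt e y n a₁ b (v l b) = x at *
    have x6 := conf x x1 ⟨by linarith, x2.le⟩ (by linarith) (by linarith [abs_le.2 x4])
    obtain ⟨t, t1, t2, t3⟩ := face_vec hS F.norm_e (half_pos σ0) x1 F.en x5
      (by rw [real_inner_comm, x2]; nlinarith)
    obtain ⟨N, p, n1, n2, n3, n4, -, n6⟩ := hS.back x1 t1 t2 t3 (Metric.ball_mem_nhds x one_half_pos)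
    have cl : ∀ z, ‖z‖ = 1 → ∀ q ∈ N, |⟪z, q⟫ - ⟪z, x⟫| ≤ 1 / 2 := fun z hz q hq => by
      rw [← inner_sub_right]
      exact (abs_inner_le hz).trans (mem_ball_iff_norm.1 (n6 q hq).2.2).le
    have j1 := fun q hq => abs_le.1 (cl e F.norm_e q hq)
    have j2 := fun q hq => abs_le.1 (cl y F.norm_y q hq)
    have j3 := fun q hq => abs_le.1 (cl n F.norm_n q hq)
    obtain ⟨x7, x8⟩ := abs_le.1 x6
    obtain ⟨N', z, k1, k2, k3, k4, k5⟩ := cap hS F hη (a' := a₁) (by linarith) (n6 p n3).1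
      (by linarith [(j1 p n3).1]) (x2 ▸ n4)
      (abs_le.2 ⟨by linarith [(j2 p n3).1, hb.1], by linarith [(j2 p n3).2, hb.2]⟩)
      (abs_le.2 ⟨by linarith [(j3 p n3).1], by linarith [(j3 p n3).2]⟩)
    refine ⟨N ∪ N', z, n1.union p n3 k2 k1, Or.inl n2, Or.inr k3, k4, ?_⟩
    rintro q (hq | hq)
    · exact ⟨(n6 q hq).1, ⟨by linarith [(j1 q hq).1], x2 ▸ (n6 q hq).2.1⟩,
        abs_le.2 ⟨by linarith [(j2 q hq).1], by linarith [(j2 q hq).2]⟩,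
        abs_le.2 ⟨by linarith [(j3 q hq).1], by linarith [(j3 q hq).2]⟩⟩
    · obtain ⟨q1, q2, q3, q4⟩ := k5 q hq
      obtain ⟨q5, q6⟩ := abs_le.1 q3
      obtain ⟨q7, q8⟩ := abs_le.1 q4
      exact ⟨q1, q2, abs_le.2 ⟨by linarith [(j2 p n3).1], by linarith [(j2 p n3).2]⟩,
        abs_le.2 ⟨by linarith [(j3 p n3).1], by linarith [(j3 p n3).2]⟩⟩

theorem SecP.lab (hS : Shr w) (H : SecP w e y n k σ (1 / 10) L a) (F : Fr e y n) (σ0 : 0 < σ)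
    (hL : 15 ≤ L) : (∃ A : Fin k → Set E3, Lab w e a A) ∧ Near w e a := by
  obtain ⟨u, U⟩ := H.sh0 hS F σ0 (by linarith)
  have b : ∀ l, ∀ b ∈ Icc (-L) L, |u l b| ≤ 1 / 10 := fun l b hb =>
    (H.1 _ _ (abs_le.2 hb) (abs_le.2 (U.mem l hb).1) (U.mem l hb).2).1
  have s : Icc (-15 : ℝ) 15 ⊆ Icc (-L) L := Icc_subset_Icc (by linarith) hL
  have V : Sh w e y n σ a L (-15) 15 u := ⟨U.cont, U.lip, U.mono, fun c hc h =>
    ⟨fun m => (U.iff c hc h).1 ⟨s m.1, m.2⟩, fun ⟨l, hl⟩ => hl ▸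
      ⟨abs_le.1 ((b l c hc).trans (by norm_num)), (U.mem l hc).2⟩⟩,
    fun c hc h hh => U.tr c hc h (s hh)⟩
  have A := V.lab F hL fun x h1 h2 h3 h4 => by linarith [(H.zero F h1 h2 h3 (by linarith)).1]
  have h0 : (0 : ℝ) ∈ Icc (-L) L := s ⟨by norm_num, by norm_num⟩
  have p : ∀ l, ‖pt e y n a 0 (u l 0) - ⟪e, pt e y n a 0 (u l 0)⟫ • e‖ ≤ 6 := fun l =>
    F.perp_le_of (s := 0) (t := 1 / 10) (by simp [F.y_pt]) (by rw [F.n_pt]; exact b l 0 h0)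
      (by norm_num) (by norm_num)
  refine ⟨⟨_, A⟩, A.near (c := fun l => pt e y n a 0 (u l 0))
    (fun l => ⟨⟨0, h0, rfl⟩, (U.mem l h0).2, F.e_pt .., by linarith [p l]⟩)
    (fun l => by simpa only [F.e_pt] using p l) fun l l' => ?_⟩
  have i1 := abs_le.1 (b l 0 h0)
  have i2 := abs_le.1 (b l' 0 h0)
  refine lt_of_pow_lt_pow_left₀ 2 (by norm_num) ?_
  rw [F.dist_sq]
  simp only [F.e_pt, F.y_pt, F.n_pt]
  nlinarith

theorem mult_plane (hS : Shr w) {b : ℕ} (hb : RankC {x | w x = 0} b) (σ0 : 0 < σ)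
    (h : ∀ L η : ℝ, 3 ≤ L → 0 < η → ∃ a₀, ∀ a, a₀ ≤ a → ∃ a', a ≤ a' ∧ a' ≤ (1 + η) * a ∧
      ∃ y n, Fr e y n ∧ SecP w e y n k σ (1 / 10) L a') : k ≤ 1 := by
  by_contra! hk
  have := hS.locConn
  obtain ⟨ρ, hρ⟩ := exists_noCut hS.closed hb
  obtain ⟨M, hM⟩ : ∃ M, Fintype.card (Fin k ⊕ Fin k → Fin k ⊕ Fin k) ≤ M := ⟨_, le_rfl⟩
  obtain ⟨L, L1, L2⟩ : ∃ L : ℝ, 44 + 8 * M ≤ L ∧ 1 ≤ (L - 2) * σ :=
    ⟨44 + 8 * M + 1 / σ, le_add_of_nonneg_right (by positivity), by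
      rw [add_sub_right_comm, add_mul, one_div_mul_cancel σ0.ne']
      exact le_add_of_nonneg_left (mul_nonneg (by linarith [M.cast_nonneg (α := ℝ)]) σ0.le)⟩
  have L3 : 44 ≤ L := by linarith [M.cast_nonneg (α := ℝ)]
  have L4 : 0 < 8 + L ^ 2 := by positivity
  obtain ⟨a₀, h⟩ := h L (1 / (400 * (8 + L ^ 2))) (by linarith) (by positivity)
  obtain ⟨a, ha⟩ := exists_chain (by positivity)
    ((div_le_one (by positivity)).2 (by nlinarith [sq_nonneg L])) h (max (ρ + 1) (3 / σ))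
  obtain ⟨y, n, F, H⟩ := (ha 0).1
  obtain ⟨A, hA⟩ := (H.lab hS F σ0 (by linarith)).1
  refine chain_false hS F.norm_e (fun j => (ha j).2.2.1) (fun j => ?_) (fun j => ?_)
    (hA.split (I := {⟨0, by omega⟩}) (singleton_nonempty _)
      ⟨⟨1, hk⟩, fun m => absurd (congrArg Fin.val (mem_singleton_iff.1 m)) one_ne_zero⟩)
  · obtain ⟨⟨y, n, F, H⟩, a2, a3, a4⟩ := ha j
    obtain ⟨y', n', F', H'⟩ := (ha (j + 1)).1
    have i1 := (div_le_iff₀ σ0).1 ((le_max_right _ _).trans a2)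
    obtain ⟨u, v, X⟩ := exists_slab hS F F' σ0 (by omega) hρ
      (by linarith [le_max_left (ρ + 1) (3 / σ)]) (by linarith) a3 (by linarith) L2
      ((mul_le_mul_of_nonneg_right a4 L4.le).trans_eq (by field_simp; ring)) H H'
    exact X.step hM (by linarith)
  · obtain ⟨y, n, F, H⟩ := (ha j).1
    exact (H.lab hS F σ0 (by linarith)).2

end Vale.Agent.P218N.CM
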