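import Mathlib.Analysis.Calculus.ImplicitFunction.ProdDomain
import Mathlib.Analysis.Complex.BranchLogRoot
import Vale.Agent.P218N.CM.Jet

/-! # Ordered graphs through transversal zeros; crossing paths; generic planes -/

open Set Real Filter Topology MeasureTheory
open scoped RealInnerProductSpace

noncomputable section

namespace Vale.Agent.P218N.CM

open Vale.Agent.P218N.H Vale.Agent.P218N.GB

theorem clm_two (L : ℝ × ℝ →L[ℝ] ℝ) (x y : ℝ) : L (x, y) = x * L (1, 0) + y * L (0, 1) := by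
  rw [show (x, y) = x • ((1 : ℝ), (0 : ℝ)) + y • ((0 : ℝ), (1 : ℝ)) by simp, map_add, map_smul,
    map_smul, smul_eq_mul, smul_eq_mul]

theorem loc_graph {G : ℝ × ℝ → ℝ} (hG : ContDiff ℝ 1 G) {b h Λ : ℝ} (h0 : G (b, h) = 0)
    (h1 : fderiv ℝ G (b, h) (0, 1) ≠ 0)
    (h2 : |fderiv ℝ G (b, h) (1, 0)| ≤ Λ * |fderiv ℝ G (b, h) (0, 1)|) :
    ∃ (φ : ℝ → ℝ) (d : ℝ), φ b = h ∧ HasDerivAt φ d b ∧ |d| ≤ Λ ∧ (∀ᶠ s in 𝓝 b, G (s, φ s) = 0) ∧
      ∀ᶠ p in 𝓝 (b, h), G p = 0 → φ p.1 = p.2 := by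
  have sd := hG.hasStrictFDerivAt (x := (b, h)) one_ne_zero
  have inv : (fderiv ℝ G (b, h) ∘L ContinuousLinearMap.inr ℝ ℝ ℝ).IsInvertible := by
    refine ⟨ContinuousLinearEquiv.unitsEquivAut ℝ (Units.mk0 _ h1), ?_⟩
    ext
    simp
  have e1 := sd.eventually_apply_eq_iff_implicitFunctionOfProdDomain inv
  have e2 := sd.eventually_apply_implicitFunctionOfProdDomain inv
  have e3 := (sd.hasStrictFDerivAt_implicitFunctionOfProdDomain inv).hasFDerivAt.hasDerivAt
  rw [h0] at e1 e2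
  set φ := sd.implicitFunctionOfProdDomain inv
  have φb : φ b = h := e1.self_of_nhds.1 h0
  refine ⟨φ, _, φb, e3, ?_, e2, e1.mono fun p hp => hp.1⟩
  generalize (-(fderiv ℝ G (b, h) ∘L ContinuousLinearMap.inr ℝ ℝ ℝ).inverse ∘L
    (fderiv ℝ G (b, h) ∘L ContinuousLinearMap.inl ℝ ℝ ℝ)) 1 = d at e3 ⊢
  have k1 : HasFDerivAt G (fderiv ℝ G (b, h)) (b, φ b) := φb ▸ sd.hasFDerivAt
  have k2 := k1.comp_hasDerivAt b ((hasDerivAt_id b).prodMk e3)
  have k3 := k2.unique ((hasDerivAt_const b (0 : ℝ)).congr_of_eventuallyEq e2)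
  rw [clm_two, one_mul] at k3
  rw [show fderiv ℝ G (b, h) (1, 0) = -(d * fderiv ℝ G (b, h) (0, 1)) by linarith, abs_neg,
    abs_mul] at h2
  exact le_of_mul_le_mul_right h2 (abs_pos.2 h1)

theorem exists_enum {A : Set ℝ} (hA : A.Finite) {k : ℕ} (hk : A.ncard = k) :
    ∃ u : Fin k → ℝ, StrictMono u ∧ range u = A := by
  rw [Set.ncard_eq_toFinset_card A hA] at hk
  exact ⟨hA.toFinset.orderEmbOfFin hk, (hA.toFinset.orderEmbOfFin hk).strictMono, by simp⟩

theorem sheets : SheetsStmt := by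
  intro G b₁ b₂ h₁ h₂ Λ b₀ k hG hz hb₀ hk
  let Z : ℝ → Set ℝ := fun b => {h | h ∈ Icc h₁ h₂ ∧ G (b, h) = 0}
  have cG := hG.continuous
  have fin : ∀ b ∈ Icc b₁ b₂, (Z b).Finite := fun b hb => by
    refine (isCompact_Icc.inter_right (isClosed_eq (f := fun h => G (b, h)) (by fun_prop)
      continuous_const)).finite (isDiscrete_iff_nhdsNE.2 fun h hh => ?_)
    obtain ⟨-, a2, a3⟩ := hz b hb h hh.1 hh.2
    obtain ⟨φ, d, p1, -, -, -, p5⟩ := loc_graph hG hh.2 a2 a3
    rw [inf_principal_eq_bot]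
    filter_upwards [nhdsWithin_le_nhds ((Continuous.prodMk_right b).continuousAt.eventually p5),
      self_mem_nhdsWithin] with s a1 a2 a3
    exact a2 ((a1 a3.2).symm.trans p1)
  have loc : ∀ b ∈ Icc b₁ b₂, ∀ (m : ℕ) (z : Fin m → ℝ), StrictMono z → range z = Z b →
      ∃ (φ : Fin m → ℝ → ℝ) (d : Fin m → ℝ), (∀ l, φ l b = z l ∧ HasDerivAt (φ l) (d l) b ∧
        |d l| ≤ Λ) ∧ ∀ᶠ s in 𝓝 b, (StrictMono fun l => φ l s) ∧ range (fun l => φ l s) = Z s := by
    intro b hb m z zm zr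
    have mem : ∀ l, z l ∈ Z b := fun l => zr ▸ mem_range_self l
    choose φ d p1 p2 p3 p4 p5 using fun l => loc_graph hG (mem l).2
      (hz b hb _ (mem l).1 (mem l).2).2.1 (hz b hb _ (mem l).1 (mem l).2).2.2
    refine ⟨φ, d, fun l => ⟨p1 l, p2 l, p3 l⟩, ?_⟩
    have e1 : ∀ᶠ s in 𝓝 b, ∀ l l', l < l' → φ l s < φ l' s :=
      eventually_all.2 fun l => eventually_all.2 fun l' => eventually_imp_distrib_left.2 fun h =>
        (p2 l).continuousAt.eventually_lt (p2 l').continuousAt (by rw [p1, p1]; exact zm h)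
    have e2 : ∀ᶠ s in 𝓝 b, ∀ l, φ l s ∈ Z s := eventually_all.2 fun l =>
      ((p2 l).continuousAt.eventually (Icc_mem_nhds
        (p1 l ▸ (hz b hb _ (mem l).1 (mem l).2).1.1)
        (p1 l ▸ (hz b hb _ (mem l).1 (mem l).2).1.2))).and (p4 l)
    have e3 : ∀ᶠ s in 𝓝 b, ∀ h ∈ Icc h₁ h₂, G (s, h) = 0 → ∃ l, φ l s = h := by
      refine isCompact_Icc.eventually_forall_of_forall_eventually fun h hh => ?_
      by_cases g0 : G (b, h) = 0
      · obtain ⟨l, rfl⟩ : h ∈ range z := zr ▸ ⟨hh, g0⟩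
        exact (p5 l).mono fun p hp a => ⟨l, hp a⟩
      · exact (cG.continuousAt.eventually_ne g0).mono fun p hp a => (hp a).elim
    filter_upwards [e1, e2, e3] with s a1 a2 a3
    exact ⟨fun l l' h => a1 l l' h, Subset.antisymm (range_subset_iff.2 a2)
      fun h hh => a3 h hh.1 hh.2⟩
  have cnt : ∀ b ∈ Icc b₁ b₂, (Z b).ncard = k := fun b hb => by
    rw [← hk]
    refine isPreconnected_Icc.constant (f := fun b => (Z b).ncard) (fun s hs => ?_) hb hb₀
    obtain ⟨z, z1, z2⟩ := exists_enum (fin s hs) rfl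
    obtain ⟨φ, d, -, e⟩ := loc s hs _ z z1 z2
    refine ((continuousAt_const (y := (Z s).ncard)).congr
      (e.mono fun t ht => ?_)).continuousWithinAt
    show (Z s).ncard = (Z t).ncard
    rw [← ht.2, Set.ncard_range_of_injective ht.1.injective]
    simp
  choose! U U1 U2 using fun b hb => exists_enum (fin b hb) (cnt b hb)
  have der : ∀ l, ∀ b ∈ Icc b₁ b₂, ∃ d, HasDerivWithinAt (fun s => U s l) d (Icc b₁ b₂) b ∧
      |d| ≤ Λ := fun l b hb => by
    obtain ⟨φ, d, p, e⟩ := loc b hb k (U b) (U1 b hb) (U2 b hb)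
    refine ⟨d l, (p l).2.1.hasDerivWithinAt.congr_of_eventuallyEq ?_ (p l).1.symm, (p l).2.2⟩
    filter_upwards [nhdsWithin_le_nhds e, self_mem_nhdsWithin] with s a hs
    exact congrFun (((U1 s hs).range_inj a.1).1 ((U2 s hs).trans a.2.symm)) l
  choose! D D1 D2 using der
  refine ⟨fun l b => U b l, fun l b hb => (D1 l b hb).continuousWithinAt, fun l b hb b' hb' => ?_,
    U1, fun b hb h => ?_⟩
  · exact (convex_Icc b₁ b₂).norm_image_sub_le_of_norm_hasDerivWithin_le (D1 l) (D2 l) hb' hb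
  · show h ∈ Z b ↔ _
    rw [← U2 b hb]
    rfl

theorem log_const {f : ℝ → ℂ} (hf : Continuous f) (h : ∀ t, Complex.exp (f t) ∈ Complex.slitPlane) :
    (f 0).im - (Complex.exp (f 0)).arg = (f 1).im - (Complex.exp (f 1)).arg := by
  have c : Continuous fun t => ((f t).im - (Complex.exp (f t)).arg) / (2 * π) :=
    ((Complex.continuous_im.comp hf).sub (continuous_iff_continuousAt.2 fun t =>
      ContinuousAt.comp (f := fun t => Complex.exp (f t)) (Complex.continuousAt_arg (h t))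
        (Complex.continuous_exp.comp hf).continuousAt)).div_const _
  have := int_const isPreconnected_univ c.continuousOn (fun t _ => by
    obtain ⟨m, hm⟩ := Complex.exp_eq_exp_iff_exists_int.1
      (Complex.exp_log (Complex.exp_ne_zero (f t))).symm
    have k := congrArg Complex.im hm
    simp only [Complex.add_im, Complex.log_im, Complex.mul_im, Complex.intCast_re, Complex.mul_re,
      Complex.re_ofNat, Complex.ofReal_re, Complex.im_ofNat, Complex.ofReal_im, mul_zero, sub_zero,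
      Complex.I_im, mul_one, Complex.I_re, add_zero, Complex.intCast_im, zero_mul] at k
    rw [show ((f t).im - (Complex.exp (f t)).arg) / (2 * π) = m by
      rw [div_eq_iff (by positivity)]; linarith]
    exact (AddCircle.coe_eq_zero_iff _).2 ⟨m, by simp⟩) (mem_univ 0) (mem_univ 1)
  exact (div_left_inj' (by positivity)).1 this

theorem cross : CrossStmt := by
  intro p q a₀ a₁ hp hq hm p0 q0 p1 q1 l0 l1
  by_contra! hne
  let j : ℝ → ℝ := fun t => projIcc (0 : ℝ) 1 zero_le_one t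
  have jm : ∀ t, j t ∈ Icc (0 : ℝ) 1 := fun t => (projIcc (0 : ℝ) 1 zero_le_one t).2
  have jc : Continuous j := continuous_subtype_val.comp continuous_projIcc
  have j0 : j 0 = 0 := by simp [j]
  have j1 : j 1 = 1 := by simp [j]
  have cp : Continuous fun t => p (j t) := hp.comp_continuous jc jm
  have cq : Continuous fun t => q (j t) := hq.comp_continuous jc jm
  let z : ℝ × ℝ → ℂ := fun x => (((p (j x.1)).1 - (q (j x.2)).1 : ℝ) : ℂ) +
    (((p (j x.1)).2 - (q (j x.2)).2 : ℝ) : ℂ) * Complex.I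
  have zr : ∀ x, (z x).re = (p (j x.1)).1 - (q (j x.2)).1 := fun x => by simp [z]
  have zi : ∀ x, (z x).im = (p (j x.1)).2 - (q (j x.2)).2 := fun x => by simp [z]
  have z0 : ∀ x, z x ≠ 0 := fun x e => hne _ (jm x.1) _ (jm x.2)
    (Prod.ext (sub_eq_zero.1 (by rw [← zr, e, Complex.zero_re]))
      (sub_eq_zero.1 (by rw [← zi, e, Complex.zero_im])))
  have zc : Continuous z := by
    have c1 : Continuous fun x : ℝ × ℝ => p (j x.1) := cp.comp continuous_fst
    have c2 : Continuous fun x : ℝ × ℝ => q (j x.2) := cq.comp continuous_snd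
    exact (Complex.continuous_ofReal.comp (c1.fst.sub c2.fst)).add
      ((Complex.continuous_ofReal.comp (c1.snd.sub c2.snd)).mul continuous_const)
  obtain ⟨f, -, hf⟩ := (Complex.isCoveringMapOn_exp.existsUnique_continuousMap_lifts ⟨z, zc⟩
    (a₀ := 0) (Complex.exp_log (z0 0)) z0).exists
  have ef : ∀ x, Complex.exp (f x) = z x := fun x => congrFun hf x
  have ef' : ∀ x, Complex.exp (f x - π * Complex.I) = -z x := fun x => by
    rw [Complex.exp_sub, ef, Complex.exp_pi_mul_I, div_neg, div_one]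
  have sl : ∀ w : ℂ, w ≠ 0 → 0 ≤ w.re → w ∈ Complex.slitPlane := fun w h1 h2 =>
    Complex.mem_slitPlane_iff.2 (h2.eq_or_lt.symm.imp id fun a b => h1 (Complex.ext a.symm b))
  have fc := f.continuous
  have e1 := log_const (f := fun t => f (t, 0)) (by fun_prop) fun t => by
    rw [ef]; exact sl _ (z0 _) (by rw [zr, j0, q0]; linarith [(hm _ (jm t)).1.1])
  have e2 := log_const (f := fun t => f (1, t)) (by fun_prop) fun t => by
    rw [ef]; exact sl _ (z0 _) (by rw [zr, j1, p1]; linarith [(hm _ (jm t)).2.2])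
  have e3 := log_const (f := fun t => f (0, t) - π * Complex.I) (by fun_prop) fun t => by
    rw [ef']
    exact sl _ (neg_ne_zero.2 (z0 _)) (by
      rw [Complex.neg_re, zr, j0, p0]; linarith [(hm _ (jm t)).2.1])
  have e4 := log_const (f := fun t => f (t, 1) - π * Complex.I) (by fun_prop) fun t => by
    rw [ef']
    exact sl _ (neg_ne_zero.2 (z0 _)) (by
      rw [Complex.neg_re, zr, j1, q1]; linarith [(hm _ (jm t)).1.2])
  simp only [ef, ef', Complex.sub_im] at e1 e2 e3 e4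
  have r0 : (z (0, 0)).re = 0 := by rw [zr, j0, p0, q0, sub_self]
  have r1 : (z (1, 1)).re = 0 := by rw [zr, j1, p1, q1, sub_self]
  have i0 : (z (0, 0)).im < 0 := by rw [zi, j0]; linarith
  have i1 : 0 < (z (1, 1)).im := by rw [zi, j1]; linarith
  rw [Complex.arg_eq_neg_pi_div_two_iff.2 ⟨r0, i0⟩] at e1
  rw [Complex.arg_eq_pi_div_two_iff.2 ⟨r1, i1⟩] at e2
  rw [Complex.arg_eq_pi_div_two_iff.2 ⟨by simpa using r0, by simpa using i0⟩] at e3
  rw [(Complex.arg_eq_neg_pi_div_two_iff (z := -z (1, 1))).2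
    ⟨by simpa using r1, by simpa using i1⟩] at e4
  linarith [pi_pos]

theorem gen : GenStmt := by
  intro w e y n c δ hw hon δ0
  have F := Fr.of hon
  let Ψ : E3 → E3 := fun x => pt e y n (-(fderiv ℝ w x e / fderiv ℝ w x y))
    (-(fderiv ℝ w x n / fderiv ℝ w x y)) (fderiv ℝ w x x / fderiv ℝ w x y)
  have d1 : Differentiable ℝ w := hw.differentiable (by norm_num)
  have d2 : Differentiable ℝ (fderiv ℝ w) :=
    (hw.fderiv_right (m := 1) (by norm_num)).differentiable one_ne_zero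
  have dΨ : ∀ x, fderiv ℝ w x y ≠ 0 → DifferentiableAt ℝ Ψ x := fun x hx => by
    have k : ∀ v, DifferentiableAt ℝ (fun x => fderiv ℝ w x v) x := fun v =>
      (d2 x).clm_apply (differentiableAt_const v)
    have ki : DifferentiableAt ℝ (fun x => (fderiv ℝ w x y)⁻¹) x := (k y).inv hx
    exact (((((k e).mul ki).neg.smul_const e).add (((k n).mul ki).neg.smul_const y)).add
      ((((d2 x).clm_apply differentiableAt_id).mul ki).smul_const n))
  have z : volume (Ψ '' {x | w x = 0 ∧ fderiv ℝ w x y ≠ 0}) = 0 := by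
    refine addHaar_image_eq_zero_of_det_fderivWithin_eq_zero volume (f' := fun x => fderiv ℝ Ψ x -
      (fderiv ℝ w x).smulRight ((fderiv ℝ w x y)⁻¹ • fderiv ℝ Ψ x y)) (fun x hx => ?_)
      fun x hx => ?_
    · refine ((dΨ x hx.2).hasFDerivAt.sub ((d1 x).hasFDerivAt.smul_const _)).hasFDerivWithinAt.congr
        (fun p hp => ?_) ?_
      · simp [hp.1]
      · simp [hx.1]
    · refine LinearMap.det_eq_zero_iff_ker_ne_bot.2 fun k => ?_
      have : y = 0 := (LinearMap.ker_eq_bot'.1 k) y (by simp [smul_smul, mul_inv_cancel₀ hx.2])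
      exact one_ne_zero (F.norm_y.symm.trans (by rw [this, norm_zero]))
  obtain ⟨p, p1, p2⟩ := (Measure.dense_of_ae (μ := volume)
    (p := fun p => p ∉ Ψ '' {x | w x = 0 ∧ fderiv ℝ w x y ≠ 0})
    (measure_eq_zero_iff_ae_notMem.1 z)).exists_mem_open Metric.isOpen_ball
    ⟨pt e y n 0 0 c, Metric.mem_ball_self δ0⟩
  have b : ∀ v : E3, ‖v‖ = 1 → |⟪v, p⟫ - ⟪v, pt e y n 0 0 c⟫| < δ := fun v hv => by
    rw [← inner_sub_right]
    exact ((abs_real_inner_le_norm _ _).trans_eq (by rw [hv, one_mul])).trans_lt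
      (mem_ball_iff_norm.1 p2)
  refine ⟨⟪e, p⟫, ⟪y, p⟫, ⟪n, p⟫, by simpa [F.e_pt] using b e F.norm_e,
    by simpa [F.y_pt] using b y F.norm_y, by simpa [F.n_pt] using b n F.norm_n,
    fun x l hx h1 h2 => by_contra fun l0 => p1 ?_⟩
  have k : ∀ v, fderiv ℝ w x v = l * (⟪y, v⟫ - ⟪e, p⟫ * ⟪e, v⟫ - ⟪y, p⟫ * ⟪n, v⟫) := fun v => by
    rw [h2]; simp
  have ky : fderiv ℝ w x y = l := by rw [k, F.yy, F.ey, F.ny]; ring
  refine ⟨x, ⟨hx, by rwa [ky]⟩, ?_⟩
  rw [← F.decomp p]
  simp only [Ψ, ky]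
  congr 1
  · rw [k, F.ye, F.ee, F.ne]; field_simp; ring
  · rw [k, F.yn, F.en, F.nn]; field_simp; ring
  · rw [k, ← h1, inner_sub_left, inner_sub_left, real_inner_smul_left, real_inner_smul_left]
    field_simp

end Vale.Agent.P218N.CM
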