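import Vale.Agent.P218N.CM.Box

/-! # Slabs between two levels of an almost planar end -/

open Set Real Filter Topology Sum
open scoped RealInnerProductSpace

noncomputable section

namespace Vale.Agent.P218N.CM

open Vale.Agent.P218N.H Vale.Agent.P218N.GB

variable {w : E3 → ℝ} {e y n : E3} {k : ℕ} {σ ρ a B a₀ a₁ : ℝ} {u v : Fin k → ℝ → ℝ}

theorem Fr.isBounded (F : Fr e y n) {K : Set E3} {C : ℝ}
    (h : ∀ p ∈ K, |⟪e, p⟫| ≤ C ∧ |⟪y, p⟫| ≤ C ∧ |⟪n, p⟫| ≤ C) : Bornology.IsBounded K :=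
  (F.isCompact (K := {p | |⟪e, p⟫| ≤ C} ∩ ({p | |⟪y, p⟫| ≤ C} ∩ {p | |⟪n, p⟫| ≤ C}))
    ((isClosed_le (by fun_prop) (by fun_prop)).inter ((isClosed_le (by fun_prop)
      (by fun_prop)).inter (isClosed_le (by fun_prop) (by fun_prop)))) fun _ hp => hp).isBounded.subset h

theorem Fr.abs_le_perp (F : Fr e y n) {x : E3} {r : ℝ} (h : ‖x - ⟪e, x⟫ • e‖ ≤ r) :
    |⟪y, x⟫| ≤ r ∧ |⟪n, x⟫| ≤ r := by
  have r0 := (norm_nonneg _).trans h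
  have := pow_le_pow_left₀ (norm_nonneg _) h 2
  rw [F.perp_sq] at this
  exact ⟨abs_le.2 (abs_le_of_sq_le_sq' (by linarith [sq_nonneg ⟪n, x⟫]) r0),
    abs_le.2 (abs_le_of_sq_le_sq' (by linarith [sq_nonneg ⟪y, x⟫]) r0)⟩

theorem Fr.perp_le_of (F : Fr e y n) {x : E3} {r s t : ℝ} (h1 : |⟪y, x⟫| ≤ s) (h2 : |⟪n, x⟫| ≤ t)
    (r0 : 0 ≤ r) (h : s ^ 2 + t ^ 2 ≤ r ^ 2) : ‖x - ⟪e, x⟫ • e‖ ≤ r :=
  (abs_le_of_sq_le_sq' (by
    rw [F.perp_sq]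
    linarith [sq_le_sq' (abs_le.1 h1).1 (abs_le.1 h1).2, sq_le_sq' (abs_le.1 h2).1 (abs_le.1 h2).2])
    r0).2

theorem Sh.lab (S : Sh w e y n σ a B (-15) 15 u) (F : Fr e y n) (hB : 15 ≤ B)
    (conf : ∀ x, w x = 0 → ⟪e, x⟫ = a → |⟪y, x⟫| ≤ B → |⟪n, x⟫| ≤ 15 → |⟪n, x⟫| ≤ 1) :
    Lab w e a fun l => arc e y n a B (u l) := by
  have s : Icc (-14 : ℝ) 14 ⊆ Icc (-B) B := Icc_subset_Icc (by linarith) (by linarith)
  have m : ∀ l, ∀ x ∈ arc e y n a B (u l), ∀ r t : ℝ, |⟪y, x⟫| ≤ t → 0 ≤ r → t ^ 2 + 1 ^ 2 ≤ r ^ 2 →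
      x ∈ lv w e a r := fun l x hx r t h1 h2 h3 => by
    obtain ⟨m1, m2, m3, m4, -⟩ := S.arc_mem F hx
    exact ⟨m1, m2, F.perp_le_of h1 (conf x m1 m2 m3 (abs_le.2 m4)) h2 h3⟩
  refine ⟨fun l => (S.isCompact l).isClosed, fun l l' x => S.inj F, fun x hx => ?_,
    fun l => ⟨arc e y n a 14 (u l), isPreconnected_Icc.image _
      (continuousOn_pt continuousOn_const continuousOn_id ((S.cont l).mono s)), ?_, ?_⟩, fun l => ?_⟩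
  · exact S.cover F hx.1 hx.2.1 ((F.abs_le_perp hx.2.2).1.trans hB)
      (abs_le.1 (F.abs_le_perp hx.2.2).2)
  · rintro _ ⟨b, hb, rfl⟩
    exact m l _ ⟨b, s hb, rfl⟩ 15 14 (by rw [F.y_pt]; exact abs_le.2 hb) (by norm_num) (by norm_num)
  · rintro _ ⟨⟨b, hb, rfl⟩, h⟩
    have := (F.abs_le_perp h.2.2).1
    rw [F.y_pt] at this
    exact ⟨b, abs_le.1 this, rfl⟩
  · have h0 : (0 : ℝ) ∈ Icc (-B) B := s ⟨by norm_num, by norm_num⟩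
    exact ⟨_, ⟨0, h0, rfl⟩, m l _ ⟨0, h0, rfl⟩ 14 0 (by simp [F.y_pt]) (by norm_num) (by norm_num)⟩

/-- the surface between two good levels -/
structure Slab (w : E3 → ℝ) (e y n : E3) {k : ℕ} (σ ρ a₀ a₁ B : ℝ) (u v : Fin k → ℝ → ℝ) :
    Prop where
  hS : Shr w
  F : Fr e y n
  σ0 : 0 < σ
  nc : NoCut {x | w x = 0} ρ
  ρa : ρ < a₀
  lt : a₀ < a₁
  S0 : Sh w e y n σ a₀ B (-15) 15 u
  S1 : Sh w e y n σ a₁ B (-15) 15 v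
  conf : ∀ x, w x = 0 → ⟪e, x⟫ ∈ Icc a₀ a₁ → |⟪y, x⟫| ≤ B → |⟪n, x⟫| ≤ 15 → |⟪n, x⟫| ≤ 1
  core : ∀ x, w x = 0 → ⟪e, x⟫ = a₀ → |⟪y, x⟫| ≤ B + 1 → |⟪n, x⟫| ≤ 15 →
    ToCore ({p | w p = 0} ∩ {p | ⟪e, p⟫ ≤ a₀}) x
  link : ∀ l, ∀ b ∈ Icc (-B) B, ∃ N z, IsPreconnected N ∧ pt e y n a₁ b (v l b) ∈ N ∧ z ∈ N ∧
    ⟪e, z⟫ = a₀ ∧ ∀ p ∈ N, w p = 0 ∧ ⟪e, p⟫ ∈ Icc a₀ a₁ ∧ |⟪y, p⟫ - b| ≤ 1 ∧ |⟪n, p⟫| ≤ 15

/-- a wall near `⟨y, x⟩ = c` -/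
structure Wl (w : E3 → ℝ) (e y n : E3) {k : ℕ} (a₀ a₁ B : ℝ) (u v : Fin k → ℝ → ℝ) (c : ℝ)
    (g : E3 → ℝ) (μ : Fin k ⊕ Fin k → Fin k ⊕ Fin k) (O : Fin k ⊕ Fin k → Set E3) : Prop where
  cont : Continuous g
  apx : ∀ x, ⟪e, x⟫ ∈ Icc a₀ a₁ → ⟪n, x⟫ ∈ Icc (-15 : ℝ) 15 → |g x - (⟪y, x⟫ - c)| ≤ 1 / 2
  wd : WD (wl w e n a₀ a₁ (-15) 15 g) (arcs e y n a₀ a₁ B u v) μ O

variable {c c' b : ℝ} {g g' : E3 → ℝ} {μ : Fin k ⊕ Fin k → Fin k ⊕ Fin k}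
  {O O' : Fin k ⊕ Fin k → Set E3}

theorem Slab.wall (X : Slab w e y n σ ρ a₀ a₁ B u v) (hc : |c| + 1 / 2 ≤ B) :
    ∃ g μ O, Wl w e y n a₀ a₁ B u v c g μ O ∧
      ((∀ l, ∃ l', μ (inl l) = inr l') → ∀ l, μ (inl l) = inr l) := by
  obtain ⟨g, μ, O, a1, a2, a3, a4⟩ := exists_wall X.hS X.F X.σ0 X.lt X.S0 X.S1
    (fun x h1 h2 h3 => by
      constructor <;> intro m <;> have := X.conf x h1 h2 h3 <;> rw [m] at this <;>
        norm_num at this) (by norm_num) hc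
  exact ⟨g, μ, O, ⟨a1, a2, a3⟩, a4⟩

theorem Slab.mem (X : Slab w e y n σ ρ a₀ a₁ B u v) {i : Fin k ⊕ Fin k} {x : E3}
    (h : x ∈ arcs e y n a₀ a₁ B u v i) : ⟪e, x⟫ ∈ Icc a₀ a₁ := by
  rcases i with l | l
  exacts [(X.S0.arc_mem X.F h).2.1.symm ▸ left_mem_Icc.2 X.lt.le,
    (X.S1.arc_mem X.F h).2.1.symm ▸ right_mem_Icc.2 X.lt.le]

theorem Slab.bdd (X : Slab w e y n σ ρ a₀ a₁ B u v) {N : Set E3} {C : ℝ}
    (h : ∀ p ∈ N, ⟪e, p⟫ ∈ Icc a₀ a₁ ∧ |⟪y, p⟫| ≤ C ∧ |⟪n, p⟫| ≤ 15) : Bornology.IsBounded N :=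
  X.F.isBounded (C := |a₀| + |a₁| + |C| + 15) fun p hp => by
    obtain ⟨h1, h2, h3⟩ := h p hp
    have := (abs_le_max_abs_abs h1.1 h1.2).trans
      (max_le_add_of_nonneg (abs_nonneg _) (abs_nonneg _))
    exact ⟨by linarith [abs_nonneg C], by linarith [abs_nonneg a₀, abs_nonneg a₁, le_abs_self C],
      by linarith [abs_nonneg a₀, abs_nonneg a₁, abs_nonneg C]⟩

/-- in a box between two walls with the same matching only matched labels are joined -/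
theorem Slab.box (X : Slab w e y n σ ρ a₀ a₁ B u v) (W : Wl w e y n a₀ a₁ B u v c g μ O)
    (W' : Wl w e y n a₀ a₁ B u v c' g' μ O') (hc : -B + 1 / 2 ≤ c) (hc' : c' + 1 / 2 ≤ B)
    (hcc : c + 1 < c') (hb : b ∈ Icc (-B) B) (hb' : b + 2 ≤ c ∨ c' + 2 ≤ b) {N : Set E3}
    (hN : IsPreconnected N) (hs : ∀ p ∈ N, w p = 0 ∧ ⟪e, p⟫ ∈ Icc a₀ a₁ ∧
      ⟪y, p⟫ ∈ Icc (c + 1 / 2) (c' - 1 / 2) ∧ |⟪n, p⟫| ≤ 15) {i j : Fin k ⊕ Fin k}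
    (hi : (N ∩ arcs e y n a₀ a₁ B u v i).Nonempty) (hj : (N ∩ arcs e y n a₀ a₁ B u v j).Nonempty) :
    j = i ∨ j = μ i := by
  have F := X.F
  have cg := W.cont
  have cg' := W'.cont
  obtain ⟨x₁, x1⟩ := hi
  obtain ⟨x₂, x2⟩ := hj
  have core : ∀ i, ∀ x ∈ arcs e y n a₀ a₁ B u v i, ToCore ({p | w p = 0} ∩ ({p | ⟪e, p⟫ ≤ a₀} ∪
      {p | a₁ ≤ ⟪e, p⟫} ∪ {p | 15 ≤ |⟪n, p⟫|} ∪ {p | g p ≤ 0} ∪ {p | 0 ≤ g' p})) x := by
    rintro (l | l) x hx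
    · obtain ⟨m1, m2, m3, m4, -⟩ := X.S0.arc_mem F hx
      exact (X.core x m1 m2 (by linarith) (abs_le.2 m4)).mono fun p hp =>
        ⟨hp.1, Or.inl (Or.inl (Or.inl (Or.inl hp.2)))⟩
    · obtain ⟨M, z, m1, m2, m3, m4, m5⟩ := X.link l b hb
      have mb : ∀ p ∈ M, |⟪y, p⟫| ≤ B + 1 := fun p hp => by
        have := abs_le.1 (m5 p hp).2.2.1
        exact abs_le.2 ⟨by linarith [hb.1], by linarith [hb.2]⟩
      refine ToCore.trans (ToCore.trans ((X.core z (m5 z m3).1 m4 (mb z m3) (m5 z m3).2.2.2).mono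
        fun p hp => ⟨hp.1, Or.inl (Or.inl (Or.inl (Or.inl hp.2)))⟩) m1
        (X.bdd fun p hp => ⟨(m5 p hp).2.1, mb p hp, (m5 p hp).2.2.2⟩) (fun p hp => ?_) m2 m3)
        (X.S1.conn l) (X.S1.isCompact l).isBounded (fun p hp => ?_) hx ⟨b, hb, rfl⟩
      · obtain ⟨p1, p2, p3, p4⟩ := m5 p hp
        have i1 := abs_le.1 (W.apx p p2 (abs_le.1 p4))
        have i2 := abs_le.1 (W'.apx p p2 (abs_le.1 p4))
        have i3 := abs_le.1 p3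
        exact ⟨p1, hb'.imp (fun k => Or.inr (show g p ≤ 0 by linarith))
          fun k => show 0 ≤ g' p by linarith⟩
      · obtain ⟨p1, p2, -⟩ := X.S1.arc_mem F hp
        exact ⟨p1, Or.inl (Or.inl (Or.inl (Or.inr p2.ge)))⟩
  refine CM.box X.nc (T := arcs e y n a₀ a₁ B u v) (C := {i, μ i})
    (A := {p | ⟪e, p⟫ ∈ Icc a₀ a₁} ∩ {p | |⟪n, p⟫| ≤ 15} ∩ {p | 0 ≤ g p} ∩ {p | g' p ≤ 0})
    ((((isClosed_Icc.preimage (by fun_prop)).inter (isClosed_le (by fun_prop) (by fun_prop))).inter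
      (isClosed_le (by fun_prop) cg)).inter (isClosed_le cg' (by fun_prop)))
    (((((isClosed_le (by fun_prop) (by fun_prop)).union
      (isClosed_le (by fun_prop) (by fun_prop))).union (isClosed_le (by fun_prop) (by fun_prop))).union
      (isClosed_le cg (by fun_prop))).union (isClosed_le (by fun_prop) cg'))
    (fun p _ => ?_) ?_ (fun i j x => arcs_inj X.S0 X.S1 F X.lt) ?_ (W.wd.cpt i) (W'.wd.cpt i)
    (W.wd.cl i) (W'.wd.cl i) ?_ ?_ (W.wd.off i) (W'.wd.off i) (W.wd.sub i) (W'.wd.sub i)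
    (disjoint_left.2 fun p h1 h2 => ?_) ?_ hN (X.bdd (C := B) fun p hp => ?_) (fun p hp => ?_)
    (Or.inl rfl) x1 x2 (core i x₁ x1.2) (core j x₂ x2.2)
  · simp only [mem_union, mem_inter_iff, mem_ofPred, mem_Icc]
    by_contra! c
    exact (c.1 ⟨⟨⟨c.2.1.1.1.1.le, c.2.1.1.1.2.le⟩, c.2.1.1.2.le⟩, c.2.1.2.le⟩).not_ge c.2.2.le
  · rintro (l | l)
    exacts [X.S0.isCompact l, X.S1.isCompact l]
  · rintro p ⟨⟨p1, ⟨⟨p2, p3⟩, p4⟩, p5⟩, p6⟩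
    have i1 := abs_le.1 (W.apx p p2 (abs_le.1 p3))
    have i2 := abs_le.1 (W'.apx p p2 (abs_le.1 p3))
    have i3 : |⟪y, p⟫| ≤ B := abs_le.2 ⟨by linarith [show 0 ≤ g p from p4],
      by linarith [show g' p ≤ 0 from p5]⟩
    rcases p6 with (((k | k) | k) | k) | k
    · obtain ⟨l, hl⟩ := X.S0.cover F p1 (le_antisymm k p2.1) i3 (abs_le.1 p3)
      exact Or.inl (Or.inl (mem_iUnion.2 ⟨inl l, hl⟩))
    · obtain ⟨l, hl⟩ := X.S1.cover F p1 (le_antisymm p2.2 k) i3 (abs_le.1 p3)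
      exact Or.inl (Or.inl (mem_iUnion.2 ⟨inr l, hl⟩))
    · linarith [X.conf p p1 p2 i3 p3, show 15 ≤ |⟪n, p⟫| from k]
    · exact Or.inl (Or.inr ⟨p1, p2, abs_le.1 p3, le_antisymm k p4⟩)
    · exact Or.inr ⟨p1, p2, abs_le.1 p3, le_antisymm p5 k⟩
  · rintro _ (rfl | rfl)
    exacts [W.wd.m1 _, W.wd.m2 _]
  · rintro _ (rfl | rfl)
    exacts [W'.wd.m1 _, W'.wd.m2 _]
  · linarith [(abs_le.1 (W.apx p h1.2.1 h1.2.2.1)).1, (abs_le.1 (W'.apx p h1.2.1 h1.2.2.1)).2,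
      h1.2.2.2, h2.2.2.2]
  · rintro x ((m | m) | m)
    · obtain ⟨i, hi⟩ := mem_iUnion.1 m
      exact lt_norm_of F.norm_e (X.ρa.trans_le (X.mem hi).1)
    all_goals exact lt_norm_of F.norm_e (X.ρa.trans_le m.2.1.1)
  · obtain ⟨-, p2, p3, p4⟩ := hs p hp
    exact ⟨p2, abs_le.2 ⟨by linarith [p3.1], by linarith [p3.2]⟩, p4⟩
  · obtain ⟨p1, p2, p3, p4⟩ := hs p hp
    have i1 := abs_le.1 (W.apx p p2 (abs_le.1 p4))
    have i2 := abs_le.1 (W'.apx p p2 (abs_le.1 p4))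
    exact ⟨p1, ⟨⟨p2, p4⟩, show 0 ≤ g p by linarith [p3.1]⟩, show g' p ≤ 0 by linarith [p3.2]⟩

/-- among many walls there is one with the standard matching -/
theorem Slab.good (X : Slab w e y n σ ρ a₀ a₁ B u v) {M : ℕ}
    (hM : Fintype.card (Fin k ⊕ Fin k → Fin k ⊕ Fin k) ≤ M) (hc : -B + 1 / 2 ≤ c)
    (hc' : c + 4 * M + 1 / 2 ≤ B) (hb : b ∈ Icc (-B) B) (hb' : b + 2 ≤ c ∨ c + 4 * M + 2 ≤ b) :
    ∃ c' g O, c' ∈ Icc c (c + 4 * M) ∧ Wl w e y n a₀ a₁ B u v c' g Sum.swap O := by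
  have r : ∀ i : Fin (M + 1), c + 4 * (i : ℕ) ∈ Icc c (c + 4 * M) := fun i =>
    ⟨le_add_of_nonneg_right (by positivity), by
      have : ((i : ℕ) : ℝ) ≤ M := by exact_mod_cast Nat.lt_succ_iff.1 i.2
      linarith⟩
  choose g μ O W cr using fun i : Fin (M + 1) => X.wall (c := c + 4 * (i : ℕ))
    (by linarith [abs_le.2 (⟨by linarith [(r i).1], by linarith [(r i).2]⟩ :
      -(B - 1 / 2) ≤ c + 4 * (i : ℕ) ∧ c + 4 * (i : ℕ) ≤ B - 1 / 2)])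
  obtain ⟨i, j, hij, hμ⟩ : ∃ i j, i < j ∧ μ i = μ j := by
    obtain ⟨i, j, h1, h2⟩ := Fintype.exists_ne_map_eq_of_card_lt μ (by rw [Fintype.card_fin]; omega)
    rcases h1.lt_or_gt with h | h
    exacts [⟨i, j, h, h2⟩, ⟨j, i, h, h2.symm⟩]
  have ij : ((i : ℕ) : ℝ) + 1 ≤ (j : ℕ) := by exact_mod_cast hij
  have k1 : ∀ l, ∃ l', μ i (inr l) = inl l' := fun l => by
    have m : c + 4 * (i : ℕ) + 2 ∈ Icc (-B) B := ⟨by linarith [(r i).1], by linarith [(r j).2]⟩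
    obtain ⟨N, z, n1, n2, n3, n4, n5⟩ := X.link l _ m
    have i1 := abs_le.1 (n5 z n3).2.2.1
    obtain ⟨l', hl'⟩ := X.S0.cover X.F (n5 z n3).1 n4
      (abs_le.2 ⟨by linarith [(r i).1], by linarith [(r j).2]⟩) (abs_le.1 (n5 z n3).2.2.2)
    refine ⟨l', ((X.box (W i) (hμ ▸ W j) (by linarith [(r i).1]) (by linarith [(r j).2])
      (by linarith) hb (hb'.imp (fun k => by linarith [(r i).1]) fun k => by linarith [(r j).2]) n1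
      (fun p hp => ?_) (i := inr l) (j := inl l') ⟨_, n2, _, m, rfl⟩ ⟨z, n3, hl'⟩).resolve_left
        inl_ne_inr).symm⟩
    obtain ⟨p1, p2, p3, p4⟩ := n5 p hp
    exact ⟨p1, p2, ⟨by linarith [(abs_le.1 p3).1], by linarith [(abs_le.1 p3).2]⟩, p4⟩
  choose f hf using k1
  have inv := (W i).wd.inv
  have k2 := cr i fun l => by
    obtain ⟨l', rfl⟩ := Finite.surjective_of_injective (f := f) (fun l l' h =>
      inr_injective (by rw [← inv (inr l), hf, h, ← hf, inv])) l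
    exact ⟨l', by rw [← hf, inv]⟩
  refine ⟨_, g i, O i, r i, (show μ i = Sum.swap from funext ?_) ▸ W i⟩
  rintro (l | l)
  exacts [k2 l, by rw [← k2 l, inv, k2]; rfl]

theorem Slab.step (X : Slab w e y n σ ρ a₀ a₁ B u v) {M : ℕ}
    (hM : Fintype.card (Fin k ⊕ Fin k → Fin k ⊕ Fin k) ≤ M) (hB : 22 + 4 * M ≤ B) :
    Step w e a₀ a₁ := by
  have M0 : (0 : ℝ) ≤ M := M.cast_nonneg
  have h0 : (0 : ℝ) ∈ Icc (-B) B := ⟨by linarith, by linarith⟩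
  obtain ⟨c, g, O, hc, W⟩ := X.good (c := -20 - 4 * M) hM (by linarith) (by linarith) h0
    (Or.inr (by linarith))
  obtain ⟨c', g', O', hc', W'⟩ := X.good (c := 20) hM (by linarith) (by linarith) h0
    (Or.inl (by norm_num))
  have key : ∀ N, IsPreconnected N → N ⊆ tube w e a₀ a₁ → ∀ i j,
      (N ∩ arcs e y n a₀ a₁ B u v i).Nonempty → (N ∩ arcs e y n a₀ a₁ B u v j).Nonempty →
        j = i ∨ j = i.swap := fun N n1 n2 i j =>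
    X.box W W' (by linarith [hc.1]) (by linarith [hc'.2]) (by linarith [hc.2, hc'.1])
      (right_mem_Icc.2 (by linarith)) (Or.inr (by linarith [hc'.2])) n1 fun p hp => by
        obtain ⟨i1, i2⟩ := X.F.abs_le_perp (n2 hp).2.2
        exact ⟨(n2 hp).1, (n2 hp).2.1, ⟨by linarith [hc.2, (abs_le.1 i1).1],
          by linarith [hc'.1, (abs_le.1 i1).2]⟩, by linarith⟩
  refine step_of_sep X.hS X.F.norm_e
    (X.S0.lab X.F (by linarith) fun x h1 h2 => X.conf x h1 ⟨h2.ge, h2.le.trans X.lt.le⟩)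
    (X.S1.lab X.F (by linarith) fun x h1 h2 => X.conf x h1 ⟨X.lt.le.trans h2.ge, h2.le⟩) X.lt.le ?_
  rintro N n1 n2 l l' ⟨x, x1, x2 | x2⟩ ⟨z, z1, z2 | z2⟩
  · simpa [eq_comm] using key N n1 n2 (inl l) (inl l') ⟨x, x1, x2⟩ ⟨z, z1, z2⟩
  · simpa [eq_comm] using key N n1 n2 (inl l) (inr l') ⟨x, x1, x2⟩ ⟨z, z1, z2⟩
  · simpa [eq_comm] using key N n1 n2 (inr l) (inl l') ⟨x, x1, x2⟩ ⟨z, z1, z2⟩
  · simpa [eq_comm] using key N n1 n2 (inr l) (inr l') ⟨x, x1, x2⟩ ⟨z, z1, z2⟩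

end Vale.Agent.P218N.CM
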