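import Vale.Agent.P218N.CM.Sheets
import Vale.Agent.P218N.CM.Max
import Vale.Agent.P218N.CM.Arc

/-! # Labelled cross sections and walls -/

open Set Real Filter Topology Sum
open scoped RealInnerProductSpace

noncomputable section

namespace Vale.Agent.P218N.CM

open Vale.Agent.P218N.H Vale.Agent.P218N.GB Vale.Agent.P218.H313

variable {w : E3 → ℝ} {e y n : E3} {k : ℕ} {σ a B h₁ h₂ a₀ a₁ : ℝ} {u v : Fin k → ℝ → ℝ}

/-- in the rectangle `[-B, B] × [h₁, h₂]` at the level `a` the surface consists of ordered graphs -/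
structure Sh (w : E3 → ℝ) (e y n : E3) {k : ℕ} (σ a B h₁ h₂ : ℝ) (u : Fin k → ℝ → ℝ) : Prop where
  cont : ∀ l, ContinuousOn (u l) (Icc (-B) B)
  lip : ∀ l, ∀ b ∈ Icc (-B) B, ∀ b' ∈ Icc (-B) B, σ * |u l b - u l b'| ≤ |b - b'|
  mono : ∀ b ∈ Icc (-B) B, StrictMono fun l => u l b
  iff : ∀ b ∈ Icc (-B) B, ∀ h, (h ∈ Icc h₁ h₂ ∧ w (pt e y n a b h) = 0) ↔ ∃ l, u l b = h
  tr : ∀ b ∈ Icc (-B) B, ∀ h ∈ Icc h₁ h₂, w (pt e y n a b h) = 0 →
    σ ≤ |⟪nuW w (pt e y n a b h), n⟫|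

theorem fderiv_eq_nu (w : E3 → ℝ) (x z : E3) : fderiv ℝ w x z = ‖grad w x‖ * ⟪nuW w x, z⟫ := by
  rw [← inner_grad, ← real_inner_smul_left, ← grad_eq_smul_nuW]

theorem abs_nu_le (hS : Shr w) {x z : E3} (hx : w x = 0) (hz : ‖z‖ = 1) : |⟪nuW w x, z⟫| ≤ 1 := by
  simpa [hS.norm_nu hx, hz] using abs_real_inner_le_norm (nuW w x) z

theorem exists_sh (hS : Shr w) (F : Fr e y n) (σ0 : 0 < σ)
    (hz : ∀ b ∈ Icc (-B) B, ∀ h ∈ Icc h₁ h₂, w (pt e y n a b h) = 0 →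
      h ∈ Ioo h₁ h₂ ∧ σ ≤ |⟪nuW w (pt e y n a b h), n⟫|) {b₀ : ℝ} (hb : b₀ ∈ Icc (-B) B)
    (hk : {h | h ∈ Icc h₁ h₂ ∧ w (pt e y n a b₀ h) = 0}.ncard = k) :
    ∃ u : Fin k → ℝ → ℝ, Sh w e y n σ a B h₁ h₂ u := by
  let A : ℝ × ℝ →L[ℝ] E3 :=
    (ContinuousLinearMap.fst ℝ ℝ ℝ).smulRight y + (ContinuousLinearMap.snd ℝ ℝ ℝ).smulRight n
  have eA : (fun p : ℝ × ℝ => pt e y n a p.1 p.2) = fun p => a • e + A p := by
    ext1 p; simp [pt, A, add_assoc]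
  have c1 : ContDiff ℝ 1 fun p : ℝ × ℝ => pt e y n a p.1 p.2 := eA ▸ contDiff_const.add A.contDiff
  have d1 : ∀ p : ℝ × ℝ, HasFDerivAt (fun p : ℝ × ℝ => w (pt e y n a p.1 p.2))
      ((fderiv ℝ w (pt e y n a p.1 p.2)).comp A) p := fun p =>
    (hS.smooth.differentiable (by simp) _).hasFDerivAt.comp p
      (by rw [eA]; exact A.hasFDerivAt.const_add _)
  obtain ⟨u, u1, u2, u3, u4⟩ := sheets (fun p => w (pt e y n a p.1 p.2)) (-B) B h₁ h₂ σ⁻¹ b₀ k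
    ((contDiff_one' hS.smooth).comp c1) (fun b hb h hh h0 => by
      obtain ⟨k1, k2⟩ := hz b hb h hh h0
      have g0 := norm_pos_iff.2 (hS.ne _ h0)
      simp only [(d1 _).fderiv, ContinuousLinearMap.comp_apply, show A (0, 1) = n by simp [A],
        show A (1, 0) = y by simp [A], fderiv_eq_nu, abs_mul, abs_norm]
      refine ⟨k1, mul_ne_zero g0.ne' (abs_pos.1 (σ0.trans_le k2)), ?_⟩
      rw [mul_left_comm]
      exact mul_le_mul_of_nonneg_left ((abs_nu_le hS h0 F.norm_y).trans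
        ((le_inv_mul_iff₀ σ0).2 (by simpa using k2))) g0.le) hb hk
  exact ⟨u, u1, fun l b hb b' hb' => (le_inv_mul_iff₀ σ0).1 (u2 l b hb b' hb'), u3, u4,
    fun b hb h hh h0 => (hz b hb h hh h0).2⟩

theorem Sh.mem (S : Sh w e y n σ a B h₁ h₂ u) (l : Fin k) {b : ℝ} (hb : b ∈ Icc (-B) B) :
    u l b ∈ Icc h₁ h₂ ∧ w (pt e y n a b (u l b)) = 0 := (S.iff b hb _).2 ⟨l, rfl⟩

theorem Sh.label (S : Sh w e y n σ a B h₁ h₂ u) (σ0 : 0 < σ) {c β : ℝ} (hβ : |β| < σ)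
    (hc : ∀ h ∈ Icc h₁ h₂, |c + β * h| ≤ B) (B0 : 0 ≤ B) :
    ∃ P : Fin k → ℝ, (∀ l, P l ∈ Icc (-B) B ∧ P l = c + β * u l (P l)) ∧
      (∀ l, ∀ b ∈ Icc (-B) B, b = c + β * u l b → b = P l) ∧ StrictMono fun l => u l (P l) := by
  have ex : ∀ l, ∃ b ∈ Icc (-B) B, b - (c + β * u l b) = 0 := fun l =>
    intermediate_value_Icc (f := fun b => b - (c + β * u l b)) (by linarith)
      (continuousOn_id.sub (continuousOn_const.add (continuousOn_const.mul (S.cont l))))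
      ⟨by linarith [(abs_le.1 (hc _ (S.mem l ⟨le_rfl, by linarith⟩).1)).1],
        by linarith [(abs_le.1 (hc _ (S.mem l ⟨by linarith, le_rfl⟩).1)).2]⟩
  choose P P1 P2 using ex
  refine ⟨P, fun l => ⟨P1 l, sub_eq_zero.1 (P2 l)⟩, fun l b hb h => ?_, fun l l' hl => ?_⟩
  · have k1 := S.lip l b hb _ (P1 l)
    have k2 : |b - P l| = |β| * |u l b - u l (P l)| := by
      rw [← abs_mul]; congr 1; linarith [P2 l]
    have k3 : |u l b - u l (P l)| = 0 := by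
      by_contra k
      have := (abs_nonneg _).lt_of_ne' k
      nlinarith
    rwa [k3, mul_zero, abs_eq_zero, sub_eq_zero] at k2
  · by_contra! hc
    have k1 := S.lip l _ (P1 l) _ (P1 l')
    have k2 : |P l - P l'| = |β| * |u l (P l) - u l' (P l')| := by
      rw [← abs_mul]; congr 1; linarith [P2 l, P2 l']
    have k3 : u l (P l') < u l' (P l') := S.mono _ (P1 l') hl
    rw [abs_of_nonneg (sub_nonneg.2 hc)] at k2
    rw [abs_of_nonneg (by linarith)] at k1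
    nlinarith [abs_nonneg β]

/-- the graph of `u` at the level `a` -/
def arc (e y n : E3) (a B : ℝ) (u : ℝ → ℝ) : Set E3 :=
  (fun b => pt e y n a b (u b)) '' Icc (-B) B

/-- the labelled arcs at two levels -/
def arcs (e y n : E3) (a₀ a₁ B : ℝ) (u v : Fin k → ℝ → ℝ) : Fin k ⊕ Fin k → Set E3 :=
  Sum.elim (fun l => arc e y n a₀ B (u l)) fun l => arc e y n a₁ B (v l)

theorem Sh.isCompact (S : Sh w e y n σ a B h₁ h₂ u) (l : Fin k) : IsCompact (arc e y n a B (u l)) :=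
  isCompact_Icc.image_of_continuousOn (continuousOn_pt continuousOn_const continuousOn_id (S.cont l))

theorem Sh.conn (S : Sh w e y n σ a B h₁ h₂ u) (l : Fin k) :
    IsPreconnected (arc e y n a B (u l)) :=
  isPreconnected_Icc.image _ (continuousOn_pt continuousOn_const continuousOn_id (S.cont l))

theorem Sh.arc_mem (S : Sh w e y n σ a B h₁ h₂ u) (F : Fr e y n) {l : Fin k} {x : E3}
    (hx : x ∈ arc e y n a B (u l)) :
    w x = 0 ∧ ⟪e, x⟫ = a ∧ |⟪y, x⟫| ≤ B ∧ ⟪n, x⟫ ∈ Icc h₁ h₂ ∧ σ ≤ |⟪nuW w x, n⟫| := by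
  obtain ⟨b, hb, rfl⟩ := hx
  exact ⟨(S.mem l hb).2, F.e_pt .., by rw [F.y_pt]; exact abs_le.2 hb,
    by rw [F.n_pt]; exact (S.mem l hb).1, S.tr b hb _ (S.mem l hb).1 (S.mem l hb).2⟩

theorem Sh.cover (S : Sh w e y n σ a B h₁ h₂ u) (F : Fr e y n) {x : E3} (h0 : w x = 0)
    (h1 : ⟪e, x⟫ = a) (h2 : |⟪y, x⟫| ≤ B) (h3 : ⟪n, x⟫ ∈ Icc h₁ h₂) :
    ∃ l, x ∈ arc e y n a B (u l) := by
  have k := F.decomp x
  rw [h1] at k
  obtain ⟨l, hl⟩ := (S.iff _ (abs_le.1 h2) _).1 ⟨h3, k.symm ▸ h0⟩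
  exact ⟨l, _, abs_le.1 h2, by simp only [hl, k]⟩

theorem Sh.inj (S : Sh w e y n σ a B h₁ h₂ u) (F : Fr e y n) {l l' : Fin k} {x : E3}
    (h : x ∈ arc e y n a B (u l)) (h' : x ∈ arc e y n a B (u l')) : l = l' := by
  obtain ⟨b, hb, rfl⟩ := h
  obtain ⟨b', -, k⟩ := h'
  obtain ⟨-, rfl, k2⟩ := F.pt_inj k
  exact (S.mono _ hb).injective k2.symm

theorem arcs_inj (S0 : Sh w e y n σ a₀ B h₁ h₂ u) (S1 : Sh w e y n σ a₁ B h₁ h₂ v) (F : Fr e y n)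
    (h01 : a₀ < a₁) {i j : Fin k ⊕ Fin k} {x : E3} (hi : x ∈ arcs e y n a₀ a₁ B u v i)
    (hj : x ∈ arcs e y n a₀ a₁ B u v j) : i = j := by
  rcases i with i | i <;> rcases j with j | j
  · exact congrArg _ (S0.inj F hi hj)
  · exact (h01.ne ((S0.arc_mem F hi).2.1.symm.trans (S1.arc_mem F hj).2.1)).elim
  · exact (h01.ne ((S0.arc_mem F hj).2.1.symm.trans (S1.arc_mem F hi).2.1)).elim
  · exact congrArg _ (S1.inj F hi hj)

/-- the arcs `O i` in the compact set `K` match the labels `A i` in pairs -/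
structure WD {ι : Type} (K : Set E3) (A : ι → Set E3) (μ : ι → ι) (O : ι → Set E3) : Prop where
  cpt : ∀ i, IsCompact (O i)
  con : ∀ i, IsPreconnected (O i)
  sub : ∀ i, O i ⊆ K
  cl : ∀ i, IsClosed (K \ O i)
  m1 : ∀ i, A i ∩ K ⊆ O i
  m2 : ∀ i, A (μ i) ∩ K ⊆ O i
  n1 : ∀ i, (A i ∩ O i).Nonempty
  n2 : ∀ i, (A (μ i) ∩ O i).Nonempty
  off : ∀ i j, (A j ∩ O i).Nonempty → j = i ∨ j = μ i
  ne : ∀ i, μ i ≠ i
  inv : ∀ i, μ (μ i) = i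

/-- the part of the surface in a wall -/
def wl (w : E3 → ℝ) (e n : E3) (a₀ a₁ h₁ h₂ : ℝ) (g : E3 → ℝ) : Set E3 :=
  {x | w x = 0 ∧ ⟪e, x⟫ ∈ Icc a₀ a₁ ∧ ⟪n, x⟫ ∈ Icc h₁ h₂ ∧ g x = 0}

theorem exists_wall (hS : Shr w) (F : Fr e y n) (σ0 : 0 < σ) (h01 : a₀ < a₁)
    (S0 : Sh w e y n σ a₀ B h₁ h₂ u) (S1 : Sh w e y n σ a₁ B h₁ h₂ v)
    (conf : ∀ x, w x = 0 → ⟪e, x⟫ ∈ Icc a₀ a₁ → |⟪y, x⟫| ≤ B → ⟪n, x⟫ ≠ h₁ ∧ ⟪n, x⟫ ≠ h₂)
    {c δ : ℝ} (δ0 : 0 < δ) (hc : |c| + δ ≤ B) :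
    ∃ (g : E3 → ℝ) (μ : Fin k ⊕ Fin k → Fin k ⊕ Fin k) (O : Fin k ⊕ Fin k → Set E3), Continuous g ∧
      (∀ x, ⟪e, x⟫ ∈ Icc a₀ a₁ → ⟪n, x⟫ ∈ Icc h₁ h₂ → |g x - (⟪y, x⟫ - c)| ≤ δ) ∧
      WD (wl w e n a₀ a₁ h₁ h₂ g) (arcs e y n a₀ a₁ B u v) μ O ∧
      ((∀ l, ∃ l', μ (inl l) = inr l') → ∀ l, μ (inl l) = inr l) := by
  set M := 1 + (|a₀| + |a₁|) + (|h₁| + |h₂|) with hM
  have M0 : 0 < M := by positivity
  obtain ⟨α, β, τ, g1, g2, g3, g4⟩ := gen w e y n c (min (δ / M) σ) (contDiff_two hS.smooth) F.on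
    (lt_min (div_pos δ0 M0) σ0)
  set ξ := y - α • e - β • n with hξ
  have iξ : ∀ x, ⟪ξ, x⟫ = ⟪y, x⟫ - α * ⟪e, x⟫ - β * ⟪n, x⟫ := fun x => by
    simp only [hξ, inner_sub_left, real_inner_smul_left]
  have err : ∀ s ∈ Icc a₀ a₁, ∀ h ∈ Icc h₁ h₂, |α * s + τ + β * h - c| ≤ δ := fun s hs h hh => by
    have i1 : |s| ≤ |a₀| + |a₁| := (abs_le_max_abs_abs hs.1 hs.2).trans
      (max_le_add_of_nonneg (abs_nonneg _) (abs_nonneg _))
    have i2 : |h| ≤ |h₁| + |h₂| := (abs_le_max_abs_abs hh.1 hh.2).trans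
      (max_le_add_of_nonneg (abs_nonneg _) (abs_nonneg _))
    have j1 := (g1.trans_le (min_le_left _ _)).le
    have j2 := (g2.trans_le (min_le_left _ _)).le
    have j3 := (g3.trans_le (min_le_left _ _)).le
    calc _ = |τ - c + α * s + β * h| := by ring_nf
      _ ≤ |τ - c| + |α| * |s| + |β| * |h| := by
          rw [← abs_mul, ← abs_mul]; exact abs_add_three _ _ _
      _ ≤ δ / M + δ / M * (|a₀| + |a₁|) + δ / M * (|h₁| + |h₂|) := by gcongr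
      _ = δ / M * M := by rw [hM]; ring
      _ = δ := div_mul_cancel₀ _ M0.ne'
  have err' : ∀ s ∈ Icc a₀ a₁, ∀ h ∈ Icc h₁ h₂, |α * s + τ + β * h| ≤ B := fun s hs h hh => by
    linarith [abs_sub_abs_le_abs_sub (α * s + τ + β * h) c, err s hs h hh]
  have B0 : 0 ≤ B := by linarith [abs_nonneg c]
  have hβ : |β| < σ := g2.trans_le (min_le_right _ _)
  obtain ⟨P, P1, P2, P3⟩ := S0.label σ0 hβ (err' a₀ (left_mem_Icc.2 h01.le)) B0
  obtain ⟨Q, Q1, Q2, Q3⟩ := S1.label σ0 hβ (err' a₁ (right_mem_Icc.2 h01.le)) B0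
  set K := wl w e n a₀ a₁ h₁ h₂ fun x => ⟪ξ, x⟫ - τ with hK
  have Ky : ∀ x ∈ K, ⟪y, x⟫ = α * ⟪e, x⟫ + τ + β * ⟪n, x⟫ := fun x hx => by
    linarith [hx.2.2.2, iξ x]
  have KB : ∀ x ∈ K, |⟪y, x⟫| ≤ B := fun x hx => Ky x hx ▸ err' _ hx.2.1 _ hx.2.2.1
  have Kcl : IsClosed K := by
    simp only [hK, wl, ofPred_and]
    exact hS.closed.inter ((isClosed_Icc.preimage (by fun_prop)).inter
      ((isClosed_Icc.preimage (by fun_prop)).inter (isClosed_eq (by fun_prop) (by fun_prop))))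
  have Kc : IsCompact K := F.isCompact Kcl (C := M + B) fun x hx => by
    have i1 := (abs_le_max_abs_abs hx.2.1.1 hx.2.1.2).trans
      (max_le_add_of_nonneg (abs_nonneg _) (abs_nonneg _))
    have i2 := (abs_le_max_abs_abs hx.2.2.1.1 hx.2.2.1.2).trans
      (max_le_add_of_nonneg (abs_nonneg _) (abs_nonneg _))
    have := add_nonneg (abs_nonneg a₀) (abs_nonneg a₁)
    have := add_nonneg (abs_nonneg h₁) (abs_nonneg h₂)
    exact ⟨by linarith, by linarith [KB x hx], by linarith⟩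
  -- the flow
  have reg : ∀ x, w x = 0 → innerSL ℝ ξ x = τ → fld w (innerSL ℝ ξ) x ≠ 0 := fun x h0 h1 h2 => by
    rw [fld, ContinuousLinearMap.fderiv] at h2
    have k := eq_smul_of_cr h2 (y := y) (by simp [iξ, F.norm_y, F.ey, F.ny])
    have := g4 x _ h0 h1 k
    rw [this, zero_smul] at k
    exact hS.ne x h0 (grad_unique fun z => by simp [k])
  obtain ⟨R, hR⟩ := Kc.isBounded.subset_ball 0
  obtain ⟨γ, Fl, dγ⟩ := exists_flw (contDiff_two hS.smooth) (innerSL ℝ ξ).contDiff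
    (U := Metric.ball 0 R ∩ ({x | ⟪n, x⟫ ∈ Ioo h₁ h₂}))
    (Metric.isOpen_ball.inter (isOpen_Ioo.preimage (by fun_prop)))
    (Metric.isBounded_ball.subset inter_subset_left) reg
  have KU : ∀ x ∈ K, x ∈ Metric.ball (0 : E3) R ∩ {x | ⟪n, x⟫ ∈ Ioo h₁ h₂} := fun x hx =>
    ⟨hR hx, hx.2.2.1.1.lt_of_ne (conf x hx.1 hx.2.1 (KB x hx)).1.symm,
      hx.2.2.1.2.lt_of_ne (conf x hx.1 hx.2.1 (KB x hx)).2⟩
  -- the label points
  let pnt : Fin k ⊕ Fin k → E3 := Sum.elim (fun l => pt e y n a₀ (P l) (u l (P l)))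
    fun l => pt e y n a₁ (Q l) (v l (Q l))
  have pA : ∀ i, pnt i ∈ arcs e y n a₀ a₁ B u v i := by
    rintro (l | l)
    exacts [⟨_, (P1 l).1, rfl⟩, ⟨_, (Q1 l).1, rfl⟩]
  have pa : ∀ i, ⟪e, pnt i⟫ = a₀ ∨ ⟪e, pnt i⟫ = a₁ := by
    rintro (l | l)
    exacts [Or.inl (F.e_pt ..), Or.inr (F.e_pt ..)]
  have pK : ∀ i, pnt i ∈ K := by
    rintro (l | l)
    · obtain ⟨m1, m2, -, m4, -⟩ := S0.arc_mem F (pA (inl l))
      refine ⟨m1, ⟨m2.ge, m2.le.trans h01.le⟩, m4, ?_⟩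
      simp only [pnt, elim_inl, iξ, F.e_pt, F.y_pt, F.n_pt]
      linarith [(P1 l).2]
    · obtain ⟨m1, m2, -, m4, -⟩ := S1.arc_mem F (pA (inr l))
      refine ⟨m1, ⟨h01.le.trans m2.ge, m2.le⟩, m4, ?_⟩
      simp only [pnt, elim_inr, iξ, F.e_pt, F.y_pt, F.n_pt]
      linarith [(Q1 l).2]
  have pU : ∀ i, ∀ x ∈ arcs e y n a₀ a₁ B u v i, x ∈ K → x = pnt i := by
    rintro (l | l) _ ⟨b, hb, rfl⟩ hx
    · have := Ky _ hx
      simp only [F.e_pt, F.y_pt, F.n_pt] at this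
      rw [P2 l b hb this]; rfl
    · have := Ky _ hx
      simp only [F.e_pt, F.y_pt, F.n_pt] at this
      rw [Q2 l b hb this]; rfl
  have pL : ∀ x ∈ K, ⟪e, x⟫ = a₀ ∨ ⟪e, x⟫ = a₁ → ∃ i, x = pnt i ∧ σ ≤ |⟪nuW w x, n⟫| := by
    rintro x hx (h | h)
    · obtain ⟨l, hl⟩ := S0.cover F hx.1 h (KB x hx) hx.2.2.1
      exact ⟨inl l, pU (inl l) x hl hx, (S0.arc_mem F hl).2.2.2.2⟩
    · obtain ⟨l, hl⟩ := S1.cover F hx.1 h (KB x hx) hx.2.2.1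
      exact ⟨inr l, pU (inr l) x hl hx, (S1.arc_mem F hl).2.2.2.2⟩
  have pI : ∀ i j, pnt i = pnt j → i = j := fun i j h => arcs_inj S0 S1 F h01 (pA i) (h ▸ pA j)
  have ex := fun i => exists_arc Fl (a := fun x => ⟪e, x⟫) (by fun_prop) h01 Kc Kcl
    (fun x => ⟨fun hx => ⟨⟨hx.1, sub_eq_zero.1 hx.2.2.2, KU x hx⟩, hx.2.1⟩, fun hx =>
      ⟨hx.1.1, hx.2, Ioo_subset_Icc_self hx.1.2.2.2, sub_eq_zero.2 hx.1.2.1⟩⟩)
    (fun p hp hp' => by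
      obtain ⟨l, l0, d⟩ := dγ p (KU p hp)
      obtain ⟨-, -, t⟩ := pL p hp hp'
      refine ⟨_, fun z => ?_, (innerSL ℝ e).hasFDerivAt.comp_hasDerivAt 0 d⟩
      set f := fld w (innerSL ℝ ξ) p with hf
      have z1 : ⟪e, f⟫ = 0 := by simpa [l0] using z
      have z2 : fderiv ℝ w p f = 0 := cr_left _ _
      have z3 : ⟪ξ, f⟫ = 0 := by
        have := cr_right (fderiv ℝ w p) (fderiv ℝ (innerSL ℝ ξ) p)
        rwa [← fld, ← hf, ContinuousLinearMap.fderiv] at this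
      rw [fderiv_eq_nu, mul_eq_zero, or_iff_right (norm_pos_iff.2 (hS.ne p hp.1)).ne', F.inner_eq,
        z1, real_inner_comm (nuW w p) y, real_inner_comm (nuW w p) n] at z2
      rw [iξ, z1] at z3
      have z4 : ⟪n, f⟫ = 0 := by
        by_contra k
        have k1 : ⟪nuW w p, n⟫ = -(β * ⟪nuW w p, y⟫) := mul_right_cancel₀ k (by
          rw [show ⟪y, f⟫ = β * ⟪n, f⟫ by linarith] at z2; linarith)
        rw [k1, abs_neg, abs_mul] at t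
        nlinarith [abs_nu_le hS hp.1 F.norm_y, abs_nonneg β]
      refine reg p hp.1 (sub_eq_zero.1 hp.2.2.2) (norm_eq_zero.1 (pow_eq_zero_iff two_ne_zero |>.1 ?_))
      rw [F.norm_sq, z1, z4, show ⟪y, f⟫ = 0 by rw [z4] at z3; linarith]
      norm_num) (pK i) (pa i)
  choose C C1 C2 C3 C4 C5 C6 C7 using ex
  have o1 : (1 : ℝ) ∈ Icc (0 : ℝ) 1 := right_mem_Icc.2 zero_le_one
  have o0 : (0 : ℝ) ∈ Icc (0 : ℝ) 1 := left_mem_Icc.2 zero_le_one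
  choose μ hμ using fun i => (pL _ (C5 i 1 o1) (C3 i)).imp fun _ h => h.1
  have sub : ∀ i, C i '' Icc 0 1 ⊆ K := fun i => image_subset_iff.2 (C5 i)
  have cpt : ∀ i, IsCompact (C i '' Icc 0 1) := fun i => isCompact_Icc.image (C1 i)
  have con : ∀ i, IsPreconnected (C i '' Icc 0 1) := fun i =>
    isPreconnected_Icc.image _ (C1 i).continuousOn
  have O0 : ∀ i, pnt i ∈ C i '' Icc 0 1 := fun i => ⟨0, o0, C2 i⟩
  have O1 : ∀ i, pnt (μ i) ∈ C i '' Icc 0 1 := fun i => ⟨1, o1, hμ i⟩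
  have off : ∀ i j, pnt j ∈ C i '' Icc 0 1 → j = i ∨ j = μ i := by
    rintro i j ⟨t, ht, k⟩
    rcases ht.1.eq_or_lt with rfl | t0
    · exact Or.inl (pI _ _ (k.symm.trans (C2 i)))
    rcases ht.2.eq_or_lt with rfl | t1
    · exact Or.inr (pI _ _ (k.symm.trans (hμ i)))
    have m := C7 i t ⟨t0, t1⟩
    rw [k] at m
    rcases pa j with z | z
    exacts [(m.1.ne' z).elim, (m.2.ne z).elim]
  have ne : ∀ i, μ i ≠ i := fun i h => C4 i (by rw [hμ, h])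
  have OO : ∀ i j, (C j '' Icc 0 1 ∩ C i '' Icc 0 1).Nonempty → C j '' Icc 0 1 ⊆ C i '' Icc 0 1 :=
    fun i j h => sub_of_clopen (con j) (sub j) (cpt i).isClosed (C6 i) h
  have inv : ∀ i, μ (μ i) = i := fun i =>
    (off i _ (OO i (μ i) ⟨_, O0 _, O1 i⟩ (O1 _))).resolve_right (ne _)
  refine ⟨fun x => ⟪ξ, x⟫ - τ, μ, fun i => C i '' Icc 0 1, by fun_prop, fun x h1 h2 => ?_,
    ⟨cpt, con, sub, C6, fun i x hx => pU i x hx.1 hx.2 ▸ O0 i,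
      fun i x hx => pU _ x hx.1 hx.2 ▸ O1 i, fun i => ⟨_, pA i, O0 i⟩, fun i => ⟨_, pA _, O1 i⟩,
      fun i j ⟨x, x1, x2⟩ => off i j (pU j x x1 (sub i x2) ▸ x2), ne, inv⟩, fun hb => ?_⟩
  · rw [← abs_neg]
    simp only [iξ]
    convert err _ h1 _ h2 using 2
    ring
  · choose b hb using hb
    have sm : StrictMono b := fun l l' hl => by
      by_contra! hc
      rcases hc.eq_or_lt with k | k
      · have := (inv (inl l)).symm.trans ((congrArg μ ((hb l).trans (k ▸ (hb l').symm))).trans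
          (inv (inl l')))
        exact hl.ne (inl_injective this)
      have c0 : ∀ l, C (inl l) 0 = pt e y n a₀ (P l) (u l (P l)) := fun l => C2 _
      have c1 : ∀ l, C (inl l) 1 = pt e y n a₁ (Q (b l)) (v (b l) (Q (b l))) := fun l => by
        rw [hμ, hb]; rfl
      have cc : ∀ i, ContinuousOn (fun t => (⟪e, C i t⟫, ⟪n, C i t⟫)) (Icc 0 1) := fun i => by
        have := C1 i
        fun_prop
      obtain ⟨s, hs, t, ht, m⟩ := cross _ _ a₀ a₁ (cc (inl l)) (cc (inl l'))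
        (fun t ht => ⟨(C5 _ t ht).2.1, (C5 _ t ht).2.1⟩) (by simp [c0, F.e_pt]) (by simp [c0, F.e_pt])
        (by simp [c1, F.e_pt]) (by simp [c1, F.e_pt]) (by simpa [c0, F.n_pt] using P3 hl)
        (by simpa [c1, F.n_pt] using Q3 k)
      obtain ⟨m1, m2⟩ := Prod.mk.inj m
      have m3 : C (inl l) s = C (inl l') t := by
        rw [← F.decomp (C (inl l) s), ← F.decomp (C (inl l') t), Ky _ (C5 _ s hs), Ky _ (C5 _ t ht),
          m1, m2]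
      rcases off _ _ (OO (inl l) (inl l') ⟨_, ⟨t, ht, rfl⟩, ⟨s, hs, m3⟩⟩ (O0 _)) with z | z
      · exact hl.ne' (inl_injective z)
      · exact inl_ne_inr (z.trans (hb l))
    exact fun l => (hb l).trans (congrArg _ sm.apply_eq)

end Vale.Agent.P218N.CM
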